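import Mathlib

/-!
P140: weak ordinary differential equations and the chain rule for primitives.
-/

namespace Vale.Agent.P140.Homog

open MeasureTheory Real Set
open scoped ENNReal NNReal ContDiff

noncomputable section

theorem intervalIntegrable_of_Ioc {f : ℝ → ℝ} (hf : ∀ T, IntegrableOn f (Ioc 0 T)) {a b : ℝ}
    (ha : 0 ≤ a) (hb : 0 ≤ b) : IntervalIntegrable f volume a b := by
  rw [intervalIntegrable_iff]
  exact (hf (max a b)).mono_set (Ioc_subset_Ioc (le_min ha hb) le_rfl)

theorem continuousOn_primitive_Icc {f : ℝ → ℝ} (hf : ∀ T, IntegrableOn f (Ioc 0 T)) {T : ℝ}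
    (hT : 0 ≤ T) : ContinuousOn (fun t => ∫ s in (0 : ℝ)..t, f s) (Icc 0 T) := by
  have h := (intervalIntegrable_of_Ioc hf le_rfl hT).absolutelyContinuousOnInterval_intervalIntegral
    left_mem_uIcc
  simpa [uIcc_of_le hT] using h.continuousOn

/-- A function of time satisfying a first order equation weakly on `[0, ∞)` is almost everywhere the
primitive of its derivative. -/
theorem weak_ode {a b : ℝ → ℝ} {a0 : ℝ} (ha : ∀ T, IntegrableOn a (Ioc 0 T))
    (hb : ∀ T, IntegrableOn b (Ioc 0 T))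
    (h : ∀ χ : ℝ → ℝ, ContDiff ℝ ∞ χ → HasCompactSupport χ →
      (∫ t in Ioi (0 : ℝ), deriv χ t * a t) + χ 0 * a0 + (∫ t in Ioi (0 : ℝ), χ t * b t) = 0) :
    ∀ᵐ t, t ∈ Ioi (0 : ℝ) → a t = a0 + ∫ s in (0 : ℝ)..t, b s := by
  set B : ℝ → ℝ := fun t => ∫ s in (0 : ℝ)..t, b s with hB
  have hBint : ∀ T, IntegrableOn B (Ioc 0 T) := fun T => by
    rcases le_total 0 T with hT | hT
    · exact ((continuousOn_primitive_Icc hb hT).integrableOn_compact isCompact_Icc).mono_set
        Ioc_subset_Icc_self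
    · simp [Ioc_eq_empty (not_lt.2 hT)]
  have hloc : LocallyIntegrableOn (fun t => a t - a0 - B t) (Ioi (0 : ℝ)) := fun x hx =>
    ⟨Ioc 0 (x + 1), nhdsWithin_le_nhds (Ioc_mem_nhds hx (lt_add_one x)),
      ((ha _).sub (integrableOn_const (by simp))).sub (hBint _)⟩
  refine (isOpen_Ioi.ae_eq_zero_of_integral_contDiff_smul_eq_zero hloc ?_).mono fun t ht ht' => by
    have := ht ht'
    simp only [hB] at this ⊢
    linarith
  intro η hη hηc hηU
  obtain ⟨R₀, hR₀⟩ := hηc.isCompact.bddAbove
  set R := max R₀ 0 + 1 with hR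
  have hRpos : 0 < R := by positivity
  have hη0 : ∀ t, t ∉ Ioc (0 : ℝ) R → η t = 0 := fun t ht => by
    by_contra hne
    have hm : t ∈ tsupport η := subset_tsupport _ hne
    exact ht ⟨hηU hm, (hR₀ hm).trans (by linarith [le_max_left R₀ 0])⟩
  set P : ℝ → ℝ := fun t => ∫ s in R..t, η s with hP
  have hPd : ∀ t, HasDerivAt P (η t) t := fun t => (hη.continuous.integral_hasStrictDerivAt R t).hasDerivAt
  have hPs : ContDiff ℝ ∞ P := contDiff_infty_iff_deriv.2 ⟨fun t => (hPd t).differentiableAt, by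
    rw [show deriv P = η from funext fun t => (hPd t).deriv]; exact hη⟩
  have hP0 : ∀ t, R ≤ t → P t = 0 := fun t ht => by
    rw [hP]
    refine (intervalIntegral.integral_congr_ae (Filter.Eventually.of_forall fun s hs => ?_)).trans
      intervalIntegral.integral_zero
    rw [uIoc_of_le ht] at hs
    exact hη0 s fun hh => absurd hh.2 (not_le.2 hs.1)
  set χ : ℝ → ℝ := fun t => Real.smoothTransition (t + 2) * P t with hχ
  have hχP : ∀ t, -1 ≤ t → χ t = P t := fun t ht => by
    simp [hχ, Real.smoothTransition.one_of_one_le (show (1 : ℝ) ≤ t + 2 by linarith)]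
  have hχs : ContDiff ℝ ∞ χ :=
    (Real.smoothTransition.contDiff.comp (contDiff_id.add contDiff_const)).mul hPs
  have hχc : HasCompactSupport χ := by
    refine HasCompactSupport.intro (isCompact_Icc (a := (-2 : ℝ)) (b := R)) fun t ht => ?_
    rcases lt_or_ge t (-2) with h2 | h2
    · simp [hχ, Real.smoothTransition.zero_of_nonpos (show t + 2 ≤ 0 by linarith)]
    · simp [hχ, hP0 t (not_le.1 fun h' => ht ⟨h2, h'⟩).le]
  have hχd : ∀ t, 0 < t → deriv χ t = η t := fun t ht => by
    refine ((hPd t).congr_of_eventuallyEq ?_).deriv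
    filter_upwards [Ioi_mem_nhds (show -1 < t by linarith)] with s hs using hχP s (le_of_lt hs)
  have e1 : ∫ t in Ioi (0 : ℝ), deriv χ t * a t = ∫ t in (0 : ℝ)..R, η t * a t := by
    rw [intervalIntegral.integral_of_le hRpos.le, setIntegral_congr_fun measurableSet_Ioi
      fun t ht => by rw [hχd t ht]]
    refine setIntegral_eq_of_subset_of_forall_sdiff_eq_zero measurableSet_Ioi Ioc_subset_Ioi_self
      fun t ht => ?_
    simp [hη0 t ht.2]
  have e2 : ∫ t in Ioi (0 : ℝ), χ t * b t = ∫ t in (0 : ℝ)..R, P t * b t := by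
    rw [intervalIntegral.integral_of_le hRpos.le, setIntegral_congr_fun measurableSet_Ioi
      fun t ht => by rw [hχP t (by linarith [mem_Ioi.1 ht])]]
    refine setIntegral_eq_of_subset_of_forall_sdiff_eq_zero measurableSet_Ioi Ioc_subset_Ioi_self
      fun t ht => ?_
    simp [hP0 t (not_le.1 fun h' => ht.2 ⟨ht.1, h'⟩).le]
  have e3 : χ 0 = -∫ t in (0 : ℝ)..R, η t := by
    rw [hχP 0 (by norm_num)]; exact intervalIntegral.integral_symm 0 R
  have hbi := intervalIntegrable_of_Ioc hb le_rfl hRpos.le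
  have hBac := hbi.absolutelyContinuousOnInterval_intervalIntegral left_mem_uIcc
  have hηi : IntervalIntegrable η volume 0 R := hη.continuous.intervalIntegrable _ _
  have hηa : IntervalIntegrable (fun t => η t * a t) volume 0 R :=
    (intervalIntegrable_of_Ioc ha le_rfl hRpos.le).continuousOn_mul hη.continuous.continuousOn
  have hPb : IntervalIntegrable (fun t => P t * b t) volume 0 R :=
    hbi.continuousOn_mul hPs.continuous.continuousOn
  have hηB : IntervalIntegrable (fun t => η t * B t) volume 0 R :=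
    (intervalIntegrable_of_Ioc hBint le_rfl hRpos.le).continuousOn_mul hη.continuous.continuousOn
  have parts : (∫ t in (0 : ℝ)..R, η t * B t) + ∫ t in (0 : ℝ)..R, P t * b t = 0 := by
    have hPac : AbsolutelyContinuousOnInterval P 0 R :=
      (hPs.of_le (by simp)).contDiffOn.absolutelyContinuousOnInterval
    have key := hPac.integral_deriv_mul_eq_sub hBac
    simp only [hP0 R le_rfl, intervalIntegral.integral_same, zero_mul, mul_zero, sub_zero] at key
    rw [← intervalIntegral.integral_add hηB hPb]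
    refine Eq.trans ?_ key
    refine intervalIntegral.integral_congr_ae ?_
    filter_upwards [hbi.ae_hasDerivAt_integral] with t ht ht'
    rw [(hPd t).deriv, (ht (uIoc_subset_uIcc ht') 0 left_mem_uIcc).deriv]
  have fin := h χ hχs hχc
  rw [e1, e2, e3] at fin
  rw [← setIntegral_eq_integral_of_forall_compl_eq_zero (s := Ioc (0 : ℝ) R)
    fun t ht => by simp [hη0 t ht], ← intervalIntegral.integral_of_le hRpos.le]
  simp only [smul_eq_mul, mul_sub]
  rw [intervalIntegral.integral_sub (hηa.sub (hηi.mul_const a0)) hηB,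
    intervalIntegral.integral_sub hηa (hηi.mul_const a0), intervalIntegral.integral_mul_const]
  linear_combination fin - parts

theorem AbsolutelyContinuousOnInterval.lipschitz_comp {f : ℝ → ℝ} {φ : ℝ → ℝ} {K : ℝ≥0}
    {s : Set ℝ} {a b : ℝ} (hφ : LipschitzOnWith K φ s) (hs : MapsTo f (uIcc a b) s)
    (hf : AbsolutelyContinuousOnInterval f a b) :
    AbsolutelyContinuousOnInterval (fun t => φ (f t)) a b := by
  rw [absolutelyContinuousOnInterval_iff] at hf ⊢
  intro ε hε
  obtain ⟨δ, hδ, hd⟩ := hf (ε / (K + 1)) (by positivity)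
  refine ⟨δ, hδ, fun E hE hsum => ?_⟩
  calc ∑ i ∈ Finset.range E.1, dist (φ (f (E.2 i).1)) (φ (f (E.2 i).2))
      ≤ ∑ i ∈ Finset.range E.1, K * dist (f (E.2 i).1) (f (E.2 i).2) :=
        Finset.sum_le_sum fun i hi => hφ.dist_le_mul _ (hs (hE.1 i hi).1) _ (hs (hE.1 i hi).2)
    _ = K * ∑ i ∈ Finset.range E.1, dist (f (E.2 i).1) (f (E.2 i).2) := (Finset.mul_sum _ _ _).symm
    _ ≤ K * (ε / (K + 1)) := mul_le_mul_of_nonneg_left (hd E hE hsum).le K.2
    _ < ε := by
        rw [mul_div_assoc', div_lt_iff₀ (by positivity)]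
        nlinarith [K.2]

/-- The chain rule for a continuously differentiable function of a primitive. -/
theorem chain_primitive {φ q : ℝ → ℝ} {c : ℝ} (hφ : ContDiff ℝ 1 φ)
    (hq : ∀ T, IntegrableOn q (Ioc 0 T)) {a b : ℝ} (ha : 0 ≤ a) (hab : a ≤ b) :
    φ (c + ∫ s in (0 : ℝ)..b, q s) - φ (c + ∫ s in (0 : ℝ)..a, q s)
      = ∫ τ in a..b, deriv φ (c + ∫ s in (0 : ℝ)..τ, q s) * q τ := by
  set γ : ℝ → ℝ := fun t => c + ∫ s in (0 : ℝ)..t, q s with hγ
  have hb : 0 ≤ b := ha.trans hab
  have hqi := intervalIntegrable_of_Ioc hq le_rfl hb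
  have hsub : uIcc a b ⊆ uIcc 0 b := by
    rw [uIcc_of_le hab, uIcc_of_le hb]; exact Icc_subset_Icc ha le_rfl
  have hγac : AbsolutelyContinuousOnInterval γ a b :=
    ((LipschitzWith.const c).lipschitzOnWith.absolutelyContinuousOnInterval.add
      (hqi.absolutelyContinuousOnInterval_intervalIntegral left_mem_uIcc)).mono hsub
  obtain ⟨R, hR⟩ := hγac.exists_bound
  obtain ⟨K, hK⟩ := hφ.contDiffOn.exists_lipschitzOnWith (s := Icc (-R) R) (by decide)
    (convex_Icc _ _) isCompact_Icc
  have hac := AbsolutelyContinuousOnInterval.lipschitz_comp hK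
    (fun t ht => abs_le.1 (Real.norm_eq_abs _ ▸ hR t ht)) hγac
  rw [← hac.integral_deriv_eq_sub]
  refine intervalIntegral.integral_congr_ae ?_
  filter_upwards [hqi.ae_hasDerivAt_integral] with t ht ht'
  exact (((hφ.differentiable (by decide) (γ t)).hasDerivAt.comp t
    ((ht (hsub (uIoc_subset_uIcc ht')) 0 left_mem_uIcc).const_add c))).deriv

end

end Vale.Agent.P140.Homog
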