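import Vale.Agent.P140.Ramp
import Vale.Agent.P140.Weak

/-!
P140: the positive part of the difference between a primitive and a renormalized solution of an
equation in time, averaged over a probability space.
-/

namespace Vale.Agent.P140.Homog

open MeasureTheory Real Set Filter
open scoped Topology ContDiff

noncomputable section

variable {X : Type*} [MeasurableSpace X] {μ : Measure X} [IsProbabilityMeasure μ]

/-- The data of `core_chain`. -/
structure CoreData (μ : Measure X) where
  γ0 : ℝ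
  q : ℝ → ℝ
  G : ℝ × X → ℝ
  R : ℝ × X → ℝ
  P : ℝ × X → ℝ
  measG : Measurable G
  measR : Measurable R
  measq : Measurable q
  G_nonneg : ∀ p, 0 ≤ G p
  q_int : ∀ a b, IntervalIntegrable q volume a b
  P_int : ∀ T, Integrable P ((volume.restrict (Ioc 0 T)).prod μ)
  R_bound : ∀ p a C, |a| ≤ C / (1 + G p) → |a * R p| ≤ C * P p

namespace CoreData

variable (c : CoreData μ)

/-- The primitive. -/
def γ (t : ℝ) : ℝ := c.γ0 + ∫ s in (0 : ℝ)..t, c.q s

theorem continuous_γ : Continuous c.γ :=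
  continuous_const.add (intervalIntegral.continuous_primitive c.q_int 0)

theorem bound_cut {φ : ℝ → ℝ} {L : ℝ} (hφ : ∀ y, |φ y| ≤ L) (hφ0 : ∀ y, y < 0 → φ y = 0)
    {a : ℝ} {N : ℝ} (ha : |a| ≤ N) (p : ℝ × X) :
    |φ (a - c.G p) * c.R p| ≤ L * (1 + N) * c.P p := by
  refine c.R_bound p _ _ ?_
  have hG := c.G_nonneg p
  have hL : 0 ≤ L := (abs_nonneg _).trans (hφ 0)
  rcases lt_or_ge (a - c.G p) 0 with h | h
  · rw [hφ0 _ h, abs_zero]
    have := (abs_nonneg a).trans ha
    positivity
  · refine (hφ _).trans ?_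
    rw [le_div_iff₀ (by linarith)]
    exact mul_le_mul_of_nonneg_left (by linarith [le_abs_self a]) hL

theorem integrable_cut {φ : ℝ → ℝ} {L : ℝ} (hφc : Continuous φ) (hφ : ∀ y, |φ y| ≤ L)
    (hφ0 : ∀ y, y < 0 → φ y = 0) {a : ℝ → ℝ} (ham : Measurable a) {N T : ℝ}
    (ha : ∀ t ∈ Ioc 0 T, |a t| ≤ N) :
    Integrable (fun p => φ (a p.1 - c.G p) * c.R p) ((volume.restrict (Ioc 0 T)).prod μ) := by
  refine ((c.P_int T).const_mul (L * (1 + N))).mono'
    ((hφc.measurable.comp ((ham.comp measurable_fst).sub c.measG)).mul c.measR).aestronglyMeasurable ?_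
  filter_upwards [Measure.quasiMeasurePreserving_fst.ae (ae_restrict_mem measurableSet_Ioc)]
    with p hp
  exact c.bound_cut hφ hφ0 (ha _ hp) p

/-- An identity valid for rational parameters extends to all parameters. -/
theorem ext_real {φ0 φ1 : ℝ → ℝ} {L : ℝ} (h0c : Continuous φ0) (h0 : ∀ y, |φ0 y| ≤ 1 + max y 0)
    (h1c : Continuous φ1) (h1 : ∀ y, |φ1 y| ≤ L) (h1z : ∀ y, y < 0 → φ1 y = 0)
    (hid : ∀ r : ℚ, ∀ᵐ t, t ∈ Ioi (0 : ℝ) → ∫ x, φ0 (r - c.G (t, x)) ∂μ
      = φ0 (r - c.γ0) - ∫ s in (0 : ℝ)..t, ∫ x, φ1 (r - c.G (s, x)) * c.R (s, x) ∂μ) :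
    ∀ᵐ t, t ∈ Ioi (0 : ℝ) → ∀ a : ℝ, ∫ x, φ0 (a - c.G (t, x)) ∂μ
      = φ0 (a - c.γ0)
        - ∫ p, φ1 (a - c.G p) * c.R p ∂(volume.restrict (Ioc 0 t)).prod μ := by
  filter_upwards [ae_all_iff.2 hid] with t ht htpos a
  have hint : ∀ a : ℝ, Integrable (fun p => φ1 (a - c.G p) * c.R p)
      ((volume.restrict (Ioc 0 t)).prod μ) := fun a =>
    c.integrable_cut h1c h1 h1z (a := fun _ => a) measurable_const (N := |a|) fun _ _ => le_rfl
  have hl : Continuous fun a => ∫ x, φ0 (a - c.G (t, x)) ∂μ := by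
    refine continuous_iff_continuousAt.2 fun a₀ => continuousAt_of_dominated
      (bound := fun _ => 2 + |a₀|) ?_ ?_ (integrable_const _) ?_
    · exact Eventually.of_forall fun a => (h0c.measurable.comp
        (measurable_const.sub (c.measG.comp measurable_prodMk_left))).aestronglyMeasurable
    · filter_upwards [Metric.ball_mem_nhds a₀ one_pos] with a ha
      rw [Metric.mem_ball, Real.dist_eq, abs_lt] at ha
      refine Eventually.of_forall fun x => (h0 _).trans ?_
      have := c.G_nonneg (t, x)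
      have : max (a - c.G (t, x)) 0 ≤ 1 + |a₀| :=
        max_le (by linarith [le_abs_self a₀]) (by positivity)
      linarith
    · exact Eventually.of_forall fun x => (h0c.comp (continuous_id.sub continuous_const)).continuousAt
  have hr : Continuous fun a => ∫ p, φ1 (a - c.G p) * c.R p ∂(volume.restrict (Ioc 0 t)).prod μ := by
    refine continuous_iff_continuousAt.2 fun a₀ => continuousAt_of_dominated
      (bound := fun p => L * (1 + (|a₀| + 1)) * c.P p) ?_ ?_ ((c.P_int t).const_mul _) ?_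
    · exact Eventually.of_forall fun a => (hint a).aestronglyMeasurable
    · filter_upwards [Metric.ball_mem_nhds a₀ one_pos] with a ha
      rw [Metric.mem_ball, Real.dist_eq, abs_lt] at ha
      exact Eventually.of_forall fun p => c.bound_cut h1 h1z
        (abs_le.2 ⟨by linarith [neg_abs_le a₀], by linarith [le_abs_self a₀]⟩) p
    · exact Eventually.of_forall fun p =>
        ((h1c.comp (continuous_id.sub continuous_const)).mul continuous_const).continuousAt
  refine congrFun (hl.ext_on Rat.denseRange_cast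
    ((h0c.comp (continuous_id.sub continuous_const)).sub hr) ?_) a
  rintro _ ⟨r, rfl⟩
  show ∫ x, φ0 ((r : ℝ) - c.G (t, x)) ∂μ = _
  rw [ht r htpos, intervalIntegral.integral_of_le (le_of_lt htpos)]
  simp only [Pi.sub_apply, Function.comp_apply, id_eq]
  rw [integral_prod _ (hint r)]

/-- The identity for a smooth positive part. -/
theorem core_smooth (n : ℕ)
    (h1 : ∀ r : ℚ, ∀ᵐ t, t ∈ Ioi (0 : ℝ) → ∫ x, sP n (r - c.G (t, x)) ∂μ
      = sP n (r - c.γ0) - ∫ s in (0 : ℝ)..t, ∫ x, sS n (r - c.G (s, x)) * c.R (s, x) ∂μ)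
    (h2 : ∀ r : ℚ, ∀ᵐ t, t ∈ Ioi (0 : ℝ) → ∫ x, sS n (r - c.G (t, x)) ∂μ
      = sS n (r - c.γ0) - ∫ s in (0 : ℝ)..t, ∫ x, deriv (sS n) (r - c.G (s, x)) * c.R (s, x) ∂μ) :
    ∀ᵐ t, t ∈ Ioi (0 : ℝ) → ∫ x, sP n (c.γ t - c.G (t, x)) ∂μ
      = ∫ p, sS n (c.γ p.1 - c.G p) * (c.q p.1 - c.R p) ∂(volume.restrict (Ioc 0 t)).prod μ := by
  obtain ⟨L, hL0, hL⟩ := deriv_sS_bound n
  have e1 := c.ext_real (contDiff_sP n).continuous
    (fun y => (abs_sP_le n y).trans (by linarith)) (continuous_sS n) (abs_sS_le n)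
    (fun y hy => sS_nonpos n hy.le) h1
  have e2 := c.ext_real (continuous_sS n)
    (fun y => (abs_sS_le n y).trans (by linarith [le_max_right y 0]))
    (continuous_deriv_sS n) hL (fun y hy => deriv_sS_neg n hy) h2
  filter_upwards [e1] with t ht htpos
  have ht0 : 0 ≤ t := le_of_lt htpos
  set μt := volume.restrict (Ioc (0 : ℝ) t) with hμt
  obtain ⟨N, hN⟩ := isCompact_Icc.exists_bound_of_continuousOn (s := Icc (0 : ℝ) t)
    c.continuous_γ.continuousOn
  have hqt : Integrable c.q μt := (c.q_int 0 t).1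
  have hqI : ∀ T, IntegrableOn c.q (Ioc 0 T) := fun T => (c.q_int 0 T).1
  have hγm := c.continuous_γ.measurable
  have hs : ∀ (p : ℝ × X), p.1 ∈ Ioc (0 : ℝ) t →
      sS n (c.γ t - c.G p) * c.R p = sS n (c.γ p.1 - c.G p) * c.R p
        + ∫ τ, (Ioi p.1).indicator (fun τ => deriv (sS n) (c.γ τ - c.G p) * c.R p * c.q τ) τ ∂μt := by
    intro p hp
    have h := chain_primitive (c := c.γ0 - c.G p) ((contDiff_sS n).of_le (by decide)) hqI hp.1.le hp.2
    have e : ∀ τ, c.γ0 - c.G p + ∫ s in (0 : ℝ)..τ, c.q s = c.γ τ - c.G p := fun τ => by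
      simp only [γ]; ring
    simp only [e] at h
    rw [← sub_eq_iff_eq_add', ← sub_mul, h, integral_indicator measurableSet_Ioi,
      hμt, Measure.restrict_restrict measurableSet_Ioi, intervalIntegral.integral_of_le hp.2,
      ← integral_mul_const]
    have hset : Ioi p.1 ∩ Ioc (0 : ℝ) t = Ioc p.1 t := by
      ext τ; simp only [mem_inter_iff, mem_Ioi, mem_Ioc]
      exact ⟨fun h => ⟨h.1, h.2.2⟩, fun h => ⟨h.1, hp.1.trans h.1, h.2⟩⟩
    rw [hset]
    exact integral_congr_ae (Eventually.of_forall fun τ => by ring)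
  set K : (ℝ × X) → ℝ → ℝ := fun p τ =>
    (Ioi p.1).indicator (fun τ => deriv (sS n) (c.γ τ - c.G p) * c.R p * c.q τ) τ with hK
  have hKi : Integrable (Function.uncurry K) ((μt.prod μ).prod μt) := by
    refine (((c.P_int t).const_mul (L * (1 + N))).mul_prod hqt.norm).mono' ?_ ?_
    · have : Function.uncurry K = {r : (ℝ × X) × ℝ | r.1.1 < r.2}.indicator
          (fun r => deriv (sS n) (c.γ r.2 - c.G r.1) * c.R r.1 * c.q r.2) := by
        funext r; simp [hK, Function.uncurry, indicator_apply]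
      rw [this]
      refine (Measurable.indicator ?_ (measurableSet_lt measurable_fst.fst measurable_snd)).aestronglyMeasurable
      exact (((continuous_deriv_sS n).measurable.comp ((hγm.comp measurable_snd).sub
        (c.measG.comp measurable_fst))).mul (c.measR.comp measurable_fst)).mul
          (c.measq.comp measurable_snd)
    · filter_upwards [Measure.quasiMeasurePreserving_snd.ae (ae_restrict_mem measurableSet_Ioc)]
        with r hr
      simp only [Function.uncurry, hK]
      refine (norm_indicator_le_norm_self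
        (fun τ => deriv (sS n) (c.γ τ - c.G r.1) * c.R r.1 * c.q τ) r.2).trans ?_
      rw [Real.norm_eq_abs, abs_mul]
      exact mul_le_mul_of_nonneg_right
        (c.bound_cut hL (fun y hy => deriv_sS_neg n hy) (hN _ ⟨hr.1.le, hr.2⟩) r.1) (abs_nonneg _)
  have hA := c.integrable_cut (continuous_sS n) (abs_sS_le n) (fun y hy => sS_nonpos n hy.le)
    (a := c.γ) hγm (T := t) (N := N) fun s hs => hN s ⟨hs.1.le, hs.2⟩
  have hq : ∀ {g : ℝ → ℝ}, Measurable g → (∀ τ, |g τ| ≤ 1) →
      Integrable (fun τ => g τ * c.q τ) μt := fun hg hb =>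
    hqt.bdd_mul (c := 1) hg.aestronglyMeasurable (Eventually.of_forall hb)
  have hSq : Integrable (fun p : ℝ × X => sS n (c.γ p.1 - c.G p) * c.q p.1) (μt.prod μ) :=
    (hqt.comp_fst μ).bdd_mul (c := 1) ((continuous_sS n).measurable.comp
      ((hγm.comp measurable_fst).sub c.measG)).aestronglyMeasurable
      (Eventually.of_forall fun p => abs_sS_le n _)
  have hswap : ∀ᵐ τ ∂μt, ∫ p, K p τ ∂μt.prod μ
      = (sS n (c.γ τ - c.γ0) - ∫ x, sS n (c.γ τ - c.G (τ, x)) ∂μ) * c.q τ := by
    filter_upwards [ae_restrict_of_ae e2, ae_restrict_mem measurableSet_Ioc] with τ hτ hτI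
    rw [hτ hτI.1 (c.γ τ), sub_sub_cancel, ← integral_mul_const]
    have hKeq : (fun p => K p τ) = (Iio τ ×ˢ (univ : Set X)).indicator
        (fun p => deriv (sS n) (c.γ τ - c.G p) * c.R p * c.q τ) := by
      funext p; simp [hK, indicator_apply]
    rw [hKeq, integral_indicator (measurableSet_Iio.prod MeasurableSet.univ), ← Measure.prod_restrict,
      Measure.restrict_univ, hμt, Measure.restrict_restrict measurableSet_Iio]
    have hset : Iio τ ∩ Ioc (0 : ℝ) t = Ioo 0 τ := by
      ext s; simp only [mem_inter_iff, mem_Iio, mem_Ioc, mem_Ioo]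
      exact ⟨fun h => ⟨h.2.1, h.1⟩, fun h => ⟨h.2, h.1, (h.2.trans_le hτI.2).le⟩⟩
    rw [hset, Measure.restrict_congr_set Ioo_ae_eq_Ioc]
  have first : sP n (c.γ t - c.γ0) = ∫ τ, sS n (c.γ τ - c.γ0) * c.q τ ∂μt := by
    have h := chain_primitive (c := 0) (contDiff_sP n) hqI le_rfl ht0
    simp only [zero_add, intervalIntegral.integral_same, sP_nonpos n le_rfl, sub_zero,
      deriv_sP, intervalIntegral.integral_of_le ht0] at h
    simpa only [γ, add_sub_cancel_left, intervalIntegral.integral_of_le ht0, hμt] using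
      h.trans (setIntegral_congr_fun measurableSet_Ioc fun τ hτ => by
        simp [intervalIntegral.integral_of_le hτ.1.le])
  have hxint : Integrable (fun τ => (∫ x, sS n (c.γ τ - c.G (τ, x)) ∂μ) * c.q τ) μt := by
    simpa only [integral_mul_const] using hSq.integral_prod_left
  rw [ht htpos (c.γ t), first]
  rw [integral_congr_ae (g := fun p => sS n (c.γ p.1 - c.G p) * c.R p + ∫ τ, K p τ ∂μt)
    ((Measure.quasiMeasurePreserving_fst.ae (ae_restrict_mem measurableSet_Ioc)).mono fun p hp =>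
      hs p hp)]
  have hKl : Integrable (fun p => ∫ τ, K p τ ∂μt) (μt.prod μ) := hKi.integral_prod_left
  rw [integral_add hA hKl, integral_integral_swap hKi, integral_congr_ae hswap]
  have hs1 : Integrable (fun τ => sS n (c.γ τ - c.γ0) * c.q τ) μt :=
    hq ((continuous_sS n).measurable.comp (hγm.sub measurable_const)) (fun τ => abs_sS_le n _)
  simp only [sub_mul, mul_sub]
  rw [integral_sub hs1 hxint, integral_sub hSq hA, integral_prod _ hSq]
  simp only [integral_mul_const]
  ring

/-- The identity for the positive part. -/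
theorem core_chain
    (h1 : ∀ (n : ℕ) (r : ℚ), ∀ᵐ t, t ∈ Ioi (0 : ℝ) → ∫ x, sP n (r - c.G (t, x)) ∂μ
      = sP n (r - c.γ0) - ∫ s in (0 : ℝ)..t, ∫ x, sS n (r - c.G (s, x)) * c.R (s, x) ∂μ)
    (h2 : ∀ (n : ℕ) (r : ℚ), ∀ᵐ t, t ∈ Ioi (0 : ℝ) → ∫ x, sS n (r - c.G (t, x)) ∂μ
      = sS n (r - c.γ0)
        - ∫ s in (0 : ℝ)..t, ∫ x, deriv (sS n) (r - c.G (s, x)) * c.R (s, x) ∂μ) :
    ∀ᵐ t, t ∈ Ioi (0 : ℝ) → ∫ x, max (c.γ t - c.G (t, x)) 0 ∂μ
      = ∫ p, {r : ℝ × X | c.G r < c.γ r.1}.indicator (fun r => c.q r.1 - c.R r) p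
          ∂(volume.restrict (Ioc 0 t)).prod μ := by
  filter_upwards [ae_all_iff.2 fun n => c.core_smooth n (h1 n) (h2 n)] with t ht htpos
  obtain ⟨N, hN⟩ := isCompact_Icc.exists_bound_of_continuousOn (s := Icc (0 : ℝ) t)
    c.continuous_γ.continuousOn
  have hγm := c.continuous_γ.measurable
  have hl : Tendsto (fun n => ∫ x, sP n (c.γ t - c.G (t, x)) ∂μ) atTop
      (𝓝 (∫ x, max (c.γ t - c.G (t, x)) 0 ∂μ)) := by
    refine tendsto_integral_of_dominated_convergence (fun _ => |c.γ t|)
      (fun n => ((contDiff_sP n).continuous.measurable.comp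
        (measurable_const.sub (c.measG.comp measurable_prodMk_left))).aestronglyMeasurable)
      (integrable_const _) (fun n => Eventually.of_forall fun x => ?_)
      (Eventually.of_forall fun x => tendsto_sP _)
    refine (abs_sP_le n _).trans (max_le ?_ (abs_nonneg _))
    linarith [le_abs_self (c.γ t), c.G_nonneg (t, x)]
  refine tendsto_nhds_unique hl ?_
  simp only [ht _ htpos]
  refine tendsto_integral_of_dominated_convergence (fun p => |c.q p.1| + (1 + N) * c.P p)
    (fun n => (((continuous_sS n).measurable.comp ((hγm.comp measurable_fst).sub c.measG)).mul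
      ((c.measq.comp measurable_fst).sub c.measR)).aestronglyMeasurable)
    ((((c.q_int 0 t).1.norm).comp_fst μ).add ((c.P_int t).const_mul _)) (fun n => ?_)
    (Eventually.of_forall fun p => ?_)
  · filter_upwards [Measure.quasiMeasurePreserving_fst.ae (ae_restrict_mem measurableSet_Ioc)]
      with p hp
    rw [Real.norm_eq_abs, mul_sub]
    refine (abs_sub _ _).trans (add_le_add ?_ ?_)
    · rw [abs_mul]
      exact mul_le_of_le_one_left (abs_nonneg _) (abs_sS_le n _)
    · simpa using c.bound_cut (abs_sS_le n) (fun y hy => sS_nonpos n hy.le)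
        (hN _ ⟨hp.1.le, hp.2⟩) p
  · have := (tendsto_sS (c.γ p.1 - c.G p)).mul_const (c.q p.1 - c.R p)
    convert this using 2
    simp [indicator_apply]

end CoreData

end

end Vale.Agent.P140.Homog
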