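import Vale.Agent.P140.Renorm
import Vale.Agent.P140.Core

/-!
P140: evolution of the positive part of the difference between the homogeneous solution and a
renormalized solution.
-/

namespace Vale.Agent.P140.Homog

open MeasureTheory Real Set Filter
open scoped ENNReal Topology

noncomputable section

/-- Time in `(0, t]` and position. -/
abbrev txM (t : ℝ) : Measure (ℝ × Pos) := (timeM t).prod volume

theorem isRenorm_sP (n : ℕ) (r : ℝ) : IsRenorm (fun z => sP n (r - z) - sP n r) (1 + |r|) where
  smooth := ((contDiff_sP n).comp (contDiff_const.sub contDiff_id)).sub contDiff_const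
  zero := by simp
  bound z hz := by
    have hd : HasDerivAt (fun z => sP n (r - z) - sP n r) (-sS n (r - z)) z := by
      simpa using (((hasDerivAt_sP n (r - z)).comp z ((hasDerivAt_id z).const_sub r)).sub_const (sP n r))
    rw [hd.deriv, abs_neg, le_div_iff₀ (by linarith)]
    rcases le_or_gt r z with h | h
    · rw [sS_nonpos n (by linarith), abs_zero, zero_mul]; positivity
    · calc |sS n (r - z)| * (1 + z) ≤ 1 * (1 + z) :=
            mul_le_mul_of_nonneg_right (abs_sS_le n _) (by linarith)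
        _ ≤ 1 + |r| := by linarith [le_abs_self r]

theorem deriv_shift_sP (n : ℕ) (r z : ℝ) :
    deriv (fun z => sP n (r - z) - sP n r) z = -sS n (r - z) := by
  have hd : HasDerivAt (fun z => sP n (r - z) - sP n r) (-sS n (r - z)) z := by
    simpa using (((hasDerivAt_sP n (r - z)).comp z ((hasDerivAt_id z).const_sub r)).sub_const (sP n r))
  exact hd.deriv

theorem deriv_shift_sS (n : ℕ) (r z : ℝ) :
    deriv (fun z => sS n (r - z) - sS n r) z = -deriv (sS n) (r - z) := by
  have hd : HasDerivAt (fun z => sS n (r - z) - sS n r) (-deriv (sS n) (r - z)) z := by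
    simpa using ((((contDiff_sS n).differentiable (by decide) (r - z)).hasDerivAt.comp z
      ((hasDerivAt_id z).const_sub r)).sub_const (sS n r))
  exact hd.deriv

theorem isRenorm_sS (n : ℕ) (r : ℝ) {L : ℝ} (hL : ∀ y, |deriv (sS n) y| ≤ L) :
    IsRenorm (fun z => sS n (r - z) - sS n r) (L * (1 + |r|)) where
  smooth := (((contDiff_sS n).of_le (by decide)).comp (contDiff_const.sub contDiff_id)).sub
    contDiff_const
  zero := by simp
  bound z hz := by
    have hL0 : 0 ≤ L := (abs_nonneg _).trans (hL 0)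
    rw [deriv_shift_sS, abs_neg, le_div_iff₀ (by linarith)]
    rcases lt_or_ge (r - z) 0 with h | h
    · rw [deriv_sS_neg n h, abs_zero, zero_mul]; positivity
    · calc |deriv (sS n) (r - z)| * (1 + z) ≤ L * (1 + z) :=
            mul_le_mul_of_nonneg_right (hL _) (by linarith)
        _ ≤ L * (1 + |r|) := mul_le_mul_of_nonneg_left (by linarith [le_abs_self r]) hL0

attribute [local irreducible] gain loss

theorem lintegral_indicator_toReal {α : Type*} [MeasurableSpace α] {μ : Measure α} {S : Set α}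
    {A B : α → ℝ≥0∞} (hA : ∀ᵐ p ∂μ, A p < ⊤) (hB : ∀ᵐ p ∂μ, B p < ⊤)
    (hint : Integrable (S.indicator fun p => (A p).toReal + (B p).toReal) μ) :
    ∫⁻ p, S.indicator (fun p => A p + B p) p ∂μ
      = ENNReal.ofReal (∫ p, S.indicator (fun p => (A p).toReal + (B p).toReal) p ∂μ) := by
  rw [ofReal_integral_eq_lintegral_ofReal hint (Eventually.of_forall fun p =>
    indicator_nonneg (fun q _ => add_nonneg ENNReal.toReal_nonneg ENNReal.toReal_nonneg) p)]
  refine lintegral_congr_ae ?_
  filter_upwards [hA, hB] with p ha hb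
  by_cases hp : p ∈ S
  · simp only [indicator_of_mem hp]
    rw [ENNReal.ofReal_add ENNReal.toReal_nonneg ENNReal.toReal_nonneg,
      ENNReal.ofReal_toReal ha.ne, ENNReal.ofReal_toReal hb.ne]
  · simp [indicator_of_notMem hp]

namespace IsRenormSol

variable {d : Datum} {F : ℝ → Pos → Vel → ℝ} (h : IsRenormSol d.f₀ F)
include h

theorem qd_fin (T : ℝ) : ∀ᵐ p ∂stM T, gain (F p.1 p.2.1) p.2.2 < ⊤ ∧ loss (F p.1 p.2.1) p.2.2 < ⊤ := by
  have key : ∀ {Q : ℝ × Pos × Vel → ℝ≥0∞}, Measurable Q →
      ∫⁻ t in Ioc 0 T, ∫⁻ p : Pos × Vel, Q (t, p) / (1 + ENNReal.ofReal (rG F (t, p))) < ⊤ →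
      ∀ᵐ p ∂stM T, Q p < ⊤ := fun {Q} hQ hfin => by
    have hm : Measurable fun p => Q p / (1 + ENNReal.ofReal (rG F p)) :=
      hQ.fun_div ((h.measurable_rG.ennreal_ofReal).const_add 1)
    have : ∫⁻ p, Q p / (1 + ENNReal.ofReal (rG F p)) ∂stM T < ⊤ := by
      rw [lintegral_prod _ hm.aemeasurable]; exact hfin
    filter_upwards [ae_lt_top hm this.ne] with p hp
    refine lt_top_iff_ne_top.2 fun htop => ?_
    rw [htop, ENNReal.top_div_of_ne_top (by simp)] at hp
    exact lt_irrefl _ hp
  exact (key h.measurable_gainF (h.gain_fin T)).and (key h.measurable_lossF (h.loss_fin T))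

/-- The evolution inequality for the positive part of `g - F`. -/
theorem chain_ae : ∀ᵐ v, ∀ᵐ t, t ∈ Ioi (0 : ℝ) →
    ∫⁻ p : ℝ × Pos, {r : ℝ × Pos | F r.1 r.2 v < d.gR r.1 v}.indicator
        (fun r => loss (d.gR r.1) v + gain (F r.1 r.2) v) p ∂txM t < ⊤ ∧
    (∫⁻ x, ENNReal.ofReal (d.gR t v - F t x v)) +
      ∫⁻ p : ℝ × Pos, {r : ℝ × Pos | F r.1 r.2 v < d.gR r.1 v}.indicator
        (fun r => loss (d.gR r.1) v + gain (F r.1 r.2) v) p ∂txM t
      = ∫⁻ p : ℝ × Pos, {r : ℝ × Pos | F r.1 r.2 v < d.gR r.1 v}.indicator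
        (fun r => gain (d.gR r.1) v + loss (F r.1 r.2) v) p ∂txM t := by
  have hP : ∀ᵐ v, ∀ n : ℕ, Integrable (fun y : ℝ × Pos => qw F (y.1, y.2, v)) (txM n) :=
    ae_all_iff.2 fun n : ℕ => (integrable_assoc (h.integrable_qw n)).prod_left_ae
  have hfin : ∀ᵐ v, ∀ n : ℕ, ∀ᵐ p : ℝ × Pos ∂txM n,
      gain (F p.1 p.2) v < ⊤ ∧ loss (F p.1 p.2) v < ⊤ := by
    refine ae_all_iff.2 fun n : ℕ => ?_
    have h1 := (measurePreserving_prodAssoc (timeM n) (volume : Measure Pos) (volume : Measure Vel)).quasiMeasurePreserving.ae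
      (h.qd_fin n)
    exact Measure.ae_ae_of_ae_prod
      ((Measure.measurePreserving_swap (μ := (volume : Measure Vel)) (ν := txM n)).quasiMeasurePreserving.ae h1)
  have hr1 : ∀ᵐ v, ∀ (n : ℕ) (r : ℚ), ∀ᵐ t, t ∈ Ioi (0 : ℝ) →
      ∫ x, refMax v * (sP n (r - rG F (t, x, v)) - sP n r)
        = refMax v * (sP n (r - d.f₀ v / refMax v) - sP n r)
          + ∫ s in (0 : ℝ)..t, ∫ x, -sS n (r - rG F (s, x, v)) * qd F (s, x, v) :=
    ae_all_iff.2 fun n => ae_all_iff.2 fun r : ℚ => by
      simpa only [deriv_shift_sP] using h.renorm_ae (isRenorm_sP n r)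
  have hr2 : ∀ᵐ v, ∀ (n : ℕ) (r : ℚ), ∀ᵐ t, t ∈ Ioi (0 : ℝ) →
      ∫ x, refMax v * (sS n (r - rG F (t, x, v)) - sS n r)
        = refMax v * (sS n (r - d.f₀ v / refMax v) - sS n r)
          + ∫ s in (0 : ℝ)..t, ∫ x, -deriv (sS n) (r - rG F (s, x, v)) * qd F (s, x, v) :=
    ae_all_iff.2 fun n => ae_all_iff.2 fun r : ℚ => by
      obtain ⟨L, -, hL⟩ := deriv_sS_bound n
      simpa only [deriv_shift_sS] using h.renorm_ae (isRenorm_sS n r hL)
  filter_upwards [d.gR_equation, hP, hfin, hr1, hr2] with v heq hPv hfinv h1 h2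
  set M := refMax v with hM
  have hM0 : 0 < M := refMax_pos v
  set u : ℝ → ℝ := fun s => (gain (d.gR s) v).toReal - (loss (d.gR s) v).toReal with hu
  have hgm : Measurable fun s : ℝ => gain (d.gR s) v :=
    (measurable_gain_uncurry (G := d.gR) d.measurable_gR).comp measurable_prodMk_right
  have hlm : Measurable fun s : ℝ => loss (d.gR s) v :=
    (measurable_loss_uncurry (G := d.gR) d.measurable_gR).comp measurable_prodMk_right
  have hgi : ∀ T, IntegrableOn (fun s => (gain (d.gR s) v).toReal) (Ioc 0 T) ∧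
      IntegrableOn (fun s => (loss (d.gR s) v).toReal) (Ioc 0 T) := fun T => by
    rcases le_total 0 T with hT | hT
    · exact ⟨integrable_toReal_of_lintegral_ne_top hgm.aemeasurable (heq T hT).1.ne,
        integrable_toReal_of_lintegral_ne_top hlm.aemeasurable (heq T hT).2.1.ne⟩
    · simp [Ioc_eq_empty (not_lt.2 hT)]
  have hui : ∀ T, IntegrableOn u (Ioc 0 T) := fun T => (hgi T).1.sub (hgi T).2
  have em : Measurable fun p : ℝ × Pos => ((p.1, p.2, v) : ℝ × Pos × Vel) :=
    measurable_fst.prodMk (measurable_snd.prodMk measurable_const)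
  have hPT : ∀ T, Integrable (fun y : ℝ × Pos => qw F (y.1, y.2, v)) (txM T) := fun T => by
    obtain ⟨n, hn⟩ := exists_nat_ge T
    exact (hPv n).mono_measure (Measure.prod_mono (Measure.restrict_mono (Ioc_subset_Ioc le_rfl hn) le_rfl) le_rfl)
  let c : CoreData (volume : Measure Pos) :=
    { γ0 := d.f₀ v / M
      q := (Ioi (0 : ℝ)).indicator fun s => u s / M
      G := fun p => rG F (p.1, p.2, v)
      R := fun p => qd F (p.1, p.2, v) / M
      P := fun p => qw F (p.1, p.2, v) / M
      measG := h.measurable_rG.comp em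
      measR := (h.measurable_qd.comp em).div_const M
      measq := ((hgm.ennreal_toReal.sub hlm.ennreal_toReal).div_const M).indicator measurableSet_Ioi
      G_nonneg := fun p => h.rG_nonneg _
      q_int := fun a b => by
        rw [intervalIntegrable_iff, IntegrableOn, integrable_indicator_iff measurableSet_Ioi,
          IntegrableOn, Measure.restrict_restrict measurableSet_Ioi]
        exact ((hui (max a b)).mono_set fun x hx => ⟨hx.1, hx.2.2⟩).div_const M
      P_int := fun T => (hPT T).div_const M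
      R_bound := fun p a C ha => by
        rw [mul_div_assoc', abs_div, abs_of_pos hM0, mul_div_assoc']
        exact div_le_div_of_nonneg_right (h.abs_mul_qd_le ha) hM0.le }
  have hγ : ∀ t, 0 ≤ t → c.γ t = d.gR t v / M := fun t ht => by
    obtain ⟨-, -, he⟩ := heq t ht
    have hs : ∫ s in (0 : ℝ)..t, c.q s = (∫ s in (0 : ℝ)..t, u s) / M := by
      rw [← intervalIntegral.integral_div]
      refine intervalIntegral.integral_congr_ae (Eventually.of_forall fun s hs => ?_)
      rw [uIoc_of_le ht] at hs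
      exact indicator_of_mem (s := Ioi (0 : ℝ)) hs.1 fun s => u s / M
    show d.f₀ v / M + ∫ s in (0 : ℝ)..t, c.q s = _
    rw [hs, hu, intervalIntegral.integral_sub
      (intervalIntegrable_of_Ioc (fun T => (hgi T).1) le_rfl ht)
      (intervalIntegrable_of_Ioc (fun T => (hgi T).2) le_rfl ht), ← add_div]
    congr 1; linarith
  have conv : ∀ (φ ψ : ℝ → ℝ), Continuous φ → (∀ y, |φ y| ≤ 1 + max y 0) → ∀ r t : ℝ,
      ∫ x, M * (φ (r - rG F (t, x, v)) - φ r) = M * (φ (r - d.f₀ v / M) - φ r)
        + ∫ s in (0 : ℝ)..t, ∫ x, -ψ (r - rG F (s, x, v)) * qd F (s, x, v) →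
      ∫ x, φ (r - c.G (t, x)) = φ (r - c.γ0)
        - ∫ s in (0 : ℝ)..t, ∫ x, ψ (r - c.G (s, x)) * c.R (s, x) := by
    intro φ ψ hφ hb r t he
    have hi : Integrable fun x => φ (r - rG F (t, x, v)) := by
      refine (integrable_const (1 + |r|)).mono' (hφ.measurable.comp (measurable_const.sub
        ((h.measurable_rG.comp em).comp measurable_prodMk_left))).aestronglyMeasurable
        (Eventually.of_forall fun x => (hb _).trans ?_)
      have := h.rG_nonneg (t, x, v)
      exact add_le_add le_rfl (max_le (by linarith [le_abs_self r]) (abs_nonneg r))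
    rw [integral_const_mul, integral_sub hi (integrable_const _)] at he
    simp only [integral_const, probReal_univ, one_smul, neg_mul, integral_neg,
      intervalIntegral.integral_neg] at he
    show ∫ x, φ (r - rG F (t, x, v)) = φ (r - d.f₀ v / M)
        - ∫ s in (0 : ℝ)..t, ∫ x, ψ (r - rG F (s, x, v)) * (qd F (s, x, v) / M)
    simp only [mul_div_assoc', integral_div, intervalIntegral.integral_div]
    refine mul_left_cancel₀ hM0.ne' ?_
    rw [mul_sub, mul_div_cancel₀ _ hM0.ne']
    linarith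
  have hcore := c.core_chain
    (fun n r => (h1 n r).mono fun t ht ht' => conv (sP n) (sS n) (contDiff_sP n).continuous
      (fun y => (abs_sP_le n y).trans (by linarith)) r t (ht ht'))
    (fun n r => (h2 n r).mono fun t ht ht' => conv (sS n) (deriv (sS n)) (continuous_sS n)
      (fun y => (abs_sS_le n y).trans (by linarith [le_max_right y 0])) r t (ht ht'))
  filter_upwards [hcore] with t ht htpos
  set S : Set (ℝ × Pos) := {r | F r.1 r.2 v < d.gR r.1 v} with hS
  have hSm : MeasurableSet S :=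
    measurableSet_lt (h.meas.comp em) (d.measurable_gR.comp (measurable_fst.prodMk measurable_const))
  obtain ⟨n, hn⟩ := exists_nat_ge t
  have hmem : ∀ᵐ p : ℝ × Pos ∂txM t, p.1 ∈ Ioc (0 : ℝ) t :=
    Measure.quasiMeasurePreserving_fst.ae (ae_restrict_mem measurableSet_Ioc)
  obtain ⟨N, hN⟩ := isCompact_Icc.exists_bound_of_continuousOn (s := Icc (0 : ℝ) t)
    c.continuous_γ.continuousOn
  have hFfin : ∀ᵐ p : ℝ × Pos ∂txM t, gain (F p.1 p.2) v < ⊤ ∧ loss (F p.1 p.2) v < ⊤ :=
    (Measure.prod_mono (Measure.restrict_mono (Ioc_subset_Ioc le_rfl hn) le_rfl) le_rfl).absolutelyContinuous.ae_le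
      (hfinv n)
  have hgfin : ∀ᵐ p : ℝ × Pos ∂txM t, gain (d.gR p.1) v < ⊤ :=
    Measure.quasiMeasurePreserving_fst.ae (ae_lt_top hgm (heq t (le_of_lt htpos)).1.ne)
  have hlfin : ∀ᵐ p : ℝ × Pos ∂txM t, loss (d.gR p.1) v < ⊤ :=
    Measure.quasiMeasurePreserving_fst.ae (ae_lt_top hlm (heq t (le_of_lt htpos)).2.1.ne)
  have bF : ∀ (Q : ℝ × Pos → ℝ), Measurable Q → (∀ p, 0 ≤ Q p) →
      (∀ p, Q p / (1 + rG F (p.1, p.2, v)) ≤ qw F (p.1, p.2, v)) →
      Integrable (S.indicator Q) (txM t) := fun Q hQ hQ0 hb => by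
    refine ((hPT t).const_mul (1 + N)).mono' (hQ.indicator hSm).aestronglyMeasurable ?_
    filter_upwards [hmem] with p hp
    have hq := h.qw_nonneg (p.1, p.2, v)
    have hN' := hN _ ⟨hp.1.le, hp.2⟩
    by_cases hpS : p ∈ S
    · rw [indicator_of_mem hpS, Real.norm_eq_abs, abs_of_nonneg (hQ0 p)]
      have hG := h.rG_nonneg (p.1, p.2, v)
      have hlt : rG F (p.1, p.2, v) ≤ N := by
        refine le_trans ?_ ((le_abs_self _).trans hN')
        rw [hγ _ hp.1.le]
        exact div_le_div_of_nonneg_right (le_of_lt hpS) hM0.le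
      have := hb p
      rw [div_le_iff₀ (by linarith)] at this
      nlinarith
    · rw [indicator_of_notMem hpS, norm_zero]
      exact mul_nonneg (by linarith [(norm_nonneg _).trans hN']) hq
  have hF1 := bF (fun p => (gain (F p.1 p.2) v).toReal) (h.measurable_gainF.comp em).ennreal_toReal
    (fun p => ENNReal.toReal_nonneg) fun p =>
      div_le_div_of_nonneg_right (le_add_of_nonneg_right ENNReal.toReal_nonneg)
        (by linarith [h.rG_nonneg (p.1, p.2, v)])
  have hF2 := bF (fun p => (loss (F p.1 p.2) v).toReal) (h.measurable_lossF.comp em).ennreal_toReal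
    (fun p => ENNReal.toReal_nonneg) fun p =>
      div_le_div_of_nonneg_right (le_add_of_nonneg_left ENNReal.toReal_nonneg)
        (by linarith [h.rG_nonneg (p.1, p.2, v)])
  have hg1 : Integrable (S.indicator fun p => (loss (d.gR p.1) v).toReal) (txM t) :=
    ((hgi t).2.comp_fst volume).indicator hSm
  have hg2 : Integrable (S.indicator fun p => (gain (d.gR p.1) v).toReal) (txM t) :=
    ((hgi t).1.comp_fst volume).indicator hSm
  have i1 : Integrable (S.indicator fun p => (loss (d.gR p.1) v).toReal + (gain (F p.1 p.2) v).toReal)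
      (txM t) := by
    refine (hg1.add hF1).congr (Eventually.of_forall fun p => ?_)
    simp [indicator_apply]; split_ifs <;> simp
  have i2 : Integrable (S.indicator fun p => (gain (d.gR p.1) v).toReal + (loss (F p.1 p.2) v).toReal)
      (txM t) := by
    refine (hg2.add hF2).congr (Eventually.of_forall fun p => ?_)
    simp [indicator_apply]; split_ifs <;> simp
  have imax : Integrable fun x => max (d.gR t v - F t x v) 0 := by
    refine (integrable_const (d.gR t v)).mono' ((measurable_const.sub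
      ((h.meas.comp em).comp measurable_prodMk_left)).max measurable_const).aestronglyMeasurable
      (Eventually.of_forall fun x => ?_)
    rw [Real.norm_eq_abs, abs_of_nonneg (le_max_right _ _)]
    exact max_le (by linarith [h.nonneg t x v]) (d.gR_nonneg _ _)
  have main : ∫ x, max (d.gR t v - F t x v) 0
      = (∫ p, S.indicator (fun p => (gain (d.gR p.1) v).toReal + (loss (F p.1 p.2) v).toReal) p ∂txM t)
        - ∫ p, S.indicator (fun p => (loss (d.gR p.1) v).toReal + (gain (F p.1 p.2) v).toReal) p ∂txM t := by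
    rw [← integral_sub i2 i1]
    have e := congrArg (fun z : ℝ => M * z) (ht htpos)
    simp only [← integral_const_mul] at e
    refine (integral_congr_ae (Eventually.of_forall fun x => ?_)).trans (e.trans (integral_congr_ae ?_))
    · show max (d.gR t v - F t x v) 0 = M * max (c.γ t - F t x v / M) 0
      rw [hγ t (le_of_lt htpos), mul_max_of_nonneg _ _ hM0.le, mul_zero, ← sub_div,
        mul_div_cancel₀ _ hM0.ne']
    · filter_upwards [hmem] with p hp
      have hiff : c.G p < c.γ p.1 ↔ p ∈ S := by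
        rw [hγ _ hp.1.le]; exact div_lt_div_iff_of_pos_right hM0
      have hq : c.q p.1 = u p.1 / M := indicator_of_mem (s := Ioi (0 : ℝ)) hp.1 fun s => u s / M
      by_cases hpS : p ∈ S
      · rw [indicator_of_mem (s := {r : ℝ × Pos | c.G r < c.γ r.1}) (hiff.2 hpS),
          indicator_of_mem hpS, indicator_of_mem hpS, hq]
        show M * (u p.1 / M - qd F (p.1, p.2, v) / M) = _
        rw [← sub_div, mul_div_cancel₀ _ hM0.ne', hu, qd]
        ring
      · rw [indicator_of_notMem (s := {r : ℝ × Pos | c.G r < c.γ r.1}) (fun h' => hpS (hiff.1 h')),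
          indicator_of_notMem hpS, indicator_of_notMem hpS, mul_zero, sub_zero]
  have hmax : ∫⁻ x, ENNReal.ofReal (d.gR t v - F t x v)
      = ENNReal.ofReal (∫ x, max (d.gR t v - F t x v) 0) := by
    rw [ofReal_integral_eq_lintegral_ofReal imax (Eventually.of_forall fun x => le_max_right _ _)]
    refine lintegral_congr fun x => ?_
    simp
  rw [lintegral_indicator_toReal hlfin (hFfin.mono fun p hp => hp.1) i1,
    lintegral_indicator_toReal hgfin (hFfin.mono fun p hp => hp.2) i2, hmax]
  refine ⟨ENNReal.ofReal_lt_top, ?_⟩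
  have n0 : 0 ≤ ∫ x, max (d.gR t v - F t x v) 0 := integral_nonneg fun x => le_max_right _ _
  have n1 : 0 ≤ ∫ p, S.indicator (fun p => (loss (d.gR p.1) v).toReal + (gain (F p.1 p.2) v).toReal) p ∂txM t :=
    integral_nonneg fun p =>
      indicator_nonneg (fun q _ => add_nonneg ENNReal.toReal_nonneg ENNReal.toReal_nonneg) p
  rw [← ENNReal.ofReal_add n0 n1, main, sub_add_cancel]

end IsRenormSol

end

end Vale.Agent.P140.Homog
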