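import Vale.Agent.P140.Limit

/-!
P140: the homogeneous solution as a real function satisfying the equation in integrated form.
-/

namespace Vale.Agent.P140.Homog

open MeasureTheory Real Set
open scoped ENNReal

noncomputable section

/-- The gain with values in `ℝ≥0∞`. -/
def gainE (G : Vel → ℝ≥0∞) (v : Vel) : ℝ≥0∞ :=
  ∫⁻ q : Vel × Dir, ENNReal.ofReal |proj v q.1 q.2| * (G (post v q.1 q.2) * G (postStar v q.1 q.2))
    ∂volume.prod dirM

/-- The loss with values in `ℝ≥0∞`. -/
def lossE (G : Vel → ℝ≥0∞) (v : Vel) : ℝ≥0∞ :=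
  ∫⁻ q : Vel × Dir, ENNReal.ofReal |proj v q.1 q.2| * (G v * G q.1) ∂volume.prod dirM

theorem gainE_le_modGain (G : Vel → ℝ≥0∞) (v : Vel) : gainE G v ≤ modGain G v :=
  lintegral_mono fun _ => le_self_add

theorem modGain_add_lossE (G : Vel → ℝ≥0∞) (hG : Measurable G) (v : Vel) :
    modGain G v + lossE G v = gainE G v + G v * (dirM univ *
      (pk 1 v * mom (pk 0) G + (mom (pk 0) G + mom (pk 2) G) / 2)) := by
  have hb : Measurable fun q : Vel × Dir => (v, q.1, q.2) := by fun_prop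
  have hp := continuous_proj.measurable.comp hb
  have hk : Measurable fun q : Vel × Dir => kap v q.1 := by unfold kap; fun_prop
  have hm := measurable_pk
  have h1 : Measurable fun q : Vel × Dir =>
      ENNReal.ofReal |proj v q.1 q.2| * (G (post v q.1 q.2) * G (postStar v q.1 q.2)) :=
    hp.abs.ennreal_ofReal.mul ((hG.comp (continuous_post.measurable.comp hb)).mul
      (hG.comp (continuous_postStar.measurable.comp hb)))
  have h2 : Measurable fun q : Vel × Dir => ENNReal.ofReal |proj v q.1 q.2| * (G v * G q.1) :=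
    hp.abs.ennreal_ofReal.mul (by fun_prop)
  have key : ∫⁻ q : Vel × Dir, ENNReal.ofReal (kap v q.1) * (G v * G q.1) ∂volume.prod dirM
      = G v * (dirM univ * (pk 1 v * mom (pk 0) G + (mom (pk 0) G + mom (pk 2) G) / 2)) := by
    rw [lintegral_prod _ (by unfold kap; fun_prop)]
    simp only [lintegral_const, mom]
    rw [← lintegral_const_mul _ (by fun_prop), ← lintegral_add_left (by fun_prop), div_eq_mul_inv,
      ← lintegral_mul_const _ (by fun_prop), ← lintegral_add_left (by fun_prop),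
      ← lintegral_const_mul _ (by fun_prop), ← lintegral_const_mul _ (by fun_prop)]
    refine lintegral_congr fun w => ?_
    rw [kap, ENNReal.ofReal_add (norm_nonneg _) (by positivity),
      ENNReal.ofReal_div_of_pos two_pos, ENNReal.ofReal_add zero_le_one (by positivity)]
    simp only [pk, pow_zero, pow_one, ENNReal.ofReal_one, ENNReal.ofReal_ofNat, div_eq_mul_inv]
    ring
  rw [← key, gainE, ← lintegral_add_left h1, modGain, lossE, ← lintegral_add_right _ h2]
  refine lintegral_congr fun q => ?_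
  rw [add_assoc, ← add_mul, ← ENNReal.ofReal_add (sub_nonneg.2 (abs_proj_le_kap _ _ _))
    (abs_nonneg _), sub_add_cancel]

theorem measurable_gainE {α : Type*} [MeasurableSpace α] {G : α → Vel → ℝ≥0∞}
    (hG : Measurable fun p : α × Vel => G p.1 p.2) :
    Measurable fun p : α × Vel => gainE (G p.1) p.2 := by
  unfold gainE
  refine Measurable.lintegral_prod_right' (f := fun r : (α × Vel) × Vel × Dir =>
    ENNReal.ofReal |proj r.1.2 r.2.1 r.2.2| * (G r.1.1 (post r.1.2 r.2.1 r.2.2) *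
      G r.1.1 (postStar r.1.2 r.2.1 r.2.2))) ?_
  have hb : Measurable fun r : (α × Vel) × Vel × Dir => (r.1.2, r.2.1, r.2.2) := by fun_prop
  exact (continuous_proj.measurable.comp hb).abs.ennreal_ofReal.mul (measurable_tri_post hG)

theorem measurable_lossE {α : Type*} [MeasurableSpace α] {G : α → Vel → ℝ≥0∞}
    (hG : Measurable fun p : α × Vel => G p.1 p.2) :
    Measurable fun p : α × Vel => lossE (G p.1) p.2 := by
  unfold lossE
  refine Measurable.lintegral_prod_right' (f := fun r : (α × Vel) × Vel × Dir =>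
    ENNReal.ofReal |proj r.1.2 r.2.1 r.2.2| * (G r.1.1 r.1.2 * G r.1.1 r.2.1)) ?_
  have hb : Measurable fun r : (α × Vel) × Vel × Dir => (r.1.2, r.2.1, r.2.2) := by fun_prop
  exact (continuous_proj.measurable.comp hb).abs.ennreal_ofReal.mul
    ((hG.comp measurable_fst).mul (hG.comp (measurable_fst.fst.prodMk measurable_snd.fst)))

/-- Replacing an a.e. finite density by its real part does not change gain and loss. -/
theorem gain_toReal (G : Vel → ℝ≥0∞) (hG : Measurable G) (hfin : ∀ᵐ v, G v ≠ ⊤) :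
    ∀ᵐ v, gain (fun u => (G u).toReal) v = gainE G v ∧ loss (fun u => (G u).toReal) v = lossE G v := by
  set S : Set Vel := {v | G v = ⊤} with hS
  have hSm : MeasurableSet S := hG (measurableSet_singleton ⊤)
  have hS0 : ∫⁻ v, S.indicator 1 v = 0 := by
    rw [lintegral_indicator_one hSm]
    simpa [ae_iff, hS] using hfin
  have hI : Measurable (S.indicator (1 : Vel → ℝ≥0∞)) := measurable_one.indicator hSm
  have hz : ∫⁻ p : Vel × Vel × Dir, (S.indicator 1 (post p.1 p.2.1 p.2.2)
      + S.indicator 1 (postStar p.1 p.2.1 p.2.2) + S.indicator (1 : Vel → ℝ≥0∞) p.2.1) ∂triM = 0 := by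
    rw [lintegral_add_right _ (hI.fun_comp measurable_snd.fst),
      lintegral_add_left (hI.fun_comp continuous_post.measurable),
      lintegral_collide (fun p => S.indicator 1 p.1) (hI.fun_comp measurable_fst),
      lintegral_collide (fun p => S.indicator 1 p.2.1) (hI.fun_comp measurable_snd.fst)]
    have a : ∀ f : Vel → ℝ≥0∞, Measurable f → ∫⁻ v, f v = 0 →
        ∫⁻ p : Vel × Vel × Dir, f p.1 ∂triM = 0 ∧ ∫⁻ p : Vel × Vel × Dir, f p.2.1 ∂triM = 0 := by
      intro f hf h0
      have h1 := lintegral_tri_prod f 1 hf measurable_one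
      have h2 := lintegral_tri_prod 1 f measurable_one hf
      simp only [Pi.one_apply, mul_one, one_mul, h0, mul_zero, zero_mul] at h1 h2
      exact ⟨h1, h2⟩
    obtain ⟨a1, a2⟩ := a _ hI hS0
    simp [a1, a2]
  rw [lintegral_eq_zero_iff' ((((hI.fun_comp continuous_post.measurable).fun_add
    (hI.fun_comp continuous_postStar.measurable)).fun_add
      (hI.fun_comp measurable_snd.fst))).aemeasurable] at hz
  have h3 := Measure.ae_ae_of_ae_prod hz
  filter_upwards [h3, hfin] with v hv hvfin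
  have key : ∀ᵐ q : Vel × Dir ∂volume.prod dirM, G (post v q.1 q.2) ≠ ⊤ ∧
      G (postStar v q.1 q.2) ≠ ⊤ ∧ G q.1 ≠ ⊤ := by
    filter_upwards [hv] with q hq
    simp only [Pi.zero_apply, add_eq_zero, indicator_apply_eq_zero, Pi.one_apply, one_ne_zero,
      imp_false] at hq
    exact ⟨hq.1.1, hq.1.2, hq.2⟩
  constructor
  · refine lintegral_congr_ae (key.mono fun q hq => ?_)
    simp only
    rw [ENNReal.ofReal_mul (abs_nonneg _), ENNReal.ofReal_mul ENNReal.toReal_nonneg,
      ENNReal.ofReal_toReal hq.1, ENNReal.ofReal_toReal hq.2.1]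
  · refine lintegral_congr_ae (key.mono fun q hq => ?_)
    simp only
    rw [ENNReal.ofReal_mul (abs_nonneg _), ENNReal.ofReal_mul ENNReal.toReal_nonneg,
      ENNReal.ofReal_toReal hvfin, ENNReal.ofReal_toReal hq.2.2]

namespace Datum

variable (d : Datum)

/-- The homogeneous solution with real values. -/
def gR (t : ℝ) (v : Vel) : ℝ := (d.sol t v).toReal

theorem measurable_gR : Measurable fun p : ℝ × Vel => d.gR p.1 p.2 :=
  d.measurable_sol.ennreal_toReal

theorem gR_nonneg (t : ℝ) (v : Vel) : 0 ≤ d.gR t v := ENNReal.toReal_nonneg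

theorem sol_ae_ne_top {t : ℝ} (ht : 0 ≤ t) : ∀ᵐ v, d.sol t v ≠ ⊤ := by
  have h : ∫⁻ v, d.sol t v ≠ ⊤ := by
    refine ne_top_of_le_ne_top (ENNReal.ofReal_ne_top (r := d.m 0)) ?_
    simpa [mom, pk] using (d.sol_bounds ht).1
  exact (ae_lt_top (d.measurable_sol_slice t) h).mono fun v hv => hv.ne

theorem mom_gR {t : ℝ} (ht : 0 ≤ t) (ψ : Vel → ℝ≥0∞) :
    mom ψ (fun v => ENNReal.ofReal (d.gR t v)) = mom ψ (d.sol t) :=
  lintegral_congr_ae ((d.sol_ae_ne_top ht).mono fun v hv => by
    simp only [gR, ENNReal.ofReal_toReal hv])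

theorem collision_split {s : ℝ} (hs : 0 ≤ s) (v : Vel) :
    modGain (d.sol s) v + lossE (d.sol s) v
      = gainE (d.sol s) v + ENNReal.ofReal (d.rate v) * d.sol s v := by
  rw [modGain_add_lossE _ (d.measurable_sol_slice s), (d.sol_conserve hs).1, (d.sol_conserve hs).2,
    mul_comm (d.sol s v)]
  congr 2
  have h0 := d.m_nonneg 0
  have h2 := d.m_nonneg 2
  rw [rate, ENNReal.ofReal_mul area_nonneg, ofReal_area, ENNReal.ofReal_add (by positivity)
    (by positivity), ENNReal.ofReal_mul (norm_nonneg v), ENNReal.ofReal_div_of_pos two_pos,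
    ENNReal.ofReal_add h0 h2, ENNReal.ofReal_ofNat, pk, pow_one]

/-- For almost every velocity the equation holds in integrated form. -/
theorem gR_equation : ∀ᵐ v, ∀ t : ℝ, 0 ≤ t →
    ∫⁻ s in Ioc 0 t, gain (d.gR s) v < ⊤ ∧ ∫⁻ s in Ioc 0 t, loss (d.gR s) v < ⊤ ∧
      d.gR t v + ∫ s in (0 : ℝ)..t, (loss (d.gR s) v).toReal
        = d.f₀ v + ∫ s in (0 : ℝ)..t, (gain (d.gR s) v).toReal := by
  have hr := d.measurable_rate
  have hs := d.measurable_sol
  have hgm := measurable_gainE hs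
  have hlm := measurable_lossE hs
  have hGm := measurable_gain_uncurry (G := d.gR) d.measurable_gR
  have hLm := measurable_loss_uncurry (G := d.gR) d.measurable_gR
  have hNat : ∀ᵐ v, ∀ N : ℕ, d.sol N v ≠ ⊤ ∧
      ∫⁻ s in Ioc 0 (N : ℝ), ENNReal.ofReal (d.rate v) * d.sol s v ≠ ⊤ := by
    refine ae_all_iff.2 fun N => (d.sol_ae_ne_top N.cast_nonneg).and ?_
    have hP : Measurable fun p : ℝ × Vel => ENNReal.ofReal (d.rate p.2) * d.sol p.1 p.2 :=
      (hr.comp measurable_snd).ennreal_ofReal.mul hs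
    refine (ae_lt_top (Measurable.lintegral_prod_left' hP) ?_).mono fun v hv => hv.ne
    have e := mom_pull (pk 0) (measurable_pk 0)
      (fun s v => ENNReal.ofReal (d.rate v) * d.sol s v) hP N
    simp only [mom, pk_zero, one_mul] at e
    rw [e]
    refine (lt_of_le_of_lt (le_of_eq ?_) (d.rmom_lint_lt_top (k := 0) (by omega)
      d.measurable_sol_slice (t := N) (fun s hs => (d.sol_bounds hs.1.le).1)
      fun s hs => (d.sol_bounds hs.1.le).2.2.trans
        (ENNReal.ofReal_le_ofReal (d.cap_mono hs.2)))).ne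
    exact lintegral_congr fun s => by simp [rmom, mom, pk_zero]
  have hswap : ∀ᵐ v, ∀ᵐ s ∂volume.restrict (Ioi (0 : ℝ)),
      gain (d.gR s) v = gainE (d.sol s) v ∧ loss (d.gR s) v = lossE (d.sol s) v := by
    refine (Measure.ae_ae_comm (p := fun (s : ℝ) (v : Vel) => gain (d.gR s) v = gainE (d.sol s) v ∧
      loss (d.gR s) v = lossE (d.sol s) v) ?_).1 ?_
    · exact (measurableSet_eq_fun hGm hgm).inter (measurableSet_eq_fun hLm hlm)
    · refine (ae_restrict_iff' measurableSet_Ioi).2 (Filter.Eventually.of_forall fun s hs' => ?_)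
      exact gain_toReal (d.sol s) (d.measurable_sol_slice s) (d.sol_ae_ne_top (le_of_lt hs'))
  filter_upwards [hNat, hswap] with v hN hv t ht
  obtain ⟨N, hNt⟩ := exists_nat_ge t
  obtain ⟨hsolN, hrateN⟩ := hN N
  have hmodN : ∫⁻ s in Ioc 0 (N : ℝ), modGain (d.sol s) v ≠ ⊤ :=
    ne_top_of_le_ne_top (ENNReal.add_ne_top.2 ⟨hsolN, hrateN⟩)
      (le_trans le_add_self (d.sol_integral N.cast_nonneg v).ge)
  have hsub : ∀ F : ℝ → ℝ≥0∞, ∫⁻ s in Ioc 0 t, F s ≤ ∫⁻ s in Ioc 0 (N : ℝ), F s := fun F =>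
    lintegral_mono_set (Ioc_subset_Ioc le_rfl hNt)
  have hrate := ne_top_of_le_ne_top hrateN (hsub _)
  have hmod := ne_top_of_le_ne_top hmodN (hsub _)
  have hgE : ∫⁻ s in Ioc 0 t, gainE (d.sol s) v ≠ ⊤ :=
    ne_top_of_le_ne_top hmod (lintegral_mono fun s => gainE_le_modGain _ _)
  have hsl : ∀ {F : ℝ × Vel → ℝ≥0∞}, Measurable F → Measurable fun s => F (s, v) := fun hF =>
    Measurable.fun_comp hF (measurable_prodMk_right (y := v))
  have key : d.sol t v + ∫⁻ s in Ioc 0 t, lossE (d.sol s) v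
      = d.F₀ v + ∫⁻ s in Ioc 0 t, gainE (d.sol s) v := by
    refine (ENNReal.add_left_inj hrate).1 ?_
    calc _ = (d.sol t v + ∫⁻ s in Ioc 0 t, ENNReal.ofReal (d.rate v) * d.sol s v)
          + ∫⁻ s in Ioc 0 t, lossE (d.sol s) v := by ring
      _ = d.F₀ v + ∫⁻ s in Ioc 0 t, (modGain (d.sol s) v + lossE (d.sol s) v) := by
          rw [d.sol_integral ht v, add_assoc, ← lintegral_add_right _ (hsl hlm)]
      _ = _ := by
          rw [add_assoc, ← lintegral_add_left (hsl hgm)]
          congr 1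
          exact setLIntegral_congr_fun measurableSet_Ioc fun s hs' => d.collision_split hs'.1.le v
  have hlE : ∫⁻ s in Ioc 0 t, lossE (d.sol s) v ≠ ⊤ :=
    ne_top_of_le_ne_top (ENNReal.add_ne_top.2 ⟨ENNReal.ofReal_ne_top, hgE⟩)
      (le_trans le_add_self key.le)
  have hsolt : d.sol t v ≠ ⊤ :=
    ne_top_of_le_ne_top (ENNReal.add_ne_top.2 ⟨ENNReal.ofReal_ne_top, hgE⟩)
      (le_trans le_self_add key.le)
  have hv' := ae_restrict_of_ae_restrict_of_subset (show Ioc (0 : ℝ) t ⊆ Ioi 0 from Ioc_subset_Ioi_self) hv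
  have eg : ∫⁻ s in Ioc 0 t, gain (d.gR s) v = ∫⁻ s in Ioc 0 t, gainE (d.sol s) v :=
    lintegral_congr_ae (hv'.mono fun s hs' => hs'.1)
  have el : ∫⁻ s in Ioc 0 t, loss (d.gR s) v = ∫⁻ s in Ioc 0 t, lossE (d.sol s) v :=
    lintegral_congr_ae (hv'.mono fun s hs' => hs'.2)
  refine ⟨eg ▸ hgE.lt_top, el ▸ hlE.lt_top, ?_⟩
  have conv : ∀ F : ℝ → ℝ≥0∞, Measurable F → ∫⁻ s in Ioc 0 t, F s ≠ ⊤ →
      ∫ s in (0 : ℝ)..t, (F s).toReal = (∫⁻ s in Ioc 0 t, F s).toReal := fun F hF hfin => by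
    rw [intervalIntegral.integral_of_le ht,
      integral_toReal hF.aemeasurable (ae_lt_top hF hfin)]
  rw [conv _ (hsl hLm) (el ▸ hlE), conv _ (hsl hGm) (eg ▸ hgE), eg, el, gR,
    ← ENNReal.toReal_add hsolt hlE, key, F₀, ENNReal.toReal_add ENNReal.ofReal_ne_top hgE,
    ENNReal.toReal_ofReal (d.nonneg v)]

end Datum

end

end Vale.Agent.P140.Homog
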