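import Vale.Agent.P140.Defs

/-!
P140: the collision map preserves volume; weak forms of gain and loss.
-/

namespace Vale.Agent.P140.Homog

open MeasureTheory Real Set
open scoped ENNReal

noncomputable section

theorem abs_proj_le (v w : Vel) (o : Dir) : |proj v w o| ≤ ‖v‖ + ‖w‖ := by
  refine (abs_real_inner_le_norm _ _).trans ?_
  rw [norm_eq_of_mem_sphere o, mul_one]
  exact norm_sub_le v w

theorem continuous_proj : Continuous fun p : Vel × Vel × Dir => proj p.1 p.2.1 p.2.2 := by
  unfold proj; fun_prop

theorem continuous_post : Continuous fun p : Vel × Vel × Dir => post p.1 p.2.1 p.2.2 := by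
  unfold post proj; fun_prop

theorem continuous_postStar : Continuous fun p : Vel × Vel × Dir => postStar p.1 p.2.1 p.2.2 := by
  unfold postStar proj; fun_prop

theorem proj_post (v w : Vel) (o : Dir) :
    proj (post v w o) (postStar v w o) o = -proj v w o := by
  have h : inner ℝ (o : Vel) (o : Vel) = (1 : ℝ) := by
    rw [real_inner_self_eq_norm_sq, norm_eq_of_mem_sphere o, one_pow]
  simp only [proj, post, postStar, inner_sub_left, inner_add_left, real_inner_smul_left, h]
  ring

theorem post_post (v w : Vel) (o : Dir) : post (post v w o) (postStar v w o) o = v := by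
  rw [post, proj_post, post, neg_smul, sub_neg_eq_add, sub_add_cancel]

theorem postStar_post (v w : Vel) (o : Dir) : postStar (post v w o) (postStar v w o) o = w := by
  rw [postStar, proj_post, postStar, neg_smul, add_neg_cancel_right]

theorem proj_swap (v w : Vel) (o : Dir) : proj w v o = -proj v w o := by
  simp only [proj, inner_sub_left]; ring

theorem post_swap (v w : Vel) (o : Dir) : post w v o = postStar v w o := by
  rw [post, proj_swap, postStar, neg_smul, sub_neg_eq_add]

theorem postStar_swap (v w : Vel) (o : Dir) : postStar w v o = post v w o := by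
  rw [post, postStar, proj_swap, neg_smul, ← sub_eq_add_neg]

theorem norm_sq_post (v w : Vel) (o : Dir) :
    ‖post v w o‖ ^ 2 + ‖postStar v w o‖ ^ 2 = ‖v‖ ^ 2 + ‖w‖ ^ 2 := by
  rw [post, postStar, norm_sub_sq_real, norm_add_sq_real, norm_smul, norm_eq_of_mem_sphere o,
    real_inner_smul_right, real_inner_smul_right, mul_one, Real.norm_eq_abs, sq_abs]
  have : proj v w o = inner ℝ v (o : Vel) - inner ℝ w (o : Vel) := by rw [proj, inner_sub_left]
  rw [this]; ring

/-- The collision map at a fixed direction, as a linear map. -/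
def collide (o : Dir) : Vel × Vel →ₗ[ℝ] Vel × Vel where
  toFun p := (post p.1 p.2 o, postStar p.1 p.2 o)
  map_add' p q := by
    simp only [post, postStar, proj, Prod.fst_add, Prod.snd_add, Prod.mk_add_mk, inner_sub_left,
      inner_add_left]
    refine Prod.ext ?_ ?_ <;> simp only [sub_smul, add_smul] <;> abel
  map_smul' c p := by
    simp only [post, postStar, proj, Prod.smul_fst, Prod.smul_snd, Prod.smul_mk, RingHom.id_apply,
      inner_sub_left, real_inner_smul_left]
    refine Prod.ext ?_ ?_ <;> simp only [smul_sub, smul_add, smul_smul, mul_sub]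

theorem measurePreserving_collide (o : Dir) :
    MeasurePreserving (collide o) ((volume : Measure Vel).prod volume) (volume.prod volume) := by
  have hinv : collide o ∘ₗ collide o = LinearMap.id :=
    LinearMap.ext fun p => Prod.ext (post_post p.1 p.2 o) (postStar_post p.1 p.2 o)
  have hd : LinearMap.det (collide o) * LinearMap.det (collide o) = 1 := by
    rw [← LinearMap.det_comp, hinv, LinearMap.det_id]
  have hne : LinearMap.det (collide o) ≠ 0 := fun h => by simp [h] at hd
  have habs : |(LinearMap.det (collide o))⁻¹| = 1 := by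
    rw [abs_inv]
    rcases mul_self_eq_one_iff.1 hd with h | h <;> simp [h]
  refine ⟨(collide o).continuous_of_finiteDimensional.measurable, ?_⟩
  rw [Measure.map_linearMap_addHaar_eq_smul_addHaar _ hne, habs, ENNReal.ofReal_one, one_smul]

/-- The measure on pairs of velocities and a direction. -/
abbrev triM : Measure (Vel × Vel × Dir) := volume.prod (volume.prod dirM)

instance : IsFiniteMeasure dirM := by unfold dirM; infer_instance

theorem lintegral_tri (f : Vel × Vel × Dir → ℝ≥0∞) (hf : Measurable f) :
    ∫⁻ p, f p ∂triM = ∫⁻ o, ∫⁻ vw : Vel × Vel, f (vw.1, vw.2, o) ∂volume.prod volume ∂dirM := by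
  rw [lintegral_prod _ hf.aemeasurable]
  have h1 : ∀ v, ∫⁻ q : Vel × Dir, f (v, q) ∂volume.prod dirM
      = ∫⁻ o : Dir, (∫⁻ w : Vel, f (v, w, o)) ∂dirM := fun v => by
    exact lintegral_prod_symm' (fun q : Vel × Dir => f (v, q)) (hf.comp measurable_prodMk_left)
  simp only [h1]
  rw [lintegral_lintegral_swap]
  · refine lintegral_congr fun o => ?_
    rw [lintegral_prod _ (by fun_prop)]
  · exact (Measurable.lintegral_prod_right' (f := fun q : (Vel × Dir) × Vel => f (q.1.1, q.2, q.1.2))
      (by fun_prop)).aemeasurable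

/-- The pre and post collisional variables can be exchanged. -/
theorem lintegral_collide (f : Vel × Vel × Dir → ℝ≥0∞) (hf : Measurable f) :
    ∫⁻ p, f (post p.1 p.2.1 p.2.2, postStar p.1 p.2.1 p.2.2, p.2.2) ∂triM = ∫⁻ p, f p ∂triM := by
  rw [lintegral_tri f hf, lintegral_tri]
  · refine lintegral_congr fun o => ?_
    exact (measurePreserving_collide o).lintegral_comp (f := fun q => f (q.1, q.2, o)) (by fun_prop)
  · exact hf.comp (continuous_post.measurable.prodMk
      (continuous_postStar.measurable.prodMk measurable_snd.snd))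

/-- The two colliding particles can be exchanged. -/
theorem lintegral_swap (f : Vel × Vel × Dir → ℝ≥0∞) (hf : Measurable f) :
    ∫⁻ p, f (p.2.1, p.1, p.2.2) ∂triM = ∫⁻ p, f p ∂triM := by
  rw [lintegral_tri f hf, lintegral_tri _ (by fun_prop)]
  refine lintegral_congr fun o => ?_
  exact lintegral_prod_swap (fun q : Vel × Vel => f (q.1, q.2, o))

theorem measurable_gain_uncurry {α : Type*} [MeasurableSpace α] {G : α → Vel → ℝ}
    (hG : Measurable fun p : α × Vel => G p.1 p.2) :
    Measurable fun p : α × Vel => gain (G p.1) p.2 := by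
  unfold gain
  refine Measurable.lintegral_prod_right' (f := fun r : (α × Vel) × Vel × Dir =>
    ENNReal.ofReal (|proj r.1.2 r.2.1 r.2.2| * (G r.1.1 (post r.1.2 r.2.1 r.2.2) *
      G r.1.1 (postStar r.1.2 r.2.1 r.2.2)))) ?_
  have hb : Measurable fun r : (α × Vel) × Vel × Dir => (r.1.2, r.2.1, r.2.2) := by fun_prop
  exact ((continuous_proj.measurable.comp hb).abs.mul
    ((hG.comp (measurable_fst.fst.prodMk (continuous_post.measurable.comp hb))).mul
      (hG.comp (measurable_fst.fst.prodMk (continuous_postStar.measurable.comp hb))))).ennreal_ofReal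

theorem measurable_loss_uncurry {α : Type*} [MeasurableSpace α] {G : α → Vel → ℝ}
    (hG : Measurable fun p : α × Vel => G p.1 p.2) :
    Measurable fun p : α × Vel => loss (G p.1) p.2 := by
  unfold loss
  refine Measurable.lintegral_prod_right' (f := fun r : (α × Vel) × Vel × Dir =>
    ENNReal.ofReal (|proj r.1.2 r.2.1 r.2.2| * (G r.1.1 r.1.2 * G r.1.1 r.2.1))) ?_
  have hb : Measurable fun r : (α × Vel) × Vel × Dir => (r.1.2, r.2.1, r.2.2) := by fun_prop
  exact ((continuous_proj.measurable.comp hb).abs.mul
    ((hG.comp measurable_fst).mul (hG.comp (measurable_fst.fst.prodMk measurable_snd.fst)))).ennreal_ofReal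

/-- The weak form of a gain integral. -/
theorem lintegral_gain_weight (H : Vel → Vel → ℝ≥0∞) (hH : Measurable fun p : Vel × Vel => H p.1 p.2)
    (ψ : Vel → ℝ≥0∞) (hψ : Measurable ψ) :
    ∫⁻ p : Vel × Vel × Dir, ψ p.1 * (ENNReal.ofReal |proj p.1 p.2.1 p.2.2| *
        H (post p.1 p.2.1 p.2.2) (postStar p.1 p.2.1 p.2.2)) ∂triM
      = ∫⁻ p : Vel × Vel × Dir, ψ (post p.1 p.2.1 p.2.2) *
          (ENNReal.ofReal |proj p.1 p.2.1 p.2.2| * H p.1 p.2.1) ∂triM := by
  have hb : Measurable fun p : Vel × Vel × Dir => (p.1, p.2.1) := by fun_prop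
  rw [← lintegral_collide (fun p => ψ (post p.1 p.2.1 p.2.2) *
    (ENNReal.ofReal |proj p.1 p.2.1 p.2.2| * H p.1 p.2.1))
    ((hψ.comp continuous_post.measurable).mul
      (continuous_proj.measurable.abs.ennreal_ofReal.mul (hH.comp hb)))]
  simp only [post_post, proj_post, abs_neg]

end

end Vale.Agent.P140.Homog
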