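import Vale.Agent.P140.Chain

/-!
P140: comparison of gain and loss of two densities.
-/

namespace Vale.Agent.P140.Homog

open MeasureTheory Real Set
open scoped ENNReal

noncomputable section

/-- The mixed gain. -/
def gainB (A B : Vel → ℝ≥0∞) (v : Vel) : ℝ≥0∞ :=
  ∫⁻ q : Vel × Dir, ENNReal.ofReal |proj v q.1 q.2| * (A (post v q.1 q.2) * B (postStar v q.1 q.2))
    ∂volume.prod dirM

/-- The mixed loss. -/
def lossB (A B : Vel → ℝ≥0∞) (v : Vel) : ℝ≥0∞ :=
  ∫⁻ q : Vel × Dir, ENNReal.ofReal |proj v q.1 q.2| * (A v * B q.1) ∂volume.prod dirM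

/-- The weight `1 + |v|²`. -/
def wgt (v : Vel) : ℝ≥0∞ := ENNReal.ofReal (1 + ‖v‖ ^ 2)

/-- The weight `1 + |v|`. -/
def wone (v : Vel) : ℝ≥0∞ := ENNReal.ofReal (1 + ‖v‖)

theorem measurable_wgt : Measurable wgt := by unfold wgt; fun_prop

theorem measurable_wone : Measurable wone := by unfold wone; fun_prop

theorem wone_le (v : Vel) : wone v ≤ 2 * wgt v := by
  refine le_of_le_of_eq ?_ (congrArg (· * wgt v) (ENNReal.ofReal_ofNat 2))
  rw [wone, wgt]
  rw [← ENNReal.ofReal_mul two_pos.le]
  exact ENNReal.ofReal_le_ofReal (by nlinarith [sq_nonneg (‖v‖ - 1), sq_nonneg ‖v‖])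

theorem wgt_post (v w : Vel) (o : Dir) :
    wgt (post v w o) + wgt (postStar v w o) = wgt v + wgt w := by
  simp only [wgt]
  rw [← ENNReal.ofReal_add (by positivity) (by positivity),
    ← ENNReal.ofReal_add (by positivity) (by positivity)]
  congr 1
  linarith [norm_sq_post v w o]

theorem abs_proj_le_wone (v w : Vel) (o : Dir) :
    ENNReal.ofReal |proj v w o| ≤ wone v * wone w := by
  rw [wone, wone, ← ENNReal.ofReal_mul (by positivity)]
  refine ENNReal.ofReal_le_ofReal ((abs_proj_le v w o).trans ?_)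
  nlinarith [norm_nonneg v, norm_nonneg w]

theorem measurable_gainB {α : Type*} [MeasurableSpace α] {A B : α → Vel → ℝ≥0∞}
    (hA : Measurable fun p : α × Vel => A p.1 p.2) (hB : Measurable fun p : α × Vel => B p.1 p.2) :
    Measurable fun p : α × Vel => gainB (A p.1) (B p.1) p.2 := by
  unfold gainB
  refine Measurable.lintegral_prod_right' (f := fun r : (α × Vel) × Vel × Dir =>
    ENNReal.ofReal |proj r.1.2 r.2.1 r.2.2| * (A r.1.1 (post r.1.2 r.2.1 r.2.2) *
      B r.1.1 (postStar r.1.2 r.2.1 r.2.2))) ?_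
  have hb : Measurable fun r : (α × Vel) × Vel × Dir => (r.1.2, r.2.1, r.2.2) := by fun_prop
  exact (continuous_proj.measurable.comp hb).abs.ennreal_ofReal.mul
    ((hA.comp (measurable_fst.fst.prodMk (continuous_post.measurable.comp hb))).mul
      (hB.comp (measurable_fst.fst.prodMk (continuous_postStar.measurable.comp hb))))

theorem measurable_lossB {α : Type*} [MeasurableSpace α] {A B : α → Vel → ℝ≥0∞}
    (hA : Measurable fun p : α × Vel => A p.1 p.2) (hB : Measurable fun p : α × Vel => B p.1 p.2) :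
    Measurable fun p : α × Vel => lossB (A p.1) (B p.1) p.2 := by
  unfold lossB
  refine Measurable.lintegral_prod_right' (f := fun r : (α × Vel) × Vel × Dir =>
    ENNReal.ofReal |proj r.1.2 r.2.1 r.2.2| * (A r.1.1 r.1.2 * B r.1.1 r.2.1)) ?_
  have hb : Measurable fun r : (α × Vel) × Vel × Dir => (r.1.2, r.2.1, r.2.2) := by fun_prop
  exact (continuous_proj.measurable.comp hb).abs.ennreal_ofReal.mul
    ((hA.comp measurable_fst).mul (hB.comp (measurable_fst.fst.prodMk measurable_snd.fst)))

theorem measurable_gainB_slice {A B : Vel → ℝ≥0∞} (hA : Measurable A) (hB : Measurable B) :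
    Measurable fun v => gainB A B v := by
  unfold gainB
  refine Measurable.lintegral_prod_right' (f := fun r : Vel × Vel × Dir =>
    ENNReal.ofReal |proj r.1 r.2.1 r.2.2| * (A (post r.1 r.2.1 r.2.2) * B (postStar r.1 r.2.1 r.2.2))) ?_
  exact continuous_proj.measurable.abs.ennreal_ofReal.mul
    ((hA.comp continuous_post.measurable).mul (hB.comp continuous_postStar.measurable))

theorem mom_gainB (A B : Vel → ℝ≥0∞) (hA : Measurable A) (hB : Measurable B)
    (ψ : Vel → ℝ≥0∞) (hψ : Measurable ψ) :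
    ∫⁻ v, ψ v * gainB A B v = ∫⁻ p, ψ (post p.1 p.2.1 p.2.2) *
      (ENNReal.ofReal |proj p.1 p.2.1 p.2.2| * (A p.1 * B p.2.1)) ∂triM := by
  have hH : Measurable fun p : Vel × Vel => A p.1 * B p.2 := by fun_prop
  rw [← lintegral_gain_weight (fun a b => A a * B b) hH ψ hψ, lintegral_prod]
  · refine lintegral_congr fun v => ?_
    have hb : Measurable fun q : Vel × Dir => (v, q.1, q.2) := by fun_prop
    have hm : Measurable fun q : Vel × Dir => ENNReal.ofReal |proj v q.1 q.2| *
        (A (post v q.1 q.2) * B (postStar v q.1 q.2)) :=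
      (continuous_proj.measurable.comp hb).abs.ennreal_ofReal.mul
        ((hA.comp (continuous_post.measurable.comp hb)).mul
          (hB.comp (continuous_postStar.measurable.comp hb)))
    exact (lintegral_const_mul (ψ v) hm).symm
  · exact ((hψ.comp measurable_fst).mul (continuous_proj.measurable.abs.ennreal_ofReal.mul
      ((hA.comp continuous_post.measurable).mul
        (hB.comp continuous_postStar.measurable)))).aemeasurable

theorem mom_lossB (A B : Vel → ℝ≥0∞) (hA : Measurable A) (hB : Measurable B)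
    (ψ : Vel → ℝ≥0∞) (hψ : Measurable ψ) :
    ∫⁻ v, ψ v * lossB A B v = ∫⁻ p, ψ p.1 *
      (ENNReal.ofReal |proj p.1 p.2.1 p.2.2| * (A p.1 * B p.2.1)) ∂triM := by
  have hAB : Measurable fun p : Vel × Vel × Dir => A p.1 * B p.2.1 := by fun_prop
  have hm : Measurable fun p : Vel × Vel × Dir =>
      ψ p.1 * (ENNReal.ofReal |proj p.1 p.2.1 p.2.2| * (A p.1 * B p.2.1)) :=
    (hψ.comp measurable_fst).mul (continuous_proj.measurable.abs.ennreal_ofReal.mul hAB)
  rw [lintegral_prod _ hm.aemeasurable]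
  refine lintegral_congr fun v => ?_
  have hb : Measurable fun q : Vel × Dir => (v, q.1, q.2) := by fun_prop
  have hv : Measurable fun q : Vel × Dir => ENNReal.ofReal |proj v q.1 q.2| * (A v * B q.1) :=
    (continuous_proj.measurable.comp hb).abs.ennreal_ofReal.mul (hAB.comp hb)
  exact (lintegral_const_mul (ψ v) hv).symm

/-- A bound for a bilinear integral with weight on the first variable. -/
theorem lintegral_tri_le (A B : Vel → ℝ≥0∞) (hA : Measurable A) (hB : Measurable B) :
    ∫⁻ p, ENNReal.ofReal |proj p.1 p.2.1 p.2.2| * (A p.1 * B p.2.1) ∂triM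
      ≤ dirM univ * ((∫⁻ v, wone v * A v) * ∫⁻ v, wone v * B v) := by
  refine (lintegral_mono (g := fun p : Vel × Vel × Dir => (wone p.1 * A p.1) * (wone p.2.1 * B p.2.1))
    fun p => ?_).trans (le_of_eq ?_)
  · calc _ ≤ (wone p.1 * wone p.2.1) * (A p.1 * B p.2.1) := mul_le_mul' (abs_proj_le_wone _ _ _) le_rfl
      _ = _ := by ring
  · rw [lintegral_tri_prod (fun v => wone v * A v) (fun v => wone v * B v)
      (measurable_wone.mul hA) (measurable_wone.mul hB)]
    ring

/-- The weighted balance of the mixed terms. -/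
theorem mom_balance (N G H : Vel → ℝ≥0∞) (hN : Measurable N) (hG : Measurable G) (hH : Measurable H) :
    ∫⁻ v, wgt v * (gainB N G v + gainB G N v + lossB G H v)
      ≤ (∫⁻ v, wgt v * lossB N G v)
        + 2 * (dirM univ * (∫⁻ v, wone v * (wgt v * G v)))
          * ((∫⁻ v, wgt v * N v) + ∫⁻ v, wgt v * H v) := by
  have hw := measurable_wgt
  have m1 := measurable_gainB_slice hN hG
  have m2 := measurable_gainB_slice hG hN
  have hp : Measurable fun p : Vel × Vel × Dir => ENNReal.ofReal |proj p.1 p.2.1 p.2.2| :=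
    continuous_proj.measurable.abs.ennreal_ofReal
  have hb : Measurable fun p : Vel × Vel × Dir =>
      ENNReal.ofReal |proj p.1 p.2.1 p.2.2| * (N p.1 * G p.2.1) := hp.mul (by fun_prop)
  have hsym : ∫⁻ p, wgt (post p.1 p.2.1 p.2.2) *
        (ENNReal.ofReal |proj p.1 p.2.1 p.2.2| * (G p.1 * N p.2.1)) ∂triM
      = ∫⁻ p, wgt (postStar p.1 p.2.1 p.2.2) *
        (ENNReal.ofReal |proj p.1 p.2.1 p.2.2| * (N p.1 * G p.2.1)) ∂triM := by
    have hGN : Measurable fun p : Vel × Vel × Dir => G p.1 * N p.2.1 := by fun_prop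
    rw [← lintegral_swap (fun p => wgt (post p.1 p.2.1 p.2.2) *
      (ENNReal.ofReal |proj p.1 p.2.1 p.2.2| * (G p.1 * N p.2.1)))
      ((hw.comp continuous_post.measurable).mul (hp.mul hGN))]
    refine lintegral_congr fun p => ?_
    simp only
    rw [post_swap, proj_swap, abs_neg, mul_comm (G p.2.1)]
  have hwN : ∫⁻ v, wone v * N v ≤ 2 * ∫⁻ v, wgt v * N v := by
    rw [← lintegral_const_mul _ (hw.fun_mul hN)]
    exact lintegral_mono fun v => by rw [← mul_assoc]; exact mul_le_mul' (wone_le v) le_rfl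
  have hwH : ∫⁻ v, wone v * H v ≤ 2 * ∫⁻ v, wgt v * H v := by
    rw [← lintegral_const_mul _ (hw.fun_mul hH)]
    exact lintegral_mono fun v => by rw [← mul_assoc]; exact mul_le_mul' (wone_le v) le_rfl
  simp only [mul_add]
  rw [lintegral_add_left (f := fun v => wgt v * gainB N G v + wgt v * gainB G N v)
      ((hw.fun_mul m1).fun_add (hw.fun_mul m2)),
    lintegral_add_left (hw.fun_mul m1), mom_gainB N G hN hG wgt hw, mom_gainB G N hG hN wgt hw,
    hsym, ← lintegral_add_left (f := fun p : Vel × Vel × Dir => wgt (post p.1 p.2.1 p.2.2) *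
      (ENNReal.ofReal |proj p.1 p.2.1 p.2.2| * (N p.1 * G p.2.1)))
      ((hw.comp continuous_post.measurable).fun_mul hb)]
  simp only [← add_mul, wgt_post]
  simp only [add_mul]
  rw [lintegral_add_left (f := fun p : Vel × Vel × Dir => wgt p.1 *
      (ENNReal.ofReal |proj p.1 p.2.1 p.2.2| * (N p.1 * G p.2.1)))
      ((hw.comp measurable_fst).fun_mul hb), mom_lossB N G hN hG wgt hw,
    mom_lossB G H hG hH wgt hw, add_assoc]
  refine add_le_add le_rfl (add_le_add ?_ ?_)
  · calc _ = ∫⁻ p, ENNReal.ofReal |proj p.1 p.2.1 p.2.2| * (N p.1 * (wgt p.2.1 * G p.2.1)) ∂triM :=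
          lintegral_congr fun p => by ring
      _ ≤ dirM univ * ((∫⁻ v, wone v * N v) * ∫⁻ v, wone v * (wgt v * G v)) :=
          lintegral_tri_le N (fun v => wgt v * G v) hN (hw.mul hG)
      _ ≤ _ := by
          refine (mul_le_mul' le_rfl (mul_le_mul' hwN le_rfl)).trans (le_of_eq ?_)
          ring
  · calc _ = ∫⁻ p, ENNReal.ofReal |proj p.1 p.2.1 p.2.2| * ((wgt p.1 * G p.1) * H p.2.1) ∂triM :=
          lintegral_congr fun p => by ring
      _ ≤ dirM univ * ((∫⁻ v, wone v * (wgt v * G v)) * ∫⁻ v, wone v * H v) :=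
          lintegral_tri_le (fun v => wgt v * G v) H (hw.mul hG) hH
      _ ≤ _ := by
          refine (mul_le_mul' le_rfl (mul_le_mul' le_rfl hwH)).trans (le_of_eq ?_)
          ring

theorem post_product_le {a b c e : ℝ} (ha : 0 ≤ a) (hc : 0 ≤ c) (he : 0 ≤ e) :
    a * b ≤ c * e + max (a - c) 0 * b + a * max (b - e) 0 ∨ b < 0 := by
  rcases lt_or_ge b 0 with hb | hb
  · exact Or.inr hb
  refine Or.inl ?_
  rcases le_or_gt a c with h | h
  · rw [max_eq_right (by linarith)]
    have := le_max_left (b - e) 0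
    nlinarith [mul_le_mul_of_nonneg_left this ha, mul_le_mul_of_nonneg_right h he]
  · rw [max_eq_left (by linarith)]
    nlinarith [mul_le_mul_of_nonneg_left (le_max_left (b - e) 0) hc,
      mul_le_mul_of_nonneg_right h.le (le_max_right (b - e) 0)]

/-- Pointwise comparison at a velocity where `f < g`. -/
theorem compare_of_lt (f g : Vel → ℝ) (hf : Measurable f) (hg : Measurable g) (hf0 : ∀ u, 0 ≤ f u)
    (hg0 : ∀ u, 0 ≤ g u) {v : Vel} (hv : f v < g v) :
    gain g v + loss f v + lossB (fun u => ENNReal.ofReal (g u - f u)) (fun u => ENNReal.ofReal (g u)) v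
      ≤ gain f v + loss g v
        + (gainB (fun u => ENNReal.ofReal (g u - f u)) (fun u => ENNReal.ofReal (g u)) v
          + gainB (fun u => ENNReal.ofReal (g u)) (fun u => ENNReal.ofReal (g u - f u)) v
          + lossB (fun u => ENNReal.ofReal (g u)) (fun u => ENNReal.ofReal (f u - g u)) v) := by
  have hb : Measurable fun q : Vel × Dir => (v, q.1, q.2) := by fun_prop
  have hp : Measurable fun q : Vel × Dir => |proj v q.1 q.2| := (continuous_proj.measurable.comp hb).abs
  have hpo : Measurable fun q : Vel × Dir => post v q.1 q.2 := continuous_post.measurable.comp hb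
  have hps : Measurable fun q : Vel × Dir => postStar v q.1 q.2 := continuous_postStar.measurable.comp hb
  have e1 : Measurable fun q : Vel × Dir => ENNReal.ofReal (|proj v q.1 q.2| * (g (post v q.1 q.2) * g (postStar v q.1 q.2))) :=
    (hp.mul ((hg.comp hpo).mul (hg.comp hps))).ennreal_ofReal
  have e2 : Measurable fun q : Vel × Dir => ENNReal.ofReal (|proj v q.1 q.2| * (f v * f q.1)) :=
    (hp.mul (measurable_const.mul (hf.comp measurable_fst))).ennreal_ofReal
  have e3 : Measurable fun q : Vel × Dir => ENNReal.ofReal (|proj v q.1 q.2| * (f (post v q.1 q.2) * f (postStar v q.1 q.2))) :=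
    (hp.mul ((hf.comp hpo).mul (hf.comp hps))).ennreal_ofReal
  have e4 : Measurable fun q : Vel × Dir => ENNReal.ofReal (|proj v q.1 q.2| * (g v * g q.1)) :=
    (hp.mul (measurable_const.mul (hg.comp measurable_fst))).ennreal_ofReal
  have e5 : Measurable fun q : Vel × Dir => ENNReal.ofReal |proj v q.1 q.2| *
      (ENNReal.ofReal (g (post v q.1 q.2) - f (post v q.1 q.2)) * ENNReal.ofReal (g (postStar v q.1 q.2))) :=
    hp.ennreal_ofReal.mul (((hg.comp hpo).sub (hf.comp hpo)).ennreal_ofReal.mul (hg.comp hps).ennreal_ofReal)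
  have e6 : Measurable fun q : Vel × Dir => ENNReal.ofReal |proj v q.1 q.2| *
      (ENNReal.ofReal (g (post v q.1 q.2)) * ENNReal.ofReal (g (postStar v q.1 q.2) - f (postStar v q.1 q.2))) :=
    hp.ennreal_ofReal.mul ((hg.comp hpo).ennreal_ofReal.mul ((hg.comp hps).sub (hf.comp hps)).ennreal_ofReal)
  simp only [gain, loss, gainB, lossB]
  rw [← lintegral_add_left e1, ← lintegral_add_left (e1.fun_add e2), ← lintegral_add_left e3,
    ← lintegral_add_left e5, ← lintegral_add_left (e5.fun_add e6),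
    ← lintegral_add_left (e3.fun_add e4)]
  refine lintegral_mono fun q => ?_
  simp only
  set p := |proj v q.1 q.2| with hpdef
  have hp0 : 0 ≤ p := abs_nonneg _
  set a := g (post v q.1 q.2)
  set b := g (postStar v q.1 q.2)
  set c := f (post v q.1 q.2)
  set e := f (postStar v q.1 q.2)
  have ha : 0 ≤ a := hg0 _
  have hb' : 0 ≤ b := hg0 _
  have hc : 0 ≤ c := hf0 _
  have he : 0 ≤ e := hf0 _
  have hfv := hf0 v
  have hfq := hf0 q.1
  have hgv := hg0 v
  have hgq := hg0 q.1
  have max_eq : ∀ x : ℝ, ENNReal.ofReal x = ENNReal.ofReal (max x 0) := fun x => by simp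
  rw [max_eq (g v - f v), max_eq (a - c), max_eq (b - e), max_eq (f q.1 - g q.1)]
  have k1 := (post_product_le (b := b) ha hc he).resolve_right (not_lt.2 hb')
  have k2 : f v * f q.1 + max (g v - f v) 0 * g q.1 ≤ g v * g q.1 + g v * max (f q.1 - g q.1) 0 := by
    rw [max_eq_left (sub_nonneg.2 hv.le)]
    nlinarith [mul_le_mul_of_nonneg_left (le_max_left (f q.1 - g q.1) 0) hfv,
      mul_le_mul_of_nonneg_right hv.le (le_max_right (f q.1 - g q.1) 0)]
  simp (disch := positivity) only [← ENNReal.ofReal_mul, ← ENNReal.ofReal_add]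
  refine ENNReal.ofReal_le_ofReal ?_
  nlinarith [mul_le_mul_of_nonneg_left (add_le_add k1 k2) hp0]

end

end Vale.Agent.P140.Homog
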