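import Mathlib

/-!
P140: hard sphere collisions, and renormalized solutions tested against functions of time and
velocity only.
-/

namespace Vale.Agent.P140.Homog

open MeasureTheory Real Set
open scoped ENNReal ContDiff

noncomputable section

/-- Velocities. -/
abbrev Vel : Type := EuclideanSpace ℝ (Fin 3)

/-- The flat unit torus. -/
abbrev Pos : Type := Fin 3 → UnitAddCircle

/-- Unit vectors. -/
abbrev Dir : Type := Metric.sphere (0 : Vel) 1

/-- The surface measure on unit vectors. -/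
def dirM : Measure Dir := (volume : Measure Vel).toSphere

/-- `(v - w) · ω`. -/
def proj (v w : Vel) (o : Dir) : ℝ := inner ℝ (v - w) (o : Vel)

/-- The velocity `v'` after the collision. -/
def post (v w : Vel) (o : Dir) : Vel := v - proj v w o • (o : Vel)

/-- The velocity `v_*'` after the collision. -/
def postStar (v w : Vel) (o : Dir) : Vel := w + proj v w o • (o : Vel)

/-- The gain term of hard spheres. -/
def gain (F : Vel → ℝ) (v : Vel) : ℝ≥0∞ :=
  ∫⁻ q : Vel × Dir, ENNReal.ofReal (|proj v q.1 q.2| * (F (post v q.1 q.2) * F (postStar v q.1 q.2)))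
    ∂volume.prod dirM

/-- The loss term of hard spheres. -/
def loss (F : Vel → ℝ) (v : Vel) : ℝ≥0∞ :=
  ∫⁻ q : Vel × Dir, ENNReal.ofReal (|proj v q.1 q.2| * (F v * F q.1)) ∂volume.prod dirM

/-- The centred unit Maxwellian `M`. -/
def refMax (v : Vel) : ℝ := (2 * π) ^ (-(3 / 2) : ℝ) * exp (-‖v‖ ^ 2 / 2)

/-- Weak continuity in `L¹`, against bounded measurable tests. -/
def WeakCont (F : ℝ → Pos → Vel → ℝ) : Prop :=
  ∀ φ : Pos × Vel → ℝ, Measurable φ → (∃ C : ℝ, ∀ p, |φ p| ≤ C) →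
    ContinuousOn (fun t => ∫ p : Pos × Vel, φ p * F t p.1 p.2) (Ici 0)

/-- The balance of mass tested against functions of time. -/
def MassBalance (f₀ : Vel → ℝ) (F : ℝ → Pos → Vel → ℝ) : Prop :=
  ∀ χ : ℝ → ℝ, ContDiff ℝ ∞ χ → HasCompactSupport χ →
    (∫ t in Ioi (0 : ℝ), deriv χ t * ∫ p : Pos × Vel, F t p.1 p.2)
      + χ 0 * ∫ p : Pos × Vel, f₀ p.2 = 0

/-- `Q⁺ / (1 + F/M)` is integrable on finite time intervals. -/
def GainFinite (F : ℝ → Pos → Vel → ℝ) : Prop :=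
  ∀ T : ℝ, ∫⁻ t in Ioc 0 T, ∫⁻ p : Pos × Vel,
    gain (F t p.1) p.2 / (1 + ENNReal.ofReal (F t p.1 p.2 / refMax p.2)) < ⊤

/-- `Q⁻ / (1 + F/M)` is integrable on finite time intervals. -/
def LossFinite (F : ℝ → Pos → Vel → ℝ) : Prop :=
  ∀ T : ℝ, ∫⁻ t in Ioc 0 T, ∫⁻ p : Pos × Vel,
    loss (F t p.1) p.2 / (1 + ENNReal.ofReal (F t p.1 p.2 / refMax p.2)) < ⊤

/-- `∫ M β(G) ψ` for `G = f/M`. -/
def renormMass (β : ℝ → ℝ) (ψ : Vel → ℝ) (f : Pos → Vel → ℝ) : ℝ :=
  ∫ p : Pos × Vel, refMax p.2 * β (f p.1 p.2 / refMax p.2) * ψ p.2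

/-- `∫ β'(G) Q ψ`. -/
def renormSource (β : ℝ → ℝ) (ψ : Vel → ℝ) (f : Pos → Vel → ℝ) : ℝ :=
  ∫ p : Pos × Vel, deriv β (f p.1 p.2 / refMax p.2) *
    ((gain (f p.1) p.2).toReal - (loss (f p.1) p.2).toReal) * ψ p.2

/-- The renormalized equation, tested against products of functions of time and of velocity. -/
def RenormEq (f₀ : Vel → ℝ) (F : ℝ → Pos → Vel → ℝ) : Prop :=
  ∀ β : ℝ → ℝ, ContDiff ℝ 1 β → β 0 = 0 →
    (∃ C : ℝ, ∀ z, 0 ≤ z → |deriv β z| ≤ C / (1 + z)) →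
    ∀ χ : ℝ → ℝ, ContDiff ℝ ∞ χ → HasCompactSupport χ →
    ∀ ψ : Vel → ℝ, ContDiff ℝ ∞ ψ → HasCompactSupport ψ →
      (∫ t in Ioi (0 : ℝ), deriv χ t * renormMass β ψ (F t))
        + χ 0 * renormMass β ψ (fun _ => f₀)
        + (∫ t in Ioi (0 : ℝ), χ t * renormSource β ψ (F t)) = 0

/-- `F` has the datum `f₀` (a function of the velocity) and satisfies the following consequences of
being a renormalized entropy solution: nonnegativity and finite energy, weak continuity in `L¹`,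
conservation of mass tested against functions of time, the bound on the energy, and the
renormalized equation tested against products of functions of time and of velocity. -/
structure IsRenormSol (f₀ : Vel → ℝ) (F : ℝ → Pos → Vel → ℝ) : Prop where
  meas : Measurable fun p : ℝ × Pos × Vel => F p.1 p.2.1 p.2.2
  nonneg : ∀ t x v, 0 ≤ F t x v
  integ : ∀ t, 0 ≤ t → Integrable fun p : Pos × Vel => F t p.1 p.2 * (1 + ‖p.2‖ ^ 2)
  weak_cont : WeakCont F
  init : (fun p : Pos × Vel => F 0 p.1 p.2) =ᵐ[volume] fun p => f₀ p.2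
  mass : MassBalance f₀ F
  energy : ∀ t, 0 ≤ t →
    ∫ p : Pos × Vel, ‖p.2‖ ^ 2 * F t p.1 p.2 ≤ ∫ p : Pos × Vel, ‖p.2‖ ^ 2 * f₀ p.2
  gain_fin : GainFinite F
  loss_fin : LossFinite F
  renorm : RenormEq f₀ F

end

end Vale.Agent.P140.Homog
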