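import Vale.Agent.P140.ExistAux

/-!
P140: the homogeneous solution by monotone iteration, with its conservation laws.
-/

namespace Vale.Agent.P140.Homog

open MeasureTheory Real Set
open scoped ENNReal

noncomputable section

/-- A homogeneous datum with finite third moment. -/
structure Datum where
  f₀ : Vel → ℝ
  meas : Measurable f₀
  nonneg : ∀ v, 0 ≤ f₀ v
  integ : Integrable fun v => f₀ v * (1 + ‖v‖ ^ 3)

namespace Datum

variable (d : Datum)

theorem integ_pow {k : ℕ} (hk : k ≤ 3) : Integrable fun v => ‖v‖ ^ k * d.f₀ v := by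
  refine d.integ.mono' ((continuous_norm.pow k).measurable.mul d.meas).aestronglyMeasurable
    (Filter.Eventually.of_forall fun v => ?_)
  have h := norm_nonneg v
  rw [Real.norm_eq_abs, abs_of_nonneg (mul_nonneg (pow_nonneg h k) (d.nonneg v)), mul_comm]
  refine mul_le_mul_of_nonneg_left ?_ (d.nonneg v)
  rcases le_total ‖v‖ 1 with h1 | h1
  · linarith [pow_le_one₀ (n := k) h h1, pow_nonneg h 3]
  · linarith [pow_le_pow_right₀ h1 hk]

/-- Moments of the datum. -/
def m (k : ℕ) : ℝ := ∫ v, ‖v‖ ^ k * d.f₀ v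

theorem m_nonneg (k : ℕ) : 0 ≤ d.m k :=
  integral_nonneg fun v => mul_nonneg (pow_nonneg (norm_nonneg v) k) (d.nonneg v)

/-- The datum in `ℝ≥0∞`. -/
def F₀ (v : Vel) : ℝ≥0∞ := ENNReal.ofReal (d.f₀ v)

theorem mom_F₀ {k : ℕ} (hk : k ≤ 3) : mom (pk k) d.F₀ = ENNReal.ofReal (d.m k) := by
  rw [m, ofReal_integral_eq_lintegral_ofReal (d.integ_pow hk)
    (Filter.Eventually.of_forall fun v => mul_nonneg (pow_nonneg (norm_nonneg v) k) (d.nonneg v))]
  exact lintegral_congr fun v => (ENNReal.ofReal_mul (by positivity)).symm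

/-- The total surface of the sphere. -/
def area : ℝ := dirM.real univ

theorem area_nonneg : 0 ≤ area := measureReal_nonneg

theorem ofReal_area : ENNReal.ofReal area = dirM univ := ENNReal.ofReal_toReal (measure_ne_top _ _)

/-- The rate of the iteration. -/
def rate (v : Vel) : ℝ := area * (‖v‖ * d.m 0 + (d.m 0 + d.m 2) / 2)

theorem rate_nonneg (v : Vel) : 0 ≤ d.rate v := by
  have := d.m_nonneg 0; have := d.m_nonneg 2
  exact mul_nonneg area_nonneg (by positivity)

theorem measurable_rate : Measurable d.rate := by unfold rate; fun_prop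

/-- The iterates. -/
def it : ℕ → ℝ → Vel → ℝ≥0∞
  | 0 => fun _ _ => 0
  | n + 1 => fun t v => ENNReal.ofReal (exp (-d.rate v * t)) * d.F₀ v
      + ∫⁻ s in Ioc 0 t, ENNReal.ofReal (exp (-d.rate v * (t - s))) * modGain (it n s) v

theorem measurable_it : ∀ n, Measurable fun p : ℝ × Vel => d.it n p.1 p.2
  | 0 => measurable_const
  | n + 1 => by
    have hM := measurable_modGain (measurable_it n)
    have hr := d.measurable_rate
    have hf : Measurable d.F₀ := d.meas.ennreal_ofReal
    have e : (fun p : ℝ × Vel => d.it (n + 1) p.1 p.2) = fun p =>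
        ENNReal.ofReal (exp (-d.rate p.2 * p.1)) * d.F₀ p.2 + ∫⁻ s, {q : (ℝ × Vel) × ℝ |
          q.2 ∈ Ioc 0 q.1.1}.indicator (fun q => ENNReal.ofReal (exp (-d.rate q.1.2 * (q.1.1 - q.2)))
            * modGain (d.it n q.2) q.1.2) (p, s) := by
      funext p
      simp only [it]
      congr 1
      rw [← lintegral_indicator measurableSet_Ioc]
      rfl
    rw [e]
    refine (((hr.comp measurable_snd).neg.mul measurable_fst).exp.ennreal_ofReal.mul
      (hf.comp measurable_snd)).add (Measurable.lintegral_prod_right' ?_)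
    refine Measurable.indicator ?_ ?_
    · exact (((hr.comp measurable_fst.snd).neg.mul
        (measurable_fst.fst.sub measurable_snd)).exp.ennreal_ofReal).mul
        (hM.comp (measurable_snd.prodMk measurable_fst.snd))
    · exact (measurableSet_lt measurable_const measurable_snd).inter
        (measurableSet_le measurable_snd measurable_fst.fst)

theorem measurable_it_slice (n : ℕ) (t : ℝ) : Measurable (d.it n t) := by
  have h := Measurable.fun_comp (d.measurable_it n) (measurable_prodMk_left (x := t))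
  exact h

theorem it_mono : ∀ (n : ℕ) (t : ℝ) (v : Vel), d.it n t v ≤ d.it (n + 1) t v
  | 0, _, _ => bot_le
  | n + 1, t, v => add_le_add le_rfl (lintegral_mono fun s =>
      mul_le_mul' le_rfl (modGain_mono (it_mono n s) v))

/-- The integrated equation of one iterate. -/
theorem it_integral (n : ℕ) {t : ℝ} (ht : 0 ≤ t) (v : Vel) :
    d.it (n + 1) t v + ∫⁻ s in Ioc 0 t, ENNReal.ofReal (d.rate v) * d.it (n + 1) s v
      = d.F₀ v + ∫⁻ s in Ioc 0 t, modGain (d.it n s) v := by
  set L := d.rate v with hLdef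
  have hL : 0 ≤ L := d.rate_nonneg v
  set e : ℝ → ℝ≥0∞ := fun x => ENNReal.ofReal (exp (-L * x)) with he
  have hem : Measurable e := by fun_prop
  set M : ℝ → ℝ≥0∞ := fun r => modGain (d.it n r) v with hM
  have hMm : Measurable M := by
    have h := Measurable.fun_comp (measurable_modGain (d.measurable_it n))
      (measurable_prodMk_right (y := v))
    exact h
  set l : ℝ≥0∞ := ENNReal.ofReal L with hl
  set K : ℝ × ℝ → ℝ≥0∞ :=
    {q : ℝ × ℝ | q.2 ≤ q.1}.indicator fun q => l * e (q.1 - q.2) * M q.2 with hK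
  have hKm : Measurable K :=
    ((measurable_const.mul (hem.comp (by fun_prop))).mul (hMm.comp measurable_snd)).indicator
      (measurableSet_le measurable_snd measurable_fst)
  have step : ∫⁻ s in Ioc 0 t, l * d.it (n + 1) s v
      = (∫⁻ s in Ioc 0 t, l * e s) * d.F₀ v + ∫⁻ r in Ioc 0 t, (∫⁻ s in Ioc r t, l * e (s - r)) * M r := by
    calc ∫⁻ s in Ioc 0 t, l * d.it (n + 1) s v
        = ∫⁻ s in Ioc 0 t, (l * e s * d.F₀ v + ∫⁻ r in Ioc 0 t, K (s, r)) := by
          refine setLIntegral_congr_fun measurableSet_Ioc fun s hs => ?_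
          simp only [it, ← hLdef, mul_add]
          refine congrArg₂ (· + ·) (mul_assoc _ _ _).symm ?_
          rw [← lintegral_const_mul' _ _ ENNReal.ofReal_ne_top,
            ← lintegral_indicator measurableSet_Ioc, ← lintegral_indicator measurableSet_Ioc]
          refine lintegral_congr fun r => ?_
          by_cases hr : r ∈ Ioc 0 s
          · rw [indicator_of_mem hr, indicator_of_mem (show r ∈ Ioc 0 t from ⟨hr.1, hr.2.trans hs.2⟩), hK,
              indicator_of_mem (show (s, r) ∈ {q : ℝ × ℝ | q.2 ≤ q.1} from hr.2), mul_assoc]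
          · rw [indicator_of_notMem hr]
            by_cases hr2 : r ∈ Ioc 0 t
            · rw [indicator_of_mem hr2, hK, indicator_of_notMem]
              exact fun h => hr ⟨hr2.1, h⟩
            · rw [indicator_of_notMem hr2]
      _ = _ := by
          rw [lintegral_add_left (by fun_prop), lintegral_mul_const _ (by fun_prop),
            lintegral_lintegral_swap (f := fun s r => K (s, r)) hKm.aemeasurable]
          congr 1
          refine setLIntegral_congr_fun measurableSet_Ioc fun r hr => ?_
          rw [← lintegral_mul_const _ (by fun_prop), ← lintegral_indicator measurableSet_Ioc,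
            ← lintegral_indicator measurableSet_Ioc]
          refine lintegral_congr_ae ((Measure.ae_ne volume r).mono fun s hs => ?_)
          simp only [hK, indicator, mem_Ioc, mem_ofPred_eq]
          split_ifs with h1 h2 h3 <;>
            first
              | rfl
              | (exfalso; rcases hr with ⟨a, b⟩; grind)
  have h1 : ∫⁻ r in Ioc 0 t, (e (t - r) * M r + (∫⁻ s in Ioc r t, l * e (s - r)) * M r)
      = ∫⁻ r in Ioc 0 t, M r := by
    refine setLIntegral_congr_fun measurableSet_Ioc fun r hr => ?_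
    simp only [← add_mul, he, hl, exp_sub_add_integral L hL r t hr.2, one_mul]
  have h2 := exp_sub_add_integral L hL 0 t ht
  simp only [sub_zero] at h2
  rw [step, ← h1, lintegral_add_left (f := fun r => e (t - r) * M r)
    ((hem.fun_comp (by fun_prop)).fun_mul hMm)]
  simp only [it, ← hLdef]
  conv_rhs => rw [show d.F₀ v = 1 * d.F₀ v from (one_mul _).symm, ← h2]
  simp only [he, hM, hl, add_mul]
  abel

theorem mom_pull (ψ : Vel → ℝ≥0∞) (hψ : Measurable ψ) (G : ℝ → Vel → ℝ≥0∞)
    (hG : Measurable fun p : ℝ × Vel => G p.1 p.2) (t : ℝ) :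
    mom ψ (fun v => ∫⁻ s in Ioc 0 t, G s v) = ∫⁻ s in Ioc 0 t, mom ψ (G s) := by
  simp only [mom]
  rw [lintegral_lintegral_swap ((hψ.comp measurable_snd).mul hG).aemeasurable]
  exact lintegral_congr fun v => (lintegral_const_mul _
    (Measurable.fun_comp hG (measurable_prodMk_right (y := v)))).symm

/-- The integrated equation, tested against a weight. -/
theorem mom_it (n : ℕ) {t : ℝ} (ht : 0 ≤ t) (ψ : Vel → ℝ≥0∞) (hψ : Measurable ψ) :
    mom ψ (d.it (n + 1) t)
      + ∫⁻ s in Ioc 0 t, mom ψ (fun v => ENNReal.ofReal (d.rate v) * d.it (n + 1) s v)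
      = mom ψ d.F₀ + ∫⁻ s in Ioc 0 t, mom ψ (modGain (d.it n s)) := by
  have hr := d.measurable_rate
  rw [← mom_pull ψ hψ (fun s v => ENNReal.ofReal (d.rate v) * d.it (n + 1) s v)
      ((hr.comp measurable_snd).ennreal_ofReal.mul (d.measurable_it _)),
    ← mom_pull ψ hψ _ (measurable_modGain (d.measurable_it n))]
  simp only [mom]
  rw [← lintegral_add_left (hψ.fun_mul (d.measurable_it_slice _ t)),
    ← lintegral_add_left (hψ.fun_mul (show Measurable d.F₀ from d.meas.ennreal_ofReal))]
  refine lintegral_congr fun v => ?_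
  rw [← mul_add, ← mul_add, d.it_integral n ht v]

theorem measurable_tri_weight {ψ G : Vel → ℝ≥0∞} (hψ : Measurable ψ) (hG : Measurable G) :
    Measurable fun p : Vel × Vel × Dir =>
      ψ p.1 * ENNReal.ofReal |proj p.1 p.2.1 p.2.2| * (G p.1 * G p.2.1) :=
  ((hψ.comp measurable_fst).mul continuous_proj.measurable.abs.ennreal_ofReal).mul (by fun_prop)

/-- The weight `kap` integrated against a product. -/
theorem lintegral_kap (ψ G : Vel → ℝ≥0∞) (hψ : Measurable ψ) (hG : Measurable G) :
    ∫⁻ p : Vel × Vel × Dir, ψ p.1 * ENNReal.ofReal (kap p.1 p.2.1) * (G p.1 * G p.2.1) ∂triM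
      = dirM univ * (mom (fun v => pk 1 v * ψ v) G * mom (pk 0) G
          + mom ψ G * ((mom (pk 0) G + mom (pk 2) G) / 2)) := by
  have hm := measurable_pk
  calc _ = ∫⁻ p : Vel × Vel × Dir, ((pk 1 p.1 * ψ p.1 * G p.1) * (pk 0 p.2.1 * G p.2.1)
        + (ψ p.1 * G p.1) * ((pk 0 p.2.1 * G p.2.1 + pk 2 p.2.1 * G p.2.1) / 2)) ∂triM := by
        refine lintegral_congr fun p => ?_
        rw [kap, ENNReal.ofReal_add (norm_nonneg _) (by positivity),
          ENNReal.ofReal_div_of_pos two_pos, ENNReal.ofReal_add zero_le_one (by positivity)]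
        simp only [pk, pow_zero, pow_one, ENNReal.ofReal_one, ENNReal.ofReal_ofNat, div_eq_mul_inv]
        ring
    _ = _ := by
        rw [lintegral_add_left (by fun_prop),
          lintegral_tri_prod (fun v => pk 1 v * ψ v * G v) (fun w => pk 0 w * G w)
            (by fun_prop) (by fun_prop),
          lintegral_tri_prod (fun v => ψ v * G v) (fun w => (pk 0 w * G w + pk 2 w * G w) / 2)
            (by fun_prop) (by fun_prop)]
        simp only [mom, div_eq_mul_inv]
        rw [lintegral_mul_const _ (by fun_prop), lintegral_add_left (by fun_prop)]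
        ring

/-- The loss part of a collision integral, exchanged between the two particles. -/
theorem lintegral_post_star (ψ G : Vel → ℝ≥0∞) (hψ : Measurable ψ) (hG : Measurable G) :
    ∫⁻ p : Vel × Vel × Dir,
      ψ (postStar p.1 p.2.1 p.2.2) * ENNReal.ofReal |proj p.1 p.2.1 p.2.2| * (G p.1 * G p.2.1)
      ∂triM
    = ∫⁻ p : Vel × Vel × Dir,
      ψ (post p.1 p.2.1 p.2.2) * ENNReal.ofReal |proj p.1 p.2.1 p.2.2| * (G p.1 * G p.2.1)
      ∂triM := by
  rw [← lintegral_swap]
  · refine lintegral_congr fun p => ?_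
    simp only
    rw [postStar_swap, proj_swap, abs_neg, mul_comm (G p.2.1)]
  · exact ((hψ.comp continuous_postStar.measurable).mul
      continuous_proj.measurable.abs.ennreal_ofReal).mul (by fun_prop)

/-- The gain of a conserved weight is at most its loss plus half of any excess. -/
theorem mom_modGain_le (ψ E G : Vel → ℝ≥0∞) (E' : Vel → ℝ≥0∞) (hψ : Measurable ψ)
    (hE : Measurable E) (hE' : Measurable E') (hG : Measurable G)
    (h : ∀ v w o, (ψ (post v w o) + ψ (postStar v w o)) * ENNReal.ofReal |proj v w o|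
      ≤ (ψ v + ψ w) * ENNReal.ofReal |proj v w o| + (E v * E' w + E w * E' v)) :
    mom ψ (modGain G) ≤ dirM univ * (mom (fun v => pk 1 v * ψ v) G * mom (pk 0) G
        + mom ψ G * ((mom (pk 0) G + mom (pk 2) G) / 2) + mom E G * mom E' G) := by
  set a : Vel × Vel × Dir → ℝ≥0∞ := fun p =>
    ψ (post p.1 p.2.1 p.2.2) * ENNReal.ofReal |proj p.1 p.2.1 p.2.2| * (G p.1 * G p.2.1) with ha
  set b : Vel × Vel × Dir → ℝ≥0∞ := fun p =>
    ψ p.1 * ENNReal.ofReal |proj p.1 p.2.1 p.2.2| * (G p.1 * G p.2.1) with hb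
  have hp := continuous_proj.measurable
  have ham : Measurable a :=
    ((hψ.comp continuous_post.measurable).mul hp.abs.ennreal_ofReal).mul (by fun_prop)
  have hbm : Measurable b := measurable_tri_weight hψ hG
  have hb' : ∫⁻ p, b (p.2.1, p.1, p.2.2) ∂triM = ∫⁻ p, b p ∂triM := lintegral_swap b hbm
  have key : ∫⁻ p, a p ∂triM ≤ ∫⁻ p, b p ∂triM + dirM univ * (mom E G * mom E' G) := by
    have h2 : 2 * ∫⁻ p, a p ∂triM ≤ 2 * (∫⁻ p, b p ∂triM + dirM univ * (mom E G * mom E' G)) := by
      calc 2 * ∫⁻ p, a p ∂triM = ∫⁻ p : Vel × Vel × Dir, (a p + ψ (postStar p.1 p.2.1 p.2.2) *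
            ENNReal.ofReal |proj p.1 p.2.1 p.2.2| * (G p.1 * G p.2.1)) ∂triM := by
            rw [lintegral_add_left ham, lintegral_post_star ψ G hψ hG, two_mul]
        _ ≤ ∫⁻ p : Vel × Vel × Dir, ((b p + b (p.2.1, p.1, p.2.2)) +
              ((E p.1 * G p.1) * (E' p.2.1 * G p.2.1)
                + (E' p.1 * G p.1) * (E p.2.1 * G p.2.1))) ∂triM := by
            refine lintegral_mono fun p => ?_
            calc _ = (ψ (post p.1 p.2.1 p.2.2) + ψ (postStar p.1 p.2.1 p.2.2)) *
                  ENNReal.ofReal |proj p.1 p.2.1 p.2.2| * (G p.1 * G p.2.1) := by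
                  simp only [ha]; ring
              _ ≤ _ := mul_le_mul' (h p.1 p.2.1 p.2.2) le_rfl
              _ = _ := by simp only [hb, proj_swap p.1 p.2.1, abs_neg]; ring
        _ = _ := by
            rw [lintegral_add_left (hbm.fun_add (hbm.fun_comp (by fun_prop))),
              lintegral_add_left hbm, hb', lintegral_add_left (by fun_prop),
              lintegral_tri_prod (fun v => E v * G v) (fun w => E' w * G w) (by fun_prop)
                (by fun_prop),
              lintegral_tri_prod (fun v => E' v * G v) (fun w => E w * G w) (by fun_prop)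
                (by fun_prop)]
            simp only [mom]
            ring
    exact (ENNReal.mul_le_mul_iff_right two_ne_zero ENNReal.ofNat_ne_top).1 h2
  have hk : Measurable fun p : Vel × Vel × Dir => kap p.1 p.2.1 := by unfold kap; fun_prop
  rw [mom_modGain ψ G hψ hG]
  set c : Vel × Vel × Dir → ℝ≥0∞ := fun p => ψ p.1 *
    ENNReal.ofReal (kap p.1 p.2.1 - |proj p.1 p.2.1 p.2.2|) * (G p.1 * G p.2.1) with hc
  calc _ = ∫⁻ p, a p ∂triM + ∫⁻ p, c p ∂triM := by
        rw [← lintegral_add_left ham]
        exact lintegral_congr fun p => add_mul _ _ _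
    _ ≤ ∫⁻ p, b p ∂triM + dirM univ * (mom E G * mom E' G) + ∫⁻ p, c p ∂triM :=
        add_le_add key le_rfl
    _ = _ := by
        rw [add_right_comm, ← lintegral_add_left hbm, mul_add, ← lintegral_kap ψ G hψ hG]
        congr 1
        refine lintegral_congr fun p => ?_
        simp only [hb, hc]
        rw [← add_mul, ← mul_add, ← ENNReal.ofReal_add (abs_nonneg _)
          (sub_nonneg.2 (abs_proj_le_kap _ _ _)), add_sub_cancel]

end Datum

end

end Vale.Agent.P140.Homog
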