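import Vale.Agent.P140.Collide

/-!
P140: elementary lemmas for the monotone iteration, and the weak form of the modified gain.
-/

namespace Vale.Agent.P140.Homog

open MeasureTheory Real Set
open scoped ENNReal

noncomputable section

theorem exp_sub_add_integral (L : ℝ) (hL : 0 ≤ L) (r t : ℝ) (hrt : r ≤ t) :
    ENNReal.ofReal (exp (-L * (t - r))) +
      ∫⁻ s in Ioc r t, ENNReal.ofReal L * ENNReal.ofReal (exp (-L * (s - r))) = 1 := by
  have hc : Continuous fun s => L * exp (-L * (s - r)) := by fun_prop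
  have hd : ∀ s ∈ uIcc r t, HasDerivAt (fun s => -exp (-L * (s - r))) (L * exp (-L * (s - r))) s := by
    intro s _
    have := (((hasDerivAt_id s).sub_const r).const_mul (-L)).exp.neg
    simp only [id, mul_one] at this
    exact this.congr_deriv (by ring)
  have hint : ∫ s in r..t, L * exp (-L * (s - r)) = 1 - exp (-L * (t - r)) := by
    rw [intervalIntegral.integral_eq_sub_of_hasDerivAt hd (hc.intervalIntegrable _ _)]
    simp; ring
  simp only [← ENNReal.ofReal_mul hL]
  rw [← ofReal_integral_eq_lintegral_ofReal hc.integrableOn_Ioc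
      (Filter.Eventually.of_forall fun s => mul_nonneg hL (exp_nonneg _)),
    ← intervalIntegral.integral_of_le hrt, hint, ← ENNReal.ofReal_add (exp_nonneg _)]
  · simp
  · have : exp (-L * (t - r)) ≤ 1 := exp_le_one_iff.2 (by nlinarith)
    linarith

theorem lintegral_Ioc_pow (n : ℕ) {t : ℝ} (ht : 0 ≤ t) :
    ∫⁻ s in Ioc 0 t, ENNReal.ofReal (s ^ n) = ENNReal.ofReal (t ^ (n + 1) / (n + 1)) := by
  rw [← ofReal_integral_eq_lintegral_ofReal (continuous_pow n).integrableOn_Ioc
    ((ae_restrict_iff' measurableSet_Ioc).2 (Filter.Eventually.of_forall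
      fun s hs => pow_nonneg hs.1.le n)), ← intervalIntegral.integral_of_le ht, integral_pow]
  simp

theorem gronwall_zero {U : ℝ → ℝ≥0∞} {C B : ℝ} {T : ℝ} (hC : 0 ≤ C) (hB : 0 ≤ B)
    (hb : ∀ t ∈ Icc 0 T, U t ≤ ENNReal.ofReal B)
    (hU : ∀ t ∈ Icc 0 T, U t ≤ ENNReal.ofReal C * ∫⁻ s in Ioc 0 t, U s) :
    ∀ t ∈ Icc 0 T, U t = 0 := by
  have key : ∀ (n : ℕ), ∀ t ∈ Icc 0 T, U t ≤ ENNReal.ofReal (B * (C * t) ^ n / n.factorial) := by
    intro n
    induction n with
    | zero => intro t ht; simpa using hb t ht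
    | succ n ih =>
      intro t ht
      refine (hU t ht).trans ?_
      have h0 : (0 : ℝ) ≤ B * C ^ n / n.factorial := by positivity
      calc ENNReal.ofReal C * ∫⁻ s in Ioc 0 t, U s
          ≤ ENNReal.ofReal C * ∫⁻ s in Ioc 0 t,
              ENNReal.ofReal (B * C ^ n / n.factorial) * ENNReal.ofReal (s ^ n) := by
            refine mul_le_mul' le_rfl (setLIntegral_mono (by fun_prop) fun s hs => ?_)
            rw [← ENNReal.ofReal_mul h0]
            refine (ih s ⟨hs.1.le, hs.2.trans ht.2⟩).trans (le_of_eq ?_)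
            rw [mul_pow]; ring_nf
        _ = _ := by
            rw [lintegral_const_mul _ (by fun_prop), lintegral_Ioc_pow n ht.1,
              ← ENNReal.ofReal_mul h0, ← ENNReal.ofReal_mul hC]
            congr 1
            rw [Nat.factorial_succ]
            push_cast
            field_simp
            ring
  intro t ht
  refine le_antisymm ?_ bot_le
  have hlim : Filter.Tendsto (fun n : ℕ => ENNReal.ofReal (B * (C * t) ^ n / n.factorial))
      Filter.atTop (nhds 0) := by
    have h := ((Real.summable_pow_div_factorial (C * t)).mul_left B).tendsto_atTop_zero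
    simpa [mul_div_assoc] using ENNReal.tendsto_ofReal h
  exact ge_of_tendsto' hlim fun n => key n t ht

theorem iSup_mul_iSup_mono {a b : ℕ → ℝ≥0∞} (ha : Monotone a) (hb : Monotone b) :
    (⨆ n, a n) * ⨆ n, b n = ⨆ n, a n * b n := by
  refine le_antisymm ?_ (iSup_le fun n => mul_le_mul' (le_iSup a n) (le_iSup b n))
  rw [ENNReal.iSup_mul]
  refine iSup_le fun i => ?_
  rw [ENNReal.mul_iSup]
  refine iSup_le fun j => le_trans ?_ (le_iSup _ (max i j))
  exact mul_le_mul' (ha (le_max_left i j)) (hb (le_max_right i j))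

/-- An upper bound of `|(v - w) · ω|` whose integral against a density is conserved. -/
def kap (v w : Vel) : ℝ := ‖v‖ + (1 + ‖w‖ ^ 2) / 2

theorem abs_proj_le_kap (v w : Vel) (o : Dir) : |proj v w o| ≤ kap v w :=
  (abs_proj_le v w o).trans (add_le_add le_rfl (by nlinarith [sq_nonneg (‖w‖ - 1)]))

/-- The monotone collision operator of the iteration. -/
def modGain (G : Vel → ℝ≥0∞) (v : Vel) : ℝ≥0∞ :=
  ∫⁻ q : Vel × Dir, (ENNReal.ofReal |proj v q.1 q.2| * (G (post v q.1 q.2) * G (postStar v q.1 q.2))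
    + ENNReal.ofReal (kap v q.1 - |proj v q.1 q.2|) * (G v * G q.1)) ∂volume.prod dirM

theorem modGain_mono {G H : Vel → ℝ≥0∞} (h : ∀ v, G v ≤ H v) (v : Vel) :
    modGain G v ≤ modGain H v :=
  lintegral_mono fun _ => add_le_add (mul_le_mul' le_rfl (mul_le_mul' (h _) (h _)))
    (mul_le_mul' le_rfl (mul_le_mul' (h _) (h _)))

theorem measurable_tri_post {α : Type*} [MeasurableSpace α] {G : α → Vel → ℝ≥0∞}
    (hG : Measurable fun p : α × Vel => G p.1 p.2) :
    Measurable fun r : (α × Vel) × Vel × Dir =>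
      G r.1.1 (post r.1.2 r.2.1 r.2.2) * G r.1.1 (postStar r.1.2 r.2.1 r.2.2) := by
  have hb : Measurable fun r : (α × Vel) × Vel × Dir => (r.1.2, r.2.1, r.2.2) := by fun_prop
  exact (hG.comp (measurable_fst.fst.prodMk (continuous_post.measurable.comp hb))).mul
    (hG.comp (measurable_fst.fst.prodMk (continuous_postStar.measurable.comp hb)))

theorem measurable_modGain {α : Type*} [MeasurableSpace α] {G : α → Vel → ℝ≥0∞}
    (hG : Measurable fun p : α × Vel => G p.1 p.2) :
    Measurable fun p : α × Vel => modGain (G p.1) p.2 := by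
  unfold modGain
  refine Measurable.lintegral_prod_right' (f := fun r : (α × Vel) × Vel × Dir =>
    ENNReal.ofReal |proj r.1.2 r.2.1 r.2.2| * (G r.1.1 (post r.1.2 r.2.1 r.2.2) *
      G r.1.1 (postStar r.1.2 r.2.1 r.2.2)) + ENNReal.ofReal (kap r.1.2 r.2.1 -
      |proj r.1.2 r.2.1 r.2.2|) * (G r.1.1 r.1.2 * G r.1.1 r.2.1)) ?_
  have hb : Measurable fun r : (α × Vel) × Vel × Dir => (r.1.2, r.2.1, r.2.2) := by fun_prop
  have hp := continuous_proj.measurable.comp hb
  have hk : Measurable fun r : (α × Vel) × Vel × Dir => kap r.1.2 r.2.1 := by unfold kap; fun_prop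
  exact (hp.abs.ennreal_ofReal.mul (measurable_tri_post hG)).add
    ((hk.sub hp.abs).ennreal_ofReal.mul
      ((hG.comp measurable_fst).mul (hG.comp (measurable_fst.fst.prodMk measurable_snd.fst))))

theorem measurable_modGain_slice {G : Vel → ℝ≥0∞} (hG : Measurable G) :
    Measurable (modGain G) := by
  have hG' : Measurable fun p : Unit × Vel => G p.2 := hG.comp measurable_snd
  have h := measurable_modGain (α := Unit) (G := fun _ => G) hG'
  have h2 := Measurable.fun_comp h (measurable_prodMk_left (x := ()))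
  dsimp only at h2
  exact h2

theorem modGain_iSup {G : ℕ → Vel → ℝ≥0∞} (hG : ∀ n, Measurable (G n))
    (hm : ∀ v, Monotone fun n => G n v) (v : Vel) :
    modGain (fun u => ⨆ n, G n u) v = ⨆ n, modGain (G n) v := by
  simp only [modGain, iSup_mul_iSup_mono (hm _) (hm _), ENNReal.mul_iSup]
  rw [← lintegral_iSup]
  · refine lintegral_congr fun q => ?_
    refine ENNReal.iSup_add_iSup_of_monotone ?_ ?_ <;>
      exact fun i j hij => mul_le_mul' le_rfl (mul_le_mul' (hm _ hij) (hm _ hij))
  · intro n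
    have hb : Measurable fun q : Vel × Dir => (v, q.1, q.2) := by fun_prop
    have hp := continuous_proj.measurable.comp hb
    have hk : Measurable fun q : Vel × Dir => kap v q.1 := by unfold kap; fun_prop
    exact (hp.abs.ennreal_ofReal.mul (((hG n).comp (continuous_post.measurable.comp hb)).mul
      ((hG n).comp (continuous_postStar.measurable.comp hb)))).add
        ((hk.sub hp.abs).ennreal_ofReal.mul (measurable_const.mul ((hG n).comp measurable_fst)))
  · exact fun i j hij q => add_le_add (mul_le_mul' le_rfl (mul_le_mul' (hm _ hij) (hm _ hij)))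
      (mul_le_mul' le_rfl (mul_le_mul' (hm _ hij) (hm _ hij)))

/-- A weighted integral over velocities. -/
def mom (ψ G : Vel → ℝ≥0∞) : ℝ≥0∞ := ∫⁻ v, ψ v * G v

/-- The weights `|v| ^ k`. -/
def pk (k : ℕ) (v : Vel) : ℝ≥0∞ := ENNReal.ofReal (‖v‖ ^ k)

theorem measurable_pk (k : ℕ) : Measurable (pk k) := by unfold pk; fun_prop

theorem lintegral_tri_prod (A B : Vel → ℝ≥0∞) (hA : Measurable A) (hB : Measurable B) :
    ∫⁻ p : Vel × Vel × Dir, A p.1 * B p.2.1 ∂triM = dirM univ * (∫⁻ v, A v) * ∫⁻ w, B w := by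
  rw [lintegral_tri _ (by fun_prop)]
  simp only [lintegral_const]
  rw [lintegral_prod_mul hA.aemeasurable hB.aemeasurable]
  ring

/-- The weak form of the modified gain. -/
theorem mom_modGain (ψ G : Vel → ℝ≥0∞) (hψ : Measurable ψ) (hG : Measurable G) :
    mom ψ (modGain G) = ∫⁻ p : Vel × Vel × Dir,
      (ψ (post p.1 p.2.1 p.2.2) * ENNReal.ofReal |proj p.1 p.2.1 p.2.2|
        + ψ p.1 * ENNReal.ofReal (kap p.1 p.2.1 - |proj p.1 p.2.1 p.2.2|)) * (G p.1 * G p.2.1)
      ∂triM := by
  have hp := continuous_proj.measurable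
  have hk : Measurable fun p : Vel × Vel × Dir => kap p.1 p.2.1 := by unfold kap; fun_prop
  have hA : Measurable fun p : Vel × Vel × Dir => ψ p.1 * (ENNReal.ofReal |proj p.1 p.2.1 p.2.2| *
      (G (post p.1 p.2.1 p.2.2) * G (postStar p.1 p.2.1 p.2.2))) :=
    (hψ.comp measurable_fst).mul (hp.abs.ennreal_ofReal.mul
      ((hG.comp continuous_post.measurable).mul (hG.comp continuous_postStar.measurable)))
  have hB : Measurable fun p : Vel × Vel × Dir => ψ p.1 * (ENNReal.ofReal
      (kap p.1 p.2.1 - |proj p.1 p.2.1 p.2.2|) * (G p.1 * G p.2.1)) :=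
    (hψ.comp measurable_fst).mul ((hk.sub hp.abs).ennreal_ofReal.mul (by fun_prop))
  have h1 : mom ψ (modGain G) = ∫⁻ p : Vel × Vel × Dir, (ψ p.1 * (ENNReal.ofReal
      |proj p.1 p.2.1 p.2.2| * (G (post p.1 p.2.1 p.2.2) * G (postStar p.1 p.2.1 p.2.2)))
      + ψ p.1 * (ENNReal.ofReal (kap p.1 p.2.1 - |proj p.1 p.2.1 p.2.2|) * (G p.1 * G p.2.1)))
      ∂triM := by
    rw [lintegral_prod _ (hA.fun_add hB).aemeasurable]
    simp only [mom, modGain]
    refine lintegral_congr fun v => ?_
    rw [← lintegral_const_mul]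
    · refine lintegral_congr fun q => ?_
      rw [mul_add]
    · have hb : Measurable fun q : Vel × Dir => (v, q.1, q.2) := by fun_prop
      have hpv := hp.comp hb
      exact (hpv.abs.ennreal_ofReal.mul ((hG.comp (continuous_post.measurable.comp hb)).mul
        (hG.comp (continuous_postStar.measurable.comp hb)))).add
          (((hk.comp hb).sub hpv.abs).ennreal_ofReal.mul (by fun_prop))
  rw [h1, lintegral_add_left hA,
    lintegral_gain_weight (fun a b => G a * G b) (by fun_prop) ψ hψ,
    ← lintegral_add_right _ hB]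
  refine lintegral_congr fun p => ?_
  ring

end

end Vale.Agent.P140.Homog
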