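import Vale.Agent.P140.Compare

/-!
P140: a renormalized solution with homogeneous datum equals the homogeneous solution.
-/

namespace Vale.Agent.P140.Homog

open MeasureTheory Real Set Filter
open scoped ENNReal Topology

noncomputable section

attribute [local irreducible] gain loss gainB lossB

namespace Datum

variable (d : Datum)

/-- The homogeneous solution in `ℝ≥0∞`. -/
def gE (t : ℝ) (v : Vel) : ℝ≥0∞ := ENNReal.ofReal (d.gR t v)

theorem measurable_gE_slice (t : ℝ) : Measurable (d.gE t) :=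
  (d.measurable_gR.comp measurable_prodMk_left).ennreal_ofReal

theorem mom_wgt {t : ℝ} (ht : 0 ≤ t) :
    ∫⁻ v, wgt v * d.gE t v = ENNReal.ofReal (d.m 0 + d.m 2) := by
  have e : ∀ v, wgt v * d.gE t v = pk 0 v * d.gE t v + pk 2 v * d.gE t v := fun v => by
    rw [← add_mul, wgt, pk, pk, pow_zero, ENNReal.ofReal_add zero_le_one (by positivity)]
  rw [lintegral_congr e, lintegral_add_left ((measurable_pk 0).fun_mul (d.measurable_gE_slice t)),
    ENNReal.ofReal_add (d.m_nonneg 0) (d.m_nonneg 2), ← (d.sol_conserve ht).1,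
    ← (d.sol_conserve ht).2, ← d.mom_gR ht, ← d.mom_gR ht]
  rfl

/-- The bound used in the stability estimate. -/
def cW (T : ℝ) : ℝ := 4 * (d.m 0 + d.cap T)

theorem cW_nonneg (T : ℝ) : 0 ≤ d.cW T := by
  have := d.m_nonneg 0; have := d.cap_nonneg T; unfold cW; positivity

theorem mom_wone {t T : ℝ} (ht : 0 ≤ t) (htT : t ≤ T) :
    ∫⁻ v, wone v * (wgt v * d.gE t v) ≤ ENNReal.ofReal (d.cW T) := by
  have e : ∀ v, wone v * (wgt v * d.gE t v)
      ≤ ENNReal.ofReal 4 * (pk 0 v * d.gE t v + pk 3 v * d.gE t v) := fun v => by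
    rw [← add_mul, ← mul_assoc, ← mul_assoc, wone, wgt, pk, pk, pow_zero,
      ← ENNReal.ofReal_add zero_le_one (by positivity), ← ENNReal.ofReal_mul (by positivity),
      ← ENNReal.ofReal_mul (by norm_num)]
    refine mul_le_mul' (ENNReal.ofReal_le_ofReal ?_) le_rfl
    have h := norm_nonneg v
    rcases le_total ‖v‖ 1 with h1 | h1 <;> nlinarith [pow_nonneg h 3, pow_nonneg h 2]
  refine (lintegral_mono e).trans ?_
  rw [lintegral_const_mul' _ _ ENNReal.ofReal_ne_top,
    lintegral_add_left ((measurable_pk 0).fun_mul (d.measurable_gE_slice t)), cW,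
    ENNReal.ofReal_mul (by norm_num), ENNReal.ofReal_add (d.m_nonneg 0) (d.cap_nonneg T)]
  refine mul_le_mul' le_rfl (add_le_add (le_of_eq ?_) ?_)
  · exact (d.mom_gR ht (pk 0)).trans (d.sol_conserve ht).1
  · exact ((d.mom_gR ht (pk 3)).trans_le (d.sol_bounds ht).2.2).trans
      (ENNReal.ofReal_le_ofReal (d.cap_mono htT))

end Datum

namespace IsRenormSol

variable {d : Datum} {F : ℝ → Pos → Vel → ℝ} (h : IsRenormSol d.f₀ F)

/-- The positive part of `g - F`. -/
def nE (d : Datum) (F : ℝ → Pos → Vel → ℝ) (p : ℝ × Pos) (v : Vel) : ℝ≥0∞ :=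
  ENNReal.ofReal (d.gR p.1 v - F p.1 p.2 v)

/-- The positive part of `F - g`. -/
def hE (d : Datum) (F : ℝ → Pos → Vel → ℝ) (p : ℝ × Pos) (v : Vel) : ℝ≥0∞ :=
  ENNReal.ofReal (F p.1 p.2 v - d.gR p.1 v)

/-- The weighted integral of the positive part of `g - F`. -/
def defect (d : Datum) (F : ℝ → Pos → Vel → ℝ) (t : ℝ) : ℝ≥0∞ :=
  ∫⁻ x, ∫⁻ v, wgt v * nE d F (t, x) v

include h

theorem measurable_F3 : Measurable fun r : (ℝ × Pos) × Vel => F r.1.1 r.1.2 r.2 :=
  h.meas.comp (measurable_fst.fst.prodMk (measurable_fst.snd.prodMk measurable_snd))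

theorem measurable_nE : Measurable fun r : (ℝ × Pos) × Vel => nE d F r.1 r.2 :=
  ((d.measurable_gR.comp (measurable_fst.fst.prodMk measurable_snd)).sub h.measurable_F3).ennreal_ofReal

theorem measurable_hE : Measurable fun r : (ℝ × Pos) × Vel => hE d F r.1 r.2 :=
  (h.measurable_F3.sub (d.measurable_gR.comp (measurable_fst.fst.prodMk measurable_snd))).ennreal_ofReal

omit h in
theorem measurable_gE3 : Measurable fun r : (ℝ × Pos) × Vel => d.gE r.1.1 r.2 :=
  (d.measurable_gR.comp (measurable_fst.fst.prodMk measurable_snd)).ennreal_ofReal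

theorem nE_le (p : ℝ × Pos) (v : Vel) : nE d F p v ≤ d.gE p.1 v :=
  ENNReal.ofReal_le_ofReal (by linarith [h.nonneg p.1 p.2 v])

theorem defect_le {t : ℝ} (ht : 0 ≤ t) : defect d F t ≤ ENNReal.ofReal (d.m 0 + d.m 2) := by
  refine (lintegral_mono fun x => lintegral_mono fun v =>
    mul_le_mul' le_rfl (h.nE_le (t, x) v)).trans (le_of_eq ?_)
  simp [d.mom_wgt ht]

theorem measurable_defect : Measurable (defect d F) := by
  have h1 : Measurable fun p : ℝ × Pos => ∫⁻ v, wgt v * nE d F p v :=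
    Measurable.lintegral_prod_right' (f := fun r : (ℝ × Pos) × Vel => wgt r.2 * nE d F r.1 r.2)
      ((measurable_wgt.comp measurable_snd).mul h.measurable_nE)
  exact Measurable.lintegral_prod_right' h1

theorem hE_defect {t : ℝ} (ht : 0 ≤ t) :
    ∫⁻ x, ∫⁻ v, wgt v * hE d F (t, x) v ≤ defect d F t := by
  have hFi := h.integ t ht
  have hFm : Measurable fun p : Pos × Vel => ENNReal.ofReal (F t p.1 p.2) :=
    (h.measurable_slice t).ennreal_ofReal
  have hwF : ∫⁻ x, ∫⁻ v, wgt v * ENNReal.ofReal (F t x v) ≤ ENNReal.ofReal (d.m 0 + d.m 2) := by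
    rw [← lintegral_prod (fun p : Pos × Vel => wgt p.2 * ENNReal.ofReal (F t p.1 p.2))
      ((measurable_wgt.comp measurable_snd).mul hFm).aemeasurable, ← Measure.volume_eq_prod]
    have e : ∀ p : Pos × Vel, wgt p.2 * ENNReal.ofReal (F t p.1 p.2)
        = ENNReal.ofReal (F t p.1 p.2 * (1 + ‖p.2‖ ^ 2)) := fun p => by
      rw [wgt, ← ENNReal.ofReal_mul (by positivity), mul_comm]
    rw [lintegral_congr e, ← ofReal_integral_eq_lintegral_ofReal hFi
      (Eventually.of_forall fun p => mul_nonneg (h.nonneg _ _ _) (by positivity))]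
    refine ENNReal.ofReal_le_ofReal ?_
    have h2 : Integrable fun p : Pos × Vel => ‖p.2‖ ^ 2 * F t p.1 p.2 :=
      (hFi.sub (h.integrable_slice ht)).congr (Eventually.of_forall fun p => by
        simp only [Pi.sub_apply]; ring)
    have e2 : ∫ p : Pos × Vel, ‖p.2‖ ^ 2 * d.f₀ p.2 = d.m 2 := by
      rw [Measure.volume_eq_prod, integral_fun_snd (fun v => ‖v‖ ^ 2 * d.f₀ v)]
      simp [Datum.m]
    have e3 : ∫ p : Pos × Vel, F t p.1 p.2 * (1 + ‖p.2‖ ^ 2)
        = (∫ p : Pos × Vel, F t p.1 p.2) + ∫ p : Pos × Vel, ‖p.2‖ ^ 2 * F t p.1 p.2 := by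
      rw [← integral_add (h.integrable_slice ht) h2]
      exact integral_congr_ae (Eventually.of_forall fun p => by ring)
    rw [e3, h.mass_eq ht]
    linarith [h.energy t ht]
  have key : ∀ x v, wgt v * hE d F (t, x) v + wgt v * d.gE t v
      = wgt v * ENNReal.ofReal (F t x v) + wgt v * nE d F (t, x) v := fun x v => by
    rw [← mul_add, ← mul_add]
    congr 1
    simp only [hE, nE, Datum.gE]
    rcases le_total (F t x v) (d.gR t v) with hle | hle
    · rw [ENNReal.ofReal_of_nonpos (sub_nonpos.2 hle), zero_add,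
        ← ENNReal.ofReal_add (h.nonneg _ _ _) (sub_nonneg.2 hle), add_sub_cancel]
    · rw [ENNReal.ofReal_of_nonpos (sub_nonpos.2 hle), add_zero,
        ← ENNReal.ofReal_add (sub_nonneg.2 hle) (d.gR_nonneg _ _), sub_add_cancel]
  have hmg : ∀ x : Pos, Measurable fun v => wgt v * d.gE t v := fun _ =>
    measurable_wgt.fun_mul (d.measurable_gE_slice t)
  have hmF : ∀ x : Pos, Measurable fun v => wgt v * ENNReal.ofReal (F t x v) := fun x =>
    measurable_wgt.fun_mul (hFm.comp measurable_prodMk_left)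
  have hmFx : Measurable fun x => ∫⁻ v, wgt v * ENNReal.ofReal (F t x v) :=
    Measurable.lintegral_prod_right' (f := fun p : Pos × Vel => wgt p.2 * ENNReal.ofReal (F t p.1 p.2))
      ((measurable_wgt.comp measurable_snd).mul hFm)
  refine (ENNReal.add_le_add_iff_right (a := ENNReal.ofReal (d.m 0 + d.m 2))
    ENNReal.ofReal_ne_top).1 ?_
  calc (∫⁻ x, ∫⁻ v, wgt v * hE d F (t, x) v) + ENNReal.ofReal (d.m 0 + d.m 2)
      = ∫⁻ x, ((∫⁻ v, wgt v * hE d F (t, x) v) + ∫⁻ v, wgt v * d.gE t v) := by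
        rw [lintegral_add_right _ (by simp), d.mom_wgt ht]; simp
    _ = ∫⁻ x, ((∫⁻ v, wgt v * ENNReal.ofReal (F t x v)) + ∫⁻ v, wgt v * nE d F (t, x) v) := by
        refine lintegral_congr fun x => ?_
        rw [← lintegral_add_right _ (hmg x), lintegral_congr (key x), lintegral_add_left (hmF x)]
    _ ≤ ENNReal.ofReal (d.m 0 + d.m 2) + defect d F t := by
        rw [lintegral_add_left hmFx]; exact add_le_add hwF le_rfl
    _ = _ := add_comm _ _

attribute [local irreducible] Datum.gR Datum.gE nE hE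

theorem measurable_lossN :
    Measurable fun r : (ℝ × Pos) × Vel => lossB (nE d F r.1) (d.gE r.1.1) r.2 :=
  measurable_lossB (B := fun q : ℝ × Pos => d.gE q.1) h.measurable_nE (measurable_gE3 (d := d))

theorem measurable_balance :
    Measurable fun r : (ℝ × Pos) × Vel => gainB (nE d F r.1) (d.gE r.1.1) r.2
      + gainB (d.gE r.1.1) (nE d F r.1) r.2 + lossB (d.gE r.1.1) (hE d F r.1) r.2 :=
  ((measurable_gainB (B := fun q : ℝ × Pos => d.gE q.1) h.measurable_nE (measurable_gE3 (d := d))).fun_add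
    (measurable_gainB (A := fun q : ℝ × Pos => d.gE q.1) (measurable_gE3 (d := d)) h.measurable_nE)).fun_add
      (measurable_lossB (A := fun q : ℝ × Pos => d.gE q.1) (measurable_gE3 (d := d)) h.measurable_hE)

/-- The comparison at almost every velocity. -/
theorem velocity_ineq : ∀ᵐ t, t ∈ Ioi (0 : ℝ) → ∀ᵐ v,
    (∫⁻ x, nE d F (t, x) v) + ∫⁻ p : ℝ × Pos, lossB (nE d F p) (d.gE p.1) v ∂txM t
      ≤ ∫⁻ p : ℝ × Pos, (gainB (nE d F p) (d.gE p.1) v + gainB (d.gE p.1) (nE d F p) v
          + lossB (d.gE p.1) (hE d F p) v) ∂txM t := by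
  have hvt : ∀ᵐ v, ∀ᵐ t, t ∈ Ioi (0 : ℝ) →
      (∫⁻ x, nE d F (t, x) v) + ∫⁻ p : ℝ × Pos, lossB (nE d F p) (d.gE p.1) v ∂txM t
        ≤ ∫⁻ p : ℝ × Pos, (gainB (nE d F p) (d.gE p.1) v + gainB (d.gE p.1) (nE d F p) v
            + lossB (d.gE p.1) (hE d F p) v) ∂txM t := by
    filter_upwards [h.chain_ae] with v hv
    filter_upwards [hv] with t ht htpos
    obtain ⟨hfin, heq⟩ := ht htpos
    refine (ENNReal.add_le_add_iff_right hfin.ne).1 ?_
    rw [add_right_comm]
    have hn : (∫⁻ x, nE d F (t, x) v) = ∫⁻ x, ENNReal.ofReal (d.gR t v - F t x v) :=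
      lintegral_congr fun x => by rw [nE]
    rw [hn]
    refine (add_le_add (le_of_eq heq) le_rfl).trans ?_
    have he : Measurable fun p : ℝ × Pos => (p, v) := measurable_prodMk_right
    have hL : Measurable fun p : ℝ × Pos => lossB (nE d F p) (d.gE p.1) v :=
      Measurable.comp (g := fun r : (ℝ × Pos) × Vel => lossB (nE d F r.1) (d.gE r.1.1) r.2)
        h.measurable_lossN he
    have hB : Measurable fun p : ℝ × Pos => gainB (nE d F p) (d.gE p.1) v
        + gainB (d.gE p.1) (nE d F p) v + lossB (d.gE p.1) (hE d F p) v :=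
      Measurable.comp (g := fun r : (ℝ × Pos) × Vel => gainB (nE d F r.1) (d.gE r.1.1) r.2
        + gainB (d.gE r.1.1) (nE d F r.1) r.2 + lossB (d.gE r.1.1) (hE d F r.1) r.2)
        h.measurable_balance he
    rw [← lintegral_add_right _ hL, ← lintegral_add_left hB]
    refine lintegral_mono fun p => ?_
    by_cases hp : p ∈ {r : ℝ × Pos | F r.1 r.2 v < d.gR r.1 v}
    · simp only [indicator_of_mem hp]
      have := compare_of_lt (F p.1 p.2) (d.gR p.1) (h.measurable_F3.comp measurable_prodMk_left)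
        (d.measurable_gR.comp measurable_prodMk_left) (h.nonneg _ _) (d.gR_nonneg _) (v := v) hp
      unfold nE hE Datum.gE
      refine this.trans (le_of_eq ?_)
      rw [add_comm (gain (F p.1 p.2) v)]
      exact add_comm _ _
    · simp only [indicator_of_notMem hp, zero_add, add_zero]
      have h0 : nE d F p v = 0 := by
        rw [nE]; exact ENNReal.ofReal_of_nonpos (sub_nonpos.2 (not_lt.1 hp))
      refine le_of_eq_of_le ?_ bot_le
      unfold lossB
      simp [h0]
  have mN := h.measurable_lossN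
  have mB := h.measurable_balance
  have e0 : Measurable fun q : (Vel × ℝ) × Pos => ((q.1.2, q.2), q.1.1) :=
    (measurable_fst.snd.prodMk measurable_snd).prodMk measurable_fst.fst
  have key : ∀ Φ : (ℝ × Pos) × Vel → ℝ≥0∞, Measurable Φ →
      Measurable fun q : Vel × ℝ => ∫⁻ p, Φ (p, q.1) ∂txM q.2 := fun Φ hΦ => by
    have e : (fun q : Vel × ℝ => ∫⁻ p, Φ (p, q.1) ∂txM q.2)
        = fun q => ∫⁻ s, (Ioc (0 : ℝ) q.2).indicator (fun s => ∫⁻ x, Φ ((s, x), q.1)) s := by
      funext q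
      rw [lintegral_indicator measurableSet_Ioc]
      exact lintegral_prod _ (hΦ.comp measurable_prodMk_right).aemeasurable
    rw [e]
    have hin : Measurable fun r : (Vel × ℝ) × ℝ => ∫⁻ x, Φ ((r.2, x), r.1.1) :=
      Measurable.lintegral_prod_right'
        (f := fun q : ((Vel × ℝ) × ℝ) × Pos => Φ ((q.1.2, q.2), q.1.1.1))
        (hΦ.comp ((measurable_fst.snd.prodMk measurable_snd).prodMk measurable_fst.fst.fst))
    have hset : MeasurableSet {r : (Vel × ℝ) × ℝ | r.2 ∈ Ioc (0 : ℝ) r.1.2} :=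
      (measurableSet_lt measurable_const measurable_snd).inter
        (measurableSet_le measurable_snd measurable_fst.snd)
    have := Measurable.lintegral_prod_right' (ν := (volume : Measure ℝ)) (hin.indicator hset)
    simpa [indicator_apply] using this
  have hK : Measurable fun q : Vel × ℝ => ∫⁻ x, nE d F (q.2, x) q.1 :=
    Measurable.lintegral_prod_right' (h.measurable_nE.comp e0)
  have hset : MeasurableSet {q : Vel × ℝ | q.2 ∈ Ioi (0 : ℝ) →
      (∫⁻ x, nE d F (q.2, x) q.1) + ∫⁻ p : ℝ × Pos, lossB (nE d F p) (d.gE p.1) q.1 ∂txM q.2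
        ≤ ∫⁻ p : ℝ × Pos, (gainB (nE d F p) (d.gE p.1) q.1 + gainB (d.gE p.1) (nE d F p) q.1
            + lossB (d.gE p.1) (hE d F p) q.1) ∂txM q.2} :=
    (measurable_snd measurableSet_Ioi).himp
      (measurableSet_le (hK.fun_add (key _ mN)) (key _ mB))
  exact ((Measure.ae_ae_comm hset).1 hvt).mono fun t ht htpos => ht.mono fun v hv => hv htpos

/-- The defect satisfies a Grönwall inequality. -/
theorem defect_ineq (T : ℝ) : ∀ᵐ t, t ∈ Ioc (0 : ℝ) T →
    defect d F t ≤ ENNReal.ofReal (4 * Datum.area * d.cW T) * ∫⁻ s in Ioc 0 t, defect d F s := by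
  filter_upwards [h.velocity_ineq] with t ht htI
  have hae := ht htI.1
  have mw : Measurable fun r : (ℝ × Pos) × Vel => wgt r.2 := measurable_wgt.comp measurable_snd
  set A : ℝ × Pos → ℝ≥0∞ := fun p => ∫⁻ v, wgt v * lossB (nE d F p) (d.gE p.1) v with hA
  set B : ℝ × Pos → ℝ≥0∞ := fun p => ∫⁻ v, wgt v * (gainB (nE d F p) (d.gE p.1) v
    + gainB (d.gE p.1) (nE d F p) v + lossB (d.gE p.1) (hE d F p) v) with hB
  set P : ℝ × Pos → ℝ≥0∞ := fun p => ∫⁻ v, wgt v * nE d F p v with hP
  set Q : ℝ × Pos → ℝ≥0∞ := fun p => ∫⁻ v, wgt v * hE d F p v with hQ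
  set c := 2 * (dirM univ * ENNReal.ofReal (d.cW T)) with hc
  have hAm : Measurable A := Measurable.lintegral_prod_right'
    (f := fun r : (ℝ × Pos) × Vel => wgt r.2 * lossB (nE d F r.1) (d.gE r.1.1) r.2)
    (mw.mul h.measurable_lossN)
  have hPm : Measurable P := Measurable.lintegral_prod_right'
    (f := fun r : (ℝ × Pos) × Vel => wgt r.2 * nE d F r.1 r.2) (mw.mul h.measurable_nE)
  have hQm : Measurable Q := Measurable.lintegral_prod_right'
    (f := fun r : (ℝ × Pos) × Vel => wgt r.2 * hE d F r.1 r.2) (mw.mul h.measurable_hE)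
  have hmem : ∀ᵐ p : ℝ × Pos ∂txM t, p.1 ∈ Ioc (0 : ℝ) t :=
    Measure.quasiMeasurePreserving_fst.ae (ae_restrict_mem measurableSet_Ioc)
  have hgain : defect d F t + ∫⁻ p, A p ∂txM t ≤ ∫⁻ p, B p ∂txM t := by
    have m2 : ∀ {Φ : (ℝ × Pos) × Vel → ℝ≥0∞}, Measurable Φ →
        ∫⁻ v, ∫⁻ p, wgt v * Φ (p, v) ∂txM t = ∫⁻ p, (∫⁻ v, wgt v * Φ (p, v)) ∂txM t :=
      fun {Φ} hΦ => lintegral_lintegral_swap
        ((measurable_wgt.comp measurable_fst).mul (hΦ.comp measurable_swap)).aemeasurable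
    have hN1 : Measurable fun r : Vel × Pos => nE d F (t, r.2) r.1 :=
      h.measurable_nE.comp ((measurable_const.prodMk measurable_snd).prodMk measurable_fst)
    have e1 : ∫⁻ v, ∫⁻ x, wgt v * nE d F (t, x) v = defect d F t :=
      lintegral_lintegral_swap ((measurable_wgt.comp measurable_fst).mul hN1).aemeasurable
    rw [← e1, hA, hB]
    simp only
    rw [← m2 h.measurable_lossN, ← m2 h.measurable_balance,
      ← lintegral_add_left (Measurable.lintegral_prod_right'
        (f := fun r : Vel × Pos => wgt r.1 * nE d F (t, r.2) r.1)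
        ((measurable_wgt.comp measurable_fst).mul hN1))]
    refine lintegral_mono_ae ?_
    filter_upwards [hae] with v hv
    have htop : wgt v ≠ ⊤ := ENNReal.ofReal_ne_top
    rw [lintegral_const_mul' _ _ htop, lintegral_const_mul' _ _ htop,
      lintegral_const_mul' _ _ htop, ← mul_add]
    exact mul_le_mul' le_rfl hv
  have hbal : ∫⁻ p, B p ∂txM t ≤ (∫⁻ p, A p ∂txM t) + c * ((∫⁻ p, P p ∂txM t) + ∫⁻ p, Q p ∂txM t) := by
    rw [← lintegral_add_left hPm, ← lintegral_const_mul _ (hPm.fun_add hQm), ← lintegral_add_left hAm]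
    refine lintegral_mono_ae ?_
    filter_upwards [hmem] with p hp
    refine (mom_balance (nE d F p) (d.gE p.1) (hE d F p) (h.measurable_nE.comp measurable_prodMk_left)
      (d.measurable_gE_slice _) (h.measurable_hE.comp measurable_prodMk_left)).trans ?_
    exact add_le_add le_rfl (mul_le_mul' (mul_le_mul' le_rfl
      (mul_le_mul' le_rfl (d.mom_wone hp.1.le (hp.2.trans htI.2)))) le_rfl)
  have hAfin : ∫⁻ p, A p ∂txM t ≠ ⊤ := by
    set K := dirM univ * (ENNReal.ofReal (d.cW T) * ENNReal.ofReal (d.cW T)) with hK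
    refine ne_top_of_le_ne_top (b := K * (txM t) univ) (ENNReal.mul_ne_top
      (ENNReal.mul_ne_top (measure_ne_top _ _) (ENNReal.mul_ne_top ENNReal.ofReal_ne_top
        ENNReal.ofReal_ne_top)) (measure_ne_top _ _)) ?_
    rw [← lintegral_const]
    refine lintegral_mono_ae ?_
    filter_upwards [hmem] with p hp
    have hNm : Measurable (nE d F p) := h.measurable_nE.comp measurable_prodMk_left
    rw [hA]
    simp only
    rw [mom_lossB _ _ hNm (d.measurable_gE_slice _) wgt measurable_wgt]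
    calc ∫⁻ q : Vel × Vel × Dir, wgt q.1 * (ENNReal.ofReal |proj q.1 q.2.1 q.2.2| *
          (nE d F p q.1 * d.gE p.1 q.2.1)) ∂triM
        = ∫⁻ q : Vel × Vel × Dir, ENNReal.ofReal |proj q.1 q.2.1 q.2.2| *
          ((wgt q.1 * nE d F p q.1) * d.gE p.1 q.2.1) ∂triM := lintegral_congr fun q => by ring
      _ ≤ dirM univ * ((∫⁻ v, wone v * (wgt v * nE d F p v)) * ∫⁻ v, wone v * d.gE p.1 v) :=
          lintegral_tri_le (fun v => wgt v * nE d F p v) _ (measurable_wgt.mul hNm)
            (d.measurable_gE_slice _)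
      _ ≤ K := by
          have hb := d.mom_wone hp.1.le (hp.2.trans htI.2)
          refine mul_le_mul' le_rfl (mul_le_mul'
            ((lintegral_mono fun v => mul_le_mul' le_rfl (mul_le_mul' le_rfl (h.nE_le p v))).trans hb)
            ((lintegral_mono fun v => mul_le_mul' le_rfl (le_mul_of_one_le_left bot_le ?_)).trans hb))
          rw [wgt, ← ENNReal.ofReal_one]
          exact ENNReal.ofReal_le_ofReal (by nlinarith [sq_nonneg ‖v‖])
  have hP1 : ∫⁻ p, P p ∂txM t = ∫⁻ s in Ioc 0 t, defect d F s := lintegral_prod _ hPm.aemeasurable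
  have hQ1 : ∫⁻ p, Q p ∂txM t ≤ ∫⁻ s in Ioc 0 t, defect d F s := by
    rw [lintegral_prod _ hQm.aemeasurable]
    exact setLIntegral_mono h.measurable_defect fun s hs => h.hE_defect hs.1.le
  have := (ENNReal.add_le_add_iff_left hAfin).1 (((add_comm _ _).trans_le hgain).trans hbal)
  refine this.trans ((mul_le_mul' le_rfl (add_le_add hP1.le hQ1)).trans (le_of_eq ?_))
  rw [ENNReal.ofReal_mul (mul_nonneg (by norm_num) Datum.area_nonneg), ENNReal.ofReal_mul (by norm_num),
    Datum.ofReal_area, hc, show ENNReal.ofReal 4 = (4 : ℝ≥0∞) from ENNReal.ofReal_ofNat 4]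
  ring

/-- The positive part vanishes for almost every time. -/
theorem defect_zero : ∀ᵐ t, t ∈ Ioi (0 : ℝ) → defect d F t = 0 := by
  have key : ∀ n : ℕ, ∀ᵐ t, t ∈ Ioc (0 : ℝ) n → defect d F t = 0 := fun n => by
    set T : ℝ := (n : ℝ)
    have hT : 0 ≤ T := Nat.cast_nonneg n
    set C := 4 * Datum.area * d.cW T
    have hC : 0 ≤ C := mul_nonneg (mul_nonneg (by norm_num) Datum.area_nonneg) (d.cW_nonneg T)
    set V : ℝ → ℝ≥0∞ := fun t => ENNReal.ofReal C * ∫⁻ s in Ioc 0 t, defect d F s with hV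
    have hm : 0 ≤ d.m 0 + d.m 2 := add_nonneg (d.m_nonneg 0) (d.m_nonneg 2)
    have hVb : ∀ t ∈ Icc 0 T, V t ≤ ENNReal.ofReal (C * ((d.m 0 + d.m 2) * T)) := fun t ht => by
      rw [ENNReal.ofReal_mul hC]
      refine mul_le_mul' le_rfl ((setLIntegral_mono (g := fun _ => ENNReal.ofReal (d.m 0 + d.m 2))
        measurable_const fun s hs => h.defect_le hs.1.le).trans ?_)
      rw [setLIntegral_const, Real.volume_Ioc, sub_zero, ← ENNReal.ofReal_mul hm]
      exact ENNReal.ofReal_le_ofReal (mul_le_mul_of_nonneg_left ht.2 hm)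
    have hVU : ∀ t ∈ Icc 0 T, V t ≤ ENNReal.ofReal C * ∫⁻ s in Ioc 0 t, V s := fun t ht => by
      refine mul_le_mul' le_rfl (lintegral_mono_ae ?_)
      filter_upwards [ae_restrict_of_ae (h.defect_ineq T), ae_restrict_mem measurableSet_Ioc]
        with s hs hsI using hs ⟨hsI.1, hsI.2.trans ht.2⟩
    have hzero := gronwall_zero hC (mul_nonneg hC (mul_nonneg hm hT)) hVb hVU
    filter_upwards [h.defect_ineq T] with t ht htI
    exact le_antisymm ((ht htI).trans (hzero t ⟨htI.1.le, htI.2⟩).le) bot_le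
  filter_upwards [ae_all_iff.2 key] with t ht htpos
  obtain ⟨n, hn⟩ := exists_nat_ge t
  exact ht n ⟨htpos, hn⟩

/-- For almost every time the solution is the homogeneous one. -/
theorem eq_gR_ae : ∀ᵐ t, t ∈ Ioi (0 : ℝ) →
    (fun p : Pos × Vel => F t p.1 p.2) =ᵐ[volume] fun p => d.gR t p.2 := by
  filter_upwards [h.defect_zero] with t ht htpos
  have h1 := ht htpos
  have h2 : ∫⁻ x, ∫⁻ v, wgt v * hE d F (t, x) v = 0 :=
    le_antisymm ((h.hE_defect (le_of_lt htpos)).trans h1.le) bot_le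
  have e : Measurable fun p : Pos × Vel => (((t, p.1) : ℝ × Pos), p.2) :=
    (measurable_const.prodMk measurable_fst).prodMk measurable_snd
  have mN : Measurable fun p : Pos × Vel => wgt p.2 * nE d F (t, p.1) p.2 :=
    (measurable_wgt.comp measurable_snd).mul (h.measurable_nE.comp e)
  have mH : Measurable fun p : Pos × Vel => wgt p.2 * hE d F (t, p.1) p.2 :=
    (measurable_wgt.comp measurable_snd).mul (h.measurable_hE.comp e)
  rw [defect, ← lintegral_prod _ mN.aemeasurable, lintegral_eq_zero_iff mN] at h1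
  rw [← lintegral_prod _ mH.aemeasurable, lintegral_eq_zero_iff mH] at h2
  rw [Measure.volume_eq_prod]
  filter_upwards [h1, h2] with p hp hp'
  have hw : wgt p.2 ≠ 0 := by simp [wgt]; positivity
  simp only [Pi.zero_apply, mul_eq_zero, hw, false_or, nE, hE, ENNReal.ofReal_eq_zero,
    sub_nonpos] at hp hp'
  exact le_antisymm hp' hp

end IsRenormSol

end

end Vale.Agent.P140.Homog
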