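import Vale.Agent.P140.Exist

/-!
P140: bounds on the iterates, the limit, and conservation of mass and energy.
-/

namespace Vale.Agent.P140.Homog

open MeasureTheory Real Set
open scoped ENNReal

noncomputable section

namespace Datum

variable (d : Datum)

theorem pk_mul (i j : ℕ) (v : Vel) : pk i v * pk j v = pk (i + j) v := by
  rw [pk, pk, pk, ← ENNReal.ofReal_mul (by positivity), pow_add]

theorem pk_zero (v : Vel) : pk 0 v = 1 := by simp [pk]

theorem mom_mono {ψ G H : Vel → ℝ≥0∞} (h : ∀ v, G v ≤ H v) : mom ψ G ≤ mom ψ H :=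
  lintegral_mono fun v => mul_le_mul' le_rfl (h v)

theorem mom_pk_le {k : ℕ} (hk : k ≤ 3) (G : Vel → ℝ≥0∞) (hG : Measurable G) :
    mom (pk k) G ≤ mom (pk 0) G + mom (pk 3) G := by
  have := measurable_pk
  simp only [mom]
  rw [← lintegral_add_left (by fun_prop)]
  refine lintegral_mono fun v => ?_
  rw [← add_mul]
  refine mul_le_mul' ?_ le_rfl
  simp only [pk, pow_zero, ← ENNReal.ofReal_add zero_le_one (pow_nonneg (norm_nonneg v) 3)]
  refine ENNReal.ofReal_le_ofReal ?_
  have h := norm_nonneg v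
  rcases le_total ‖v‖ 1 with h1 | h1
  · linarith [pow_le_one₀ (n := k) h h1, pow_nonneg h 3]
  · linarith [pow_le_pow_right₀ h1 hk]

theorem mom_one_le (G : Vel → ℝ≥0∞) (hG : Measurable G) :
    2 * mom (pk 1) G ≤ mom (pk 0) G + mom (pk 2) G := by
  have := measurable_pk
  simp only [mom]
  rw [← lintegral_const_mul _ (by fun_prop), ← lintegral_add_left (by fun_prop)]
  refine lintegral_mono fun v => ?_
  rw [← add_mul, ← mul_assoc]
  refine mul_le_mul' ?_ le_rfl
  have h2 : ∀ x : ℝ, 2 * ENNReal.ofReal x = ENNReal.ofReal (2 * x) := fun x => by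
    rw [ENNReal.ofReal_mul zero_le_two, ENNReal.ofReal_ofNat]
  rw [pk, pk, pk, ← ENNReal.ofReal_add (by positivity) (by positivity), h2]
  refine ENNReal.ofReal_le_ofReal ?_
  nlinarith [sq_nonneg (‖v‖ - 1)]

/-- The rate term tested against `|v| ^ k`. -/
def rmom (k : ℕ) (G : Vel → ℝ≥0∞) : ℝ≥0∞ :=
  mom (pk k) fun v => ENNReal.ofReal (d.rate v) * G v

theorem rmom_eq (k : ℕ) (G : Vel → ℝ≥0∞) (hG : Measurable G) :
    d.rmom k G = dirM univ * (mom (pk (k + 1)) G * ENNReal.ofReal (d.m 0)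
      + mom (pk k) G * ((ENNReal.ofReal (d.m 0) + ENNReal.ofReal (d.m 2)) / 2)) := by
  have := measurable_pk
  have h0 := d.m_nonneg 0
  have h2 := d.m_nonneg 2
  simp only [rmom, mom]
  rw [← lintegral_mul_const _ (by fun_prop), ← lintegral_mul_const _ (by fun_prop),
    ← lintegral_add_left (by fun_prop), ← lintegral_const_mul _ (by fun_prop)]
  refine lintegral_congr fun v => ?_
  rw [rate, ENNReal.ofReal_mul area_nonneg, ofReal_area,
    ENNReal.ofReal_add (by positivity) (by positivity), ENNReal.ofReal_mul (norm_nonneg v),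
    ENNReal.ofReal_div_of_pos two_pos, ENNReal.ofReal_add h0 h2, ENNReal.ofReal_ofNat,
    add_comm k, ← pk_mul 1 k v]
  simp only [pk, pow_one]
  ring

theorem mom_modGain_eq (ψ G : Vel → ℝ≥0∞) (hψ : Measurable ψ) (hG : Measurable G)
    (h : ∀ v w o, ψ (post v w o) + ψ (postStar v w o) = ψ v + ψ w) :
    mom ψ (modGain G) = dirM univ * (mom (fun v => pk 1 v * ψ v) G * mom (pk 0) G
        + mom ψ G * ((mom (pk 0) G + mom (pk 2) G) / 2)) := by
  set a : Vel × Vel × Dir → ℝ≥0∞ := fun p =>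
    ψ (post p.1 p.2.1 p.2.2) * ENNReal.ofReal |proj p.1 p.2.1 p.2.2| * (G p.1 * G p.2.1) with ha
  set b : Vel × Vel × Dir → ℝ≥0∞ := fun p =>
    ψ p.1 * ENNReal.ofReal |proj p.1 p.2.1 p.2.2| * (G p.1 * G p.2.1) with hb
  have ham : Measurable a := ((hψ.comp continuous_post.measurable).mul
    continuous_proj.measurable.abs.ennreal_ofReal).mul (by fun_prop)
  have hbm : Measurable b := measurable_tri_weight hψ hG
  have hb' : ∫⁻ p, b (p.2.1, p.1, p.2.2) ∂triM = ∫⁻ p, b p ∂triM := lintegral_swap b hbm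
  have key : ∫⁻ p, a p ∂triM = ∫⁻ p, b p ∂triM := by
    refine (ENNReal.mul_right_inj two_ne_zero ENNReal.ofNat_ne_top).1 ?_
    calc 2 * ∫⁻ p, a p ∂triM = ∫⁻ p : Vel × Vel × Dir, (a p + ψ (postStar p.1 p.2.1 p.2.2) *
            ENNReal.ofReal |proj p.1 p.2.1 p.2.2| * (G p.1 * G p.2.1)) ∂triM := by
            rw [lintegral_add_left ham, lintegral_post_star ψ G hψ hG, two_mul]
      _ = ∫⁻ p : Vel × Vel × Dir, (b p + b (p.2.1, p.1, p.2.2)) ∂triM := by
            refine lintegral_congr fun p => ?_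
            simp only [ha, hb, proj_swap p.1 p.2.1, abs_neg]
            rw [← add_mul, ← add_mul, h, add_mul, add_mul]
            ring
      _ = _ := by rw [lintegral_add_left hbm, hb', two_mul]
  rw [mom_modGain ψ G hψ hG]
  set c : Vel × Vel × Dir → ℝ≥0∞ := fun p => ψ p.1 *
    ENNReal.ofReal (kap p.1 p.2.1 - |proj p.1 p.2.1 p.2.2|) * (G p.1 * G p.2.1) with hc
  calc _ = ∫⁻ p, a p ∂triM + ∫⁻ p, c p ∂triM := by
        rw [← lintegral_add_left ham]
        exact lintegral_congr fun p => add_mul _ _ _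
    _ = _ := by
        rw [key, ← lintegral_add_left hbm, ← lintegral_kap ψ G hψ hG]
        refine lintegral_congr fun p => ?_
        simp only [hb, hc]
        rw [← add_mul, ← mul_add, ← ENNReal.ofReal_add (abs_nonneg _)
          (sub_nonneg.2 (abs_proj_le_kap _ _ _)), add_sub_cancel]

theorem mom_modGain_pk {k : ℕ} (hk : k = 0 ∨ k = 2) (G : Vel → ℝ≥0∞) (hG : Measurable G) :
    mom (pk k) (modGain G) = dirM univ * (mom (pk (k + 1)) G * mom (pk 0) G
        + mom (pk k) G * ((mom (pk 0) G + mom (pk 2) G) / 2)) := by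
  rw [mom_modGain_eq (pk k) G (measurable_pk k) hG]
  · simp only [pk_mul, add_comm k]
  · intro v w o
    rw [pk, pk, pk, pk, ← ENNReal.ofReal_add (by positivity) (by positivity),
      ← ENNReal.ofReal_add (by positivity) (by positivity)]
    rcases hk with rfl | rfl
    · simp
    · rw [norm_sq_post]

/-- The growth rate of the third moment. -/
def cubicRate : ℝ := area * (d.m 0 + d.m 2)

theorem cubicRate_nonneg : 0 ≤ d.cubicRate :=
  mul_nonneg area_nonneg (add_nonneg (d.m_nonneg 0) (d.m_nonneg 2))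

theorem cube_le {r s r' s' : ℝ} (hr : 0 ≤ r) (hs : 0 ≤ s) (_hr : 0 ≤ r') (_hs : 0 ≤ s')
    (h : r' ^ 2 + s' ^ 2 = r ^ 2 + s ^ 2) :
    r' ^ 3 + s' ^ 3 ≤ r ^ 3 + s ^ 3 + (r ^ 2 * s + r * s ^ 2) := by
  have h1 : r' ≤ r + s := by nlinarith [mul_nonneg hr hs, sq_nonneg s']
  have h2 : s' ≤ r + s := by nlinarith [mul_nonneg hr hs, sq_nonneg r']
  nlinarith [mul_le_mul_of_nonneg_left h1 (sq_nonneg r'), mul_le_mul_of_nonneg_left h2 (sq_nonneg s')]

theorem mom_modGain_three (G : Vel → ℝ≥0∞) (hG : Measurable G)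
    (h0 : mom (pk 0) G ≤ ENNReal.ofReal (d.m 0)) (h2 : mom (pk 2) G ≤ ENNReal.ofReal (d.m 2)) :
    mom (pk 3) (modGain G) ≤ d.rmom 3 G + ENNReal.ofReal d.cubicRate * mom (pk 3) G := by
  have hp := measurable_pk
  refine (mom_modGain_le (pk 3) (fun v => 2 * pk 3 v) G (pk 1) (hp 3) (by fun_prop) (hp 1) hG
    fun v w o => ?_).trans ?_
  · simp only [pk, pow_one, show (2 : ℝ≥0∞) = ENNReal.ofReal 2 by simp]
    have hr := norm_nonneg v
    have hs := norm_nonneg w
    rw [← ENNReal.ofReal_add (by positivity) (by positivity),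
      ← ENNReal.ofReal_add (pow_nonneg hr 3) (pow_nonneg hs 3),
      ← ENNReal.ofReal_mul (by positivity), ← ENNReal.ofReal_mul (by positivity),
      ← ENNReal.ofReal_mul zero_le_two, ← ENNReal.ofReal_mul zero_le_two,
      ← ENNReal.ofReal_mul (by positivity), ← ENNReal.ofReal_mul (by positivity),
      ← ENNReal.ofReal_add (by positivity) (by positivity),
      ← ENNReal.ofReal_add (by positivity) (by positivity)]
    refine ENNReal.ofReal_le_ofReal ?_
    have ha := abs_proj_le v w o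
    have hc := cube_le hr hs (norm_nonneg _) (norm_nonneg _) (norm_sq_post v w o)
    nlinarith [mul_le_mul_of_nonneg_right hc (abs_nonneg (proj v w o)),
      mul_le_mul_of_nonneg_left ha (show 0 ≤ ‖v‖ ^ 2 * ‖w‖ + ‖v‖ * ‖w‖ ^ 2 by positivity),
      mul_nonneg (mul_nonneg hr hs) (sq_nonneg (‖v‖ - ‖w‖))]
  · rw [rmom_eq d 3 G hG]
    simp only [pk_mul]
    rw [mul_add, cubicRate, ENNReal.ofReal_mul area_nonneg, ofReal_area, mul_assoc,
      ENNReal.ofReal_add (d.m_nonneg 0) (d.m_nonneg 2)]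
    refine add_le_add (mul_le_mul' le_rfl (add_le_add (mul_le_mul' (by rfl) h0)
      (mul_le_mul' le_rfl (ENNReal.div_le_div (add_le_add h0 h2) le_rfl)))) ?_
    refine mul_le_mul' le_rfl ?_
    calc mom (fun v => 2 * pk 3 v) G * mom (pk 1) G = mom (pk 3) G * (2 * mom (pk 1) G) := by
          simp only [mom, mul_assoc]
          rw [lintegral_const_mul _ (by fun_prop)]
          ring
      _ ≤ mom (pk 3) G * (ENNReal.ofReal (d.m 0) + ENNReal.ofReal (d.m 2)) :=
          mul_le_mul' le_rfl ((mom_one_le G hG).trans (add_le_add h0 h2))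
      _ = _ := mul_comm _ _

/-- The bound on the third moment. -/
def cap (t : ℝ) : ℝ := (d.m 3 + 1) * exp (d.cubicRate * t)

theorem cap_nonneg (t : ℝ) : 0 ≤ d.cap t :=
  mul_nonneg (add_nonneg (d.m_nonneg 3) zero_le_one) (exp_nonneg _)

theorem continuous_cap : Continuous d.cap := by unfold cap; fun_prop

theorem lintegral_cap {t : ℝ} (ht : 0 ≤ t) :
    ENNReal.ofReal (d.m 3) + ∫⁻ s in Ioc 0 t, ENNReal.ofReal d.cubicRate * ENNReal.ofReal (d.cap s)
      ≤ ENNReal.ofReal (d.cap t) := by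
  have hc : Continuous fun s => d.cubicRate * d.cap s := continuous_const.mul d.continuous_cap
  have hd : ∀ s ∈ uIcc 0 t, HasDerivAt d.cap (d.cubicRate * d.cap s) s := by
    intro s _
    have := ((((hasDerivAt_id s).const_mul d.cubicRate).exp).const_mul (d.m 3 + 1))
    simp only [id, mul_one] at this
    exact this.congr_deriv (by rw [cap]; ring)
  have hi := intervalIntegral.integral_eq_sub_of_hasDerivAt hd (hc.intervalIntegrable _ _)
  have hpos : 0 ≤ ∫ s in (0 : ℝ)..t, d.cubicRate * d.cap s :=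
    intervalIntegral.integral_nonneg ht fun s _ => mul_nonneg d.cubicRate_nonneg (d.cap_nonneg s)
  simp only [← ENNReal.ofReal_mul d.cubicRate_nonneg]
  rw [← ofReal_integral_eq_lintegral_ofReal hc.integrableOn_Ioc (Filter.Eventually.of_forall
      fun s => mul_nonneg d.cubicRate_nonneg (d.cap_nonneg s)),
    ← intervalIntegral.integral_of_le ht, ← ENNReal.ofReal_add (d.m_nonneg 3) hpos, hi]
  refine ENNReal.ofReal_le_ofReal ?_
  simp [cap]; linarith

theorem measurable_rmom (k : ℕ) {G : ℝ → Vel → ℝ≥0∞}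
    (hG : Measurable fun p : ℝ × Vel => G p.1 p.2) : Measurable fun s => d.rmom k (G s) := by
  have h1 := d.measurable_rate
  have h2 := measurable_pk k
  exact Measurable.lintegral_prod_right'
    (f := fun p : ℝ × Vel => pk k p.2 * (ENNReal.ofReal (d.rate p.2) * G p.1 p.2)) (by fun_prop)

theorem rmom_lint_lt_top {k : ℕ} (hk : k ≤ 2) {G : ℝ → Vel → ℝ≥0∞}
    (hG : ∀ s, Measurable (G s)) {t : ℝ}
    (h0 : ∀ s ∈ Ioc 0 t, mom (pk 0) (G s) ≤ ENNReal.ofReal (d.m 0))
    (h3 : ∀ s ∈ Ioc 0 t, mom (pk 3) (G s) ≤ ENNReal.ofReal (d.cap t)) :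
    ∫⁻ s in Ioc 0 t, d.rmom k (G s) < ⊤ := by
  set b := ENNReal.ofReal (d.m 0) + ENNReal.ofReal (d.cap t) with hb
  refine lt_of_le_of_lt (setLIntegral_mono (g := fun _ => dirM univ * (b * ENNReal.ofReal (d.m 0)
    + b * ((ENNReal.ofReal (d.m 0) + ENNReal.ofReal (d.m 2)) / 2))) measurable_const
    fun s hs => ?_) ?_
  · rw [rmom_eq d k _ (hG s)]
    have h : ∀ j ≤ 3, mom (pk j) (G s) ≤ b := fun j hj =>
      (mom_pk_le hj _ (hG s)).trans (add_le_add (h0 s hs) (h3 s hs))
    refine mul_le_mul' le_rfl (add_le_add (mul_le_mul' (h _ (by omega)) le_rfl)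
      (mul_le_mul' (h _ (by omega)) le_rfl))
  · rw [setLIntegral_const]
    refine ENNReal.mul_lt_top ?_ (by simp)
    have : b ≠ ⊤ := by simp [hb]
    exact ENNReal.mul_lt_top (measure_lt_top _ _) (ENNReal.add_lt_top.2
      ⟨ENNReal.mul_lt_top this.lt_top ENNReal.ofReal_lt_top, ENNReal.mul_lt_top this.lt_top
        (ENNReal.div_lt_top (by simp) two_ne_zero)⟩)

theorem cap_mono {s t : ℝ} (h : s ≤ t) : d.cap s ≤ d.cap t := by
  refine mul_le_mul_of_nonneg_left (exp_le_exp.2 ?_) (add_nonneg (d.m_nonneg 3) zero_le_one)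
  exact mul_le_mul_of_nonneg_left h d.cubicRate_nonneg

/-- The bounds propagated by the iteration. -/
theorem it_bounds (n : ℕ) : ∀ t : ℝ, 0 ≤ t →
    mom (pk 0) (d.it n t) ≤ ENNReal.ofReal (d.m 0) ∧
    mom (pk 2) (d.it n t) ≤ ENNReal.ofReal (d.m 2) ∧
    mom (pk 3) (d.it n t) ≤ ENNReal.ofReal (d.cap t) ∧
    ∫⁻ s in Ioc 0 t, d.rmom 3 (d.it n s) < ⊤ := by
  induction n with
  | zero => intro t _; simp [it, mom, rmom]
  | succ n ih =>
    intro t ht
    have hm := d.measurable_it_slice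
    have hE := fun k => d.mom_it n ht (pk k) (measurable_pk k)
    have hmono : ∀ k, ∫⁻ s in Ioc 0 t, d.rmom k (d.it n s)
        ≤ ∫⁻ s in Ioc 0 t, d.rmom k (d.it (n + 1) s) :=
      fun k => lintegral_mono fun s => mom_mono fun v => mul_le_mul' le_rfl (d.it_mono n s v)
    have hcons : ∀ k, k = 0 ∨ k = 2 → mom (pk k) (d.it (n + 1) t) ≤ ENNReal.ofReal (d.m k) := by
      intro k hk
      have hfin : ∫⁻ s in Ioc 0 t, d.rmom k (d.it n s) ≠ ⊤ :=
        (d.rmom_lint_lt_top (by omega) (hm n) (fun s hs => (ih s hs.1.le).1) fun s hs =>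
          (ih s hs.1.le).2.2.1.trans (ENNReal.ofReal_le_ofReal (d.cap_mono hs.2))).ne
      refine (ENNReal.add_le_add_iff_right hfin).1 ((add_le_add le_rfl (hmono k)).trans ?_)
      refine (hE k).le.trans ?_
      rw [d.mom_F₀ (by omega)]
      refine add_le_add le_rfl (setLIntegral_mono (d.measurable_rmom k (d.measurable_it n))
        fun s hs => ?_)
      obtain ⟨a0, a2, -, -⟩ := ih s hs.1.le
      rw [mom_modGain_pk hk _ (hm n s), rmom_eq d k _ (hm n s)]
      exact mul_le_mul' le_rfl (add_le_add (mul_le_mul' le_rfl a0)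
        (mul_le_mul' le_rfl (ENNReal.div_le_div (add_le_add a0 a2) le_rfl)))
    have h3 : mom (pk 3) (d.it (n + 1) t) + ∫⁻ s in Ioc 0 t, d.rmom 3 (d.it (n + 1) s)
        ≤ ENNReal.ofReal (d.cap t) + ∫⁻ s in Ioc 0 t, d.rmom 3 (d.it n s) := by
      refine (hE 3).le.trans ?_
      rw [d.mom_F₀ le_rfl]
      refine (add_le_add le_rfl (setLIntegral_mono (g := fun s => d.rmom 3 (d.it n s) +
        ENNReal.ofReal d.cubicRate * ENNReal.ofReal (d.cap s)) ?_ fun s hs => ?_)).trans ?_
      · exact (d.measurable_rmom 3 (d.measurable_it n)).add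
          (d.continuous_cap.measurable.ennreal_ofReal.const_mul _)
      · obtain ⟨a0, a2, a3, -⟩ := ih s hs.1.le
        exact (d.mom_modGain_three _ (hm n s) a0 a2).trans
          (add_le_add le_rfl (mul_le_mul' le_rfl a3))
      · rw [lintegral_add_left (d.measurable_rmom 3 (d.measurable_it n)),
          add_comm (∫⁻ s in Ioc 0 t, d.rmom 3 (d.it n s)), ← add_assoc]
        exact add_le_add (d.lintegral_cap ht) le_rfl
    have hn := (ih t ht).2.2.2
    refine ⟨hcons 0 (Or.inl rfl), hcons 2 (Or.inr rfl),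
      (ENNReal.add_le_add_iff_right hn.ne).1 ((add_le_add le_rfl (hmono 3)).trans h3), ?_⟩
    exact lt_of_le_of_lt (le_trans le_add_self h3)
      (ENNReal.add_lt_top.2 ⟨ENNReal.ofReal_lt_top, hn⟩)

/-- The homogeneous solution. -/
def sol (t : ℝ) (v : Vel) : ℝ≥0∞ := ⨆ n, d.it n t v

theorem measurable_sol : Measurable fun p : ℝ × Vel => d.sol p.1 p.2 :=
  Measurable.iSup fun n => d.measurable_it n

theorem measurable_sol_slice (t : ℝ) : Measurable (d.sol t) :=
  Measurable.iSup fun n => d.measurable_it_slice n t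

theorem monotone_it (t : ℝ) (v : Vel) : Monotone fun n => d.it n t v :=
  monotone_nat_of_le_succ fun n => d.it_mono n t v

theorem mom_sol (ψ : Vel → ℝ≥0∞) (hψ : Measurable ψ) (t : ℝ) :
    mom ψ (d.sol t) = ⨆ n, mom ψ (d.it n t) := by
  simp only [mom, sol, ENNReal.mul_iSup]
  exact lintegral_iSup (fun n => hψ.mul (d.measurable_it_slice n t))
    fun i j hij v => mul_le_mul' le_rfl (d.monotone_it t v hij)

theorem sol_bounds {t : ℝ} (ht : 0 ≤ t) :
    mom (pk 0) (d.sol t) ≤ ENNReal.ofReal (d.m 0) ∧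
    mom (pk 2) (d.sol t) ≤ ENNReal.ofReal (d.m 2) ∧
    mom (pk 3) (d.sol t) ≤ ENNReal.ofReal (d.cap t) := by
  simp only [d.mom_sol _ (measurable_pk _), iSup_le_iff]
  exact ⟨fun n => (d.it_bounds n t ht).1, fun n => (d.it_bounds n t ht).2.1,
    fun n => (d.it_bounds n t ht).2.2.1⟩

theorem sol_integral {t : ℝ} (ht : 0 ≤ t) (v : Vel) :
    d.sol t v + ∫⁻ s in Ioc 0 t, ENNReal.ofReal (d.rate v) * d.sol s v
      = d.F₀ v + ∫⁻ s in Ioc 0 t, modGain (d.sol s) v := by
  have hM : ∀ s, modGain (d.sol s) v = ⨆ n, modGain (d.it n s) v := fun s =>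
    modGain_iSup (fun n => d.measurable_it_slice n s) (d.monotone_it s) v
  have hg : ∀ n, Measurable fun s => modGain (d.it n s) v := fun n => by
    have h := Measurable.fun_comp (measurable_modGain (d.measurable_it n))
      (measurable_prodMk_right (y := v))
    exact h
  have hi : ∀ n, Measurable fun s => ENNReal.ofReal (d.rate v) * d.it n s v := fun n => by
    have h := Measurable.fun_comp (d.measurable_it n) (measurable_prodMk_right (y := v))
    exact h.const_mul _
  simp only [hM]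
  rw [lintegral_iSup hg fun i j hij s => modGain_mono (fun u => d.monotone_it s u hij) v]
  simp only [sol, ENNReal.mul_iSup]
  rw [lintegral_iSup hi fun i j hij s => mul_le_mul' le_rfl (d.monotone_it s v hij),
    ENNReal.iSup_add_iSup_of_monotone (d.monotone_it t v)
      (fun i j hij => lintegral_mono fun s => mul_le_mul' le_rfl (d.monotone_it s v hij)),
    ENNReal.add_iSup]
  set a : ℕ → ℝ≥0∞ := fun n =>
    d.it n t v + ∫⁻ s in Ioc 0 t, ENNReal.ofReal (d.rate v) * d.it n s v with ha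
  have hmono : Monotone a := fun i j hij => add_le_add (d.monotone_it t v hij)
    (lintegral_mono fun s => mul_le_mul' le_rfl (d.monotone_it s v hij))
  calc ⨆ n, a n = ⨆ n, a (n + 1) := le_antisymm
        (iSup_mono' fun n => ⟨n, hmono (Nat.le_succ n)⟩) (iSup_le fun n => le_iSup a (n + 1))
    _ = _ := iSup_congr fun n => d.it_integral n ht v

/-- Mass and energy are conserved. -/
theorem sol_conserve {t : ℝ} (ht : 0 ≤ t) :
    mom (pk 0) (d.sol t) = ENNReal.ofReal (d.m 0) ∧
      mom (pk 2) (d.sol t) = ENNReal.ofReal (d.m 2) := by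
  set r : ℕ → ℝ → ℝ≥0∞ := fun k s => ENNReal.ofReal (d.m k) - mom (pk k) (d.sol s) with hr
  set b := ENNReal.ofReal (d.m 0) + ENNReal.ofReal (d.cap t) with hb
  have hmoms : ∀ s ∈ Ioc 0 t, ∀ j ≤ 3, mom (pk j) (d.sol s) ≤ b := fun s hs j hj =>
    (mom_pk_le hj _ (d.measurable_sol_slice s)).trans (add_le_add (d.sol_bounds hs.1.le).1
      ((d.sol_bounds hs.1.le).2.2.trans (ENNReal.ofReal_le_ofReal (d.cap_mono hs.2))))
  have hsum : ∀ s, 0 ≤ s → ∀ k, k = 0 ∨ k = 2 →
      mom (pk k) (d.sol s) + r k s = ENNReal.ofReal (d.m k) := by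
    intro s hs k hk
    refine add_tsub_cancel_of_le ?_
    rcases hk with rfl | rfl
    exacts [(d.sol_bounds hs).1, (d.sol_bounds hs).2.1]
  have hrm : ∀ k, Measurable (r k) := fun k => measurable_const.sub
    (Measurable.lintegral_prod_right' (f := fun p : ℝ × Vel => pk k p.2 * d.sol p.1 p.2)
      (((measurable_pk k).comp measurable_snd).mul d.measurable_sol))
  have hle : ∀ k, k = 0 ∨ k = 2 → ∀ u ∈ Icc 0 t, r k u
      ≤ ∫⁻ s in Ioc 0 u, dirM univ * (b * r 0 s + b * ((r 0 s + r 2 s) / 2)) := by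
    intro k hk u hu
    have hrmm := d.measurable_rmom k d.measurable_sol
    have hid : mom (pk k) (d.sol u) + ∫⁻ s in Ioc 0 u, d.rmom k (d.sol s)
        = ENNReal.ofReal (d.m k) + ∫⁻ s in Ioc 0 u, mom (pk k) (modGain (d.sol s)) := by
      have hψ := measurable_pk k
      rw [← d.mom_F₀ (by omega), ← mom_pull (pk k) hψ (fun s v => modGain (d.sol s) v)
        (measurable_modGain d.measurable_sol)]
      simp only [rmom]
      rw [← mom_pull (pk k) hψ (fun s v => ENNReal.ofReal (d.rate v) * d.sol s v)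
        ((d.measurable_rate.comp measurable_snd).ennreal_ofReal.mul d.measurable_sol)]
      simp only [mom]
      rw [← lintegral_add_left (hψ.fun_mul (d.measurable_sol_slice u)),
        ← lintegral_add_left (hψ.fun_mul (show Measurable d.F₀ from d.meas.ennreal_ofReal))]
      refine lintegral_congr fun v => ?_
      rw [← mul_add, ← mul_add, d.sol_integral hu.1 v]
    have hfin : ∫⁻ s in Ioc 0 u, mom (pk k) (modGain (d.sol s)) ≠ ⊤ := by
      refine ne_top_of_le_ne_top (d.rmom_lint_lt_top (k := k) (by omega) d.measurable_sol_slice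
        (t := u) (fun s hs => (d.sol_bounds hs.1.le).1) fun s hs => (d.sol_bounds hs.1.le).2.2.trans
          (ENNReal.ofReal_le_ofReal (d.cap_mono hs.2))).ne ?_
      refine setLIntegral_mono hrmm fun s hs => ?_
      obtain ⟨a0, a2, -⟩ := d.sol_bounds hs.1.le
      rw [mom_modGain_pk hk _ (d.measurable_sol_slice s), rmom_eq d k _ (d.measurable_sol_slice s)]
      exact mul_le_mul' le_rfl (add_le_add (mul_le_mul' le_rfl a0)
        (mul_le_mul' le_rfl (ENNReal.div_le_div (add_le_add a0 a2) le_rfl)))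
    refine tsub_le_iff_left.2 ?_
    refine (ENNReal.add_le_add_iff_right hfin).1 ?_
    rw [← hid, add_assoc]
    refine add_le_add le_rfl ?_
    rw [← lintegral_add_left (by fun_prop)]
    refine setLIntegral_mono (by
      have := measurable_modGain d.measurable_sol
      have h1 : Measurable fun s => mom (pk k) (modGain (d.sol s)) :=
        Measurable.lintegral_prod_right'
          (f := fun p : ℝ × Vel => pk k p.2 * modGain (d.sol p.1) p.2)
          (((measurable_pk k).comp measurable_snd).mul this)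
      exact (by fun_prop : Measurable fun s => dirM univ * (b * r 0 s + b * ((r 0 s + r 2 s) / 2))).add
        h1) fun s hs => ?_
    have hs' : s ∈ Ioc 0 t := ⟨hs.1, hs.2.trans hu.2⟩
    rw [mom_modGain_pk hk _ (d.measurable_sol_slice s), rmom_eq d k _ (d.measurable_sol_slice s),
      ← hsum s hs.1.le 0 (Or.inl rfl), ← hsum s hs.1.le 2 (Or.inr rfl)]
    calc _ = dirM univ * (mom (pk (k + 1)) (d.sol s) * r 0 s
          + mom (pk k) (d.sol s) * ((r 0 s + r 2 s) / 2))
        + dirM univ * (mom (pk (k + 1)) (d.sol s) * mom (pk 0) (d.sol s) + mom (pk k) (d.sol s) *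
            ((mom (pk 0) (d.sol s) + mom (pk 2) (d.sol s)) / 2)) := by
          simp only [div_eq_mul_inv]; ring
      _ ≤ _ := add_le_add (mul_le_mul' le_rfl (add_le_add
          (mul_le_mul' (hmoms s hs' _ (by omega)) le_rfl)
          (mul_le_mul' (hmoms s hs' _ (by omega)) le_rfl))) le_rfl
  set C := 2 * (dirM univ * (b + b)) with hC
  have hCt : C ≠ ⊤ := ENNReal.mul_ne_top ENNReal.ofNat_ne_top
    (ENNReal.mul_ne_top (measure_ne_top _ _) (by simp [hb]))
  have hU : ∀ u ∈ Icc 0 t, r 0 u + r 2 u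
      ≤ ENNReal.ofReal C.toReal * ∫⁻ s in Ioc 0 u, (r 0 s + r 2 s) := by
    intro u hu
    rw [ENNReal.ofReal_toReal hCt, ← lintegral_const_mul _ ((hrm 0).fun_add (hrm 2))]
    refine (add_le_add (hle 0 (Or.inl rfl) u hu) (hle 2 (Or.inr rfl) u hu)).trans ?_
    rw [← lintegral_add_left (by fun_prop)]
    refine lintegral_mono fun s => ?_
    rw [← two_mul, hC, mul_assoc, mul_assoc]
    refine mul_le_mul' le_rfl (mul_le_mul' le_rfl ?_)
    rw [add_mul b b]
    have e1 : r 0 s ≤ r 0 s + r 2 s := self_le_add_right _ _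
    exact add_le_add (mul_le_mul' le_rfl e1) (mul_le_mul' le_rfl ENNReal.half_le_self)
  have hz := gronwall_zero (B := d.m 0 + d.m 2) ENNReal.toReal_nonneg
    (add_nonneg (d.m_nonneg 0) (d.m_nonneg 2))
    (fun u _ => by
      rw [ENNReal.ofReal_add (d.m_nonneg 0) (d.m_nonneg 2)]
      exact add_le_add tsub_le_self tsub_le_self) hU t ⟨ht, le_rfl⟩
  obtain ⟨z0, z2⟩ := add_eq_zero.1 hz
  exact ⟨le_antisymm (d.sol_bounds ht).1 (tsub_eq_zero_iff_le.1 z0),
    le_antisymm (d.sol_bounds ht).2.1 (tsub_eq_zero_iff_le.1 z2)⟩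

end Datum

end

end Vale.Agent.P140.Homog
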