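import Mathlib

/-!
P140: uniqueness for uniform Maxwellian data of temperature at most one.
-/

namespace Vale.Agent.P140

open MeasureTheory Real

noncomputable section

/-- The flat unit torus. -/
abbrev Torus : Type := Fin 3 → UnitAddCircle

/-- Phase space, the torus times the velocity space. -/
abbrev Phase : Type := Torus × (Fin 3 → ℝ)

/-- Squared Euclidean norm. -/
def normSqV (v : Fin 3 → ℝ) : ℝ := ∑ i, v i ^ 2

/-- The uniform Maxwellian with density `ρ`, drift `u`, temperature `T`. -/
def maxw (ρ : ℝ) (u : Fin 3 → ℝ) (T : ℝ) (p : Phase) : ℝ :=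
  ρ * (2 * π * T) ^ (-(3 / 2) : ℝ) * exp (-normSqV (p.2 - u) / (2 * T))

/-- The reference Maxwellian `M`. -/
def refM (p : Phase) : ℝ := (2 * π) ^ (-(3 / 2) : ℝ) * exp (-normSqV p.2 / 2)

/-- The relative entropy `H_M`. -/
def hEnt (F : Phase → ℝ) : ℝ := ∫ p, (F p * log (F p / refM p) - F p + refM p)

/-- The consequences of the definition of a renormalized entropy solution used below, at one time:
nonnegativity, finite mass, energy and `F log F`, the same mass and momentum as the datum, and
energy and relative entropy at most those of the datum. -/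
def EntropyAdmissible (F₀ F : Phase → ℝ) : Prop :=
  (∀ᵐ p, 0 ≤ F p) ∧ Integrable F ∧ Integrable (fun p => F p * normSqV p.2) ∧
    Integrable (fun p => F p * |log (F p)|) ∧ ∫ p, F p = ∫ p, F₀ p ∧
    (∀ i, ∫ p, p.2 i * F p = ∫ p, p.2 i * F₀ p) ∧
    ∫ p, F p * normSqV p.2 ≤ ∫ p, F₀ p * normSqV p.2 ∧ hEnt F ≤ hEnt F₀

theorem normSqV_nonneg (v : Fin 3 → ℝ) : 0 ≤ normSqV v := Finset.sum_nonneg fun _ _ => sq_nonneg _

theorem continuous_normSqV : Continuous normSqV := by unfold normSqV; fun_prop

theorem normSqV_le (v u : Fin 3 → ℝ) : normSqV v ≤ 2 * normSqV u + 2 * normSqV (v - u) := by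
  simp only [normSqV, Finset.mul_sum, ← Finset.sum_add_distrib, Pi.sub_apply]
  exact Finset.sum_le_sum fun i _ => by nlinarith [sq_nonneg (v i - 2 * u i)]

theorem integrable_gauss {b : ℝ} (hb : 0 < b) (u : Fin 3 → ℝ) :
    Integrable fun p : Phase => exp (-normSqV (p.2 - u) / b) := by
  have h : Integrable fun v : Fin 3 → ℝ => ∏ i, exp (-(1 / b) * (v i - u i) ^ 2) :=
    Integrable.fintype_prod (f := fun i (x : ℝ) => exp (-(1 / b) * (x - u i) ^ 2))
      fun i => (integrable_exp_neg_mul_sq (by positivity)).comp_sub_right (u i)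
  have e : (fun v : Fin 3 → ℝ => exp (-normSqV (v - u) / b)) =
      fun v => ∏ i, exp (-(1 / b) * (v i - u i) ^ 2) := funext fun v => by
    rw [← exp_sum]
    congr 1
    simp only [normSqV, Pi.sub_apply, ← Finset.mul_sum]
    ring
  exact (e ▸ h).comp_snd volume

theorem sq_mul_exp_le {b : ℝ} (hb : 0 < b) {s : ℝ} :
    s * exp (-s / b) ≤ 2 * b * exp (-s / (2 * b)) := by
  have e : exp (-s / b) = exp (-s / (2 * b)) * exp (-(s / (2 * b))) := by
    rw [← exp_add]; congr 1; field_simp; ring
  have h1 : s * exp (-(s / (2 * b))) ≤ 2 * b := by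
    rw [exp_neg, ← div_eq_mul_inv, div_le_iff₀ (exp_pos _)]
    have := add_one_le_exp (s / (2 * b))
    have h2 : s / (2 * b) * (2 * b) = s := div_mul_cancel₀ _ (by positivity)
    nlinarith
  rw [e, mul_left_comm, mul_comm (exp (-s / (2 * b)))]
  exact mul_le_mul_of_nonneg_right h1 (exp_pos _).le

/-- A function of velocity bounded by `(a + c s) exp(-s / b)` is integrable. -/
theorem integrable_of_bound {b a c : ℝ} (hb : 0 < b) (hc : 0 ≤ c) (u : Fin 3 → ℝ)
    {f : (Fin 3 → ℝ) → ℝ} (hf : Continuous f)
    (h : ∀ v, |f v| ≤ (a + c * normSqV (v - u)) * exp (-normSqV (v - u) / b)) :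
    Integrable fun p : Phase => f p.2 := by
  refine Integrable.mono' (((integrable_gauss hb u).const_mul |a|).add
    ((integrable_gauss (show 0 < 2 * b by positivity) u).const_mul (c * (2 * b))))
    (hf.comp continuous_snd).aestronglyMeasurable (.of_forall fun p => ?_)
  rw [norm_eq_abs]
  refine (h p.2).trans ?_
  rw [add_mul, mul_assoc c, Pi.add_apply, mul_assoc c]
  exact add_le_add (mul_le_mul_of_nonneg_right (le_abs_self a) (exp_pos _).le)
    (mul_le_mul_of_nonneg_left (sq_mul_exp_le hb) hc)

theorem integrable_refM : Integrable refM :=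
  integrable_of_bound (b := 2) (a := (2 * π) ^ (-(3 / 2) : ℝ)) (c := 0) two_pos le_rfl 0
    (f := fun v => (2 * π) ^ (-(3 / 2) : ℝ) * exp (-normSqV v / 2))
    (continuous_const.mul (continuous_exp.comp (continuous_normSqV.neg.div_const 2))) fun v => by
      rw [abs_of_pos (by positivity)]; simp

theorem log_refM (p : Phase) : log (refM p) = log ((2 * π) ^ (-(3 / 2) : ℝ)) - normSqV p.2 / 2 := by
  rw [refM, log_mul (by positivity) (exp_pos _).ne', log_exp]; ring

variable {ρ T : ℝ} {u : Fin 3 → ℝ}

theorem maxw_nonneg (hρ : 0 ≤ ρ) (hT : 0 < T) (p : Phase) : 0 ≤ maxw ρ u T p := by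
  unfold maxw; positivity

theorem log_maxw (hρ : 0 < ρ) (hT : 0 < T) (p : Phase) :
    log (maxw ρ u T p) =
      log (ρ * (2 * π * T) ^ (-(3 / 2) : ℝ)) - normSqV (p.2 - u) / (2 * T) := by
  rw [maxw, log_mul (by positivity) (exp_pos _).ne', log_exp]; ring

/-- The datum is admissible: the steady state is a competitor. -/
theorem maxw_admissible (hρ : 0 ≤ ρ) (hT : 0 < T) :
    EntropyAdmissible (maxw ρ u T) (maxw ρ u T) := by
  set k := ρ * (2 * π * T) ^ (-(3 / 2) : ℝ) with hk
  have hk0 : 0 ≤ k := by positivity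
  have hb : (0 : ℝ) < 2 * T := by positivity
  have hw : Continuous fun v : Fin 3 → ℝ => k * exp (-normSqV (v - u) / (2 * T)) :=
    continuous_const.mul (continuous_exp.comp
      ((continuous_normSqV.comp (continuous_id.sub continuous_const)).neg.div_const _))
  refine ⟨.of_forall (maxw_nonneg hρ hT), ?_, ?_, ?_, rfl, fun _ => rfl, le_rfl, le_rfl⟩
  · exact integrable_of_bound (a := k) hb le_rfl u hw fun v => by
      rw [abs_of_nonneg (by positivity)]; simp [k]
  · refine integrable_of_bound (a := k * (2 * normSqV u)) (c := k * 2) hb (by positivity) u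
      (f := fun v => k * exp (-normSqV (v - u) / (2 * T)) * normSqV v)
      (hw.mul continuous_normSqV) fun v => ?_
    rw [abs_of_nonneg (mul_nonneg (by positivity) (normSqV_nonneg v))]
    refine (mul_le_mul_of_nonneg_left (normSqV_le v u) (by positivity)).trans_eq ?_
    ring
  · rcases hρ.eq_or_lt with rfl | hρ'
    · simp [maxw]
    have h := integrable_of_bound (a := k * |log k|) (c := k / (2 * T)) hb (by positivity) u
      (hw.mul (continuous_const.sub ((continuous_normSqV.comp
        (continuous_id.sub continuous_const)).div_const (2 * T))).abs) (f := fun v =>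
        k * exp (-normSqV (v - u) / (2 * T)) * |log k - normSqV (v - u) / (2 * T)|) fun v => by
      rw [abs_of_nonneg (by positivity)]
      refine (mul_le_mul_of_nonneg_left (abs_sub _ _) (by positivity)).trans_eq ?_
      rw [abs_of_nonneg (div_nonneg (normSqV_nonneg _) hb.le)]
      ring
    refine h.congr (.of_forall fun p => ?_)
    simp only
    rw [log_maxw hρ' hT]
    rfl

theorem gibbs_pointwise {g f : ℝ} (hg : 0 ≤ g) (hf : 0 < f) :
    0 ≤ g * log g - g * log f - g + f ∧ (g * log g - g * log f - g + f = 0 → g = f) := by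
  rcases hg.eq_or_lt with rfl | hg'
  · simp [hf.le, hf.ne']
  have h : g * log g - g * log f - g + f = g * (f / g - 1 - log (f / g)) := by
    rw [log_div hf.ne' hg'.ne']; field_simp; ring
  refine ⟨h ▸ mul_nonneg hg (by linarith [log_le_sub_one_of_pos (div_pos hf hg')]), fun e => ?_⟩
  rw [h] at e
  by_contra hne
  have := log_lt_sub_one_of_pos (div_pos hf hg')
    fun e1 => hne ((div_eq_one_iff_eq hg'.ne').1 e1).symm
  rcases mul_eq_zero.1 e with e | e <;> linarith

/-- A uniform Maxwellian of temperature at most one is its only admissible competitor. -/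
theorem eq_maxw (hρ : 0 ≤ ρ) (hT : 0 < T) (hT1 : T ≤ 1) {F : Phase → ℝ}
    (h : EntropyAdmissible (maxw ρ u T) F) : F =ᵐ[volume] maxw ρ u T := by
  obtain ⟨h0, hi, he, hl, hm, hp, hE, hH⟩ := h
  rcases hρ.eq_or_lt with rfl | hρ'
  · have e : maxw 0 u T = 0 := funext fun p => by simp [maxw]
    rw [e] at hm ⊢
    exact (integral_eq_zero_iff_of_nonneg_ae h0 hi).1 (hm.trans (by simp))
  obtain ⟨g0, gi, ge, gl, -⟩ := maxw_admissible (u := u) hρ hT
  set F₀ := maxw ρ u T
  set a := log (ρ * (2 * π * T) ^ (-(3 / 2) : ℝ)) - log ((2 * π) ^ (-(3 / 2) : ℝ)) -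
    normSqV u / (2 * T)
  set c := 1 / 2 - 1 / (2 * T)
  have hc : c ≤ 0 := by
    have : (1 : ℝ) / 2 ≤ 1 / (2 * T) := one_div_le_one_div_of_le (by positivity) (by linarith)
    simp only [c]; linarith
  have hlog : ∀ p : Phase,
      log (F₀ p) = log (refM p) + (a + (∑ i, u i / T * p.2 i) + c * normSqV p.2) := fun p => by
    rw [log_maxw hρ' hT, log_refM]
    simp only [a, c, normSqV, Fin.sum_univ_three, Pi.sub_apply]
    field_simp
    ring
  have hv : ∀ (G : Phase → ℝ), Integrable G → Integrable (fun p => G p * normSqV p.2) →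
      ∀ i, Integrable fun p => p.2 i * G p := fun G h1 h2 i => by
    refine Integrable.mono' (h1.abs.add h2.abs)
      (((continuous_apply i).comp continuous_snd).aestronglyMeasurable.mul h1.1)
      (.of_forall fun p => ?_)
    have : |p.2 i| ≤ 1 + normSqV p.2 := by
      have := Finset.single_le_sum (fun j _ => sq_nonneg (p.2 j)) (Finset.mem_univ i)
      unfold normSqV
      nlinarith [sq_abs (p.2 i), abs_nonneg (p.2 i), sq_nonneg (|p.2 i| - 1)]
    simp only [norm_eq_abs, Pi.add_apply, abs_mul, abs_of_nonneg (normSqV_nonneg p.2)]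
    nlinarith [mul_le_mul_of_nonneg_right this (abs_nonneg (G p))]
  -- the entropy relative to the datum, in terms of the conserved quantities
  have key : ∀ G : Phase → ℝ, (∀ᵐ p, 0 ≤ G p) → Integrable G →
      Integrable (fun p => G p * normSqV p.2) → Integrable (fun p => G p * |log (G p)|) →
      Integrable (fun p => G p * log (G p) - G p * log (F₀ p) - G p + F₀ p) ∧
      ∫ p, (G p * log (G p) - G p * log (F₀ p) - G p + F₀ p) =
        hEnt G - a * (∫ p, G p) - (∑ i, u i / T * ∫ p, p.2 i * G p) -
          c * (∫ p, G p * normSqV p.2) + ((∫ p, F₀ p) - ∫ p, refM p) := by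
    intro G n0 n1 n2 n3
    have m1 : Integrable fun p => G p * log (G p) :=
      n3.mono (n1.1.mul (measurable_log.comp_aemeasurable n1.1.aemeasurable).aestronglyMeasurable)
        (.of_forall fun p => by simp [abs_mul])
    have m2 : Integrable fun p => G p * log (refM p) :=
      ((n1.mul_const (log ((2 * π) ^ (-(3 / 2) : ℝ)))).sub (n2.div_const 2)).congr
        (.of_forall fun p => by simp only [Pi.sub_apply, log_refM]; ring)
    have m3 : Integrable fun p => G p * log (G p) - G p * log (refM p) - G p + refM p :=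
      ((m1.sub m2).sub n1).add integrable_refM
    have m4 : Integrable fun p => ∑ i, u i / T * (p.2 i * G p) :=
      integrable_finsetSum _ fun i _ => (hv G n1 n2 i).const_mul _
    have eH : hEnt G = ∫ p, (G p * log (G p) - G p * log (refM p) - G p + refM p) := by
      refine integral_congr_ae (n0.mono fun p hp => ?_)
      rcases hp.eq_or_lt with hz | hz
      · simp [← hz]
      · show G p * log (G p / refM p) - G p + refM p = _
        rw [log_div hz.ne' (show refM p ≠ 0 from (by unfold refM; positivity : 0 < refM p).ne')]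
        ring
    have e1 : ∀ p, G p * log (G p) - G p * log (F₀ p) - G p + F₀ p =
        G p * log (G p) - G p * log (refM p) - G p + refM p - a * G p -
          (∑ i, u i / T * (p.2 i * G p)) - c * (G p * normSqV p.2) + (F₀ p - refM p) :=
      fun p => by
        rw [hlog]
        simp only [mul_add, Finset.mul_sum]
        rw [Finset.sum_congr rfl fun i _ =>
          show G p * (u i / T * p.2 i) = u i / T * (p.2 i * G p) by ring]
        ring
    simp only [e1]
    have i1 : Integrable fun p => G p * log (G p) - G p * log (refM p) - G p + refM p - a * G p :=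
      m3.sub (n1.const_mul a)
    have i2 : Integrable fun p => G p * log (G p) - G p * log (refM p) - G p + refM p - a * G p -
        ∑ i, u i / T * (p.2 i * G p) := i1.sub m4
    have i3 : Integrable fun p => G p * log (G p) - G p * log (refM p) - G p + refM p - a * G p -
        (∑ i, u i / T * (p.2 i * G p)) - c * (G p * normSqV p.2) := i2.sub (n2.const_mul c)
    have i4 : Integrable fun p => F₀ p - refM p := gi.sub integrable_refM
    refine ⟨i3.add i4, ?_⟩
    rw [integral_add i3 i4, integral_sub i2 (n2.const_mul c),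
      integral_sub i1 m4, integral_sub m3 (n1.const_mul a), integral_sub gi integrable_refM,
      integral_finsetSum _ fun i _ => (hv G n1 n2 i).const_mul _, eH]
    simp only [integral_const_mul]
  obtain ⟨iF, eF⟩ := key F h0 hi he hl
  obtain ⟨-, e0⟩ := key F₀ g0 gi ge gl
  simp only [sub_self, zero_sub, neg_add_cancel, integral_zero] at e0
  have hpos : ∀ p, 0 < F₀ p := fun p => by
    show 0 < maxw ρ u T p
    unfold maxw; positivity
  have hle : ∫ p, (F p * log (F p) - F p * log (F₀ p) - F p + F₀ p) ≤ 0 := by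
    rw [eF, e0, hm]
    simp only [hp]
    nlinarith [mul_le_mul_of_nonpos_left hE hc]
  have hnn : 0 ≤ᵐ[volume] fun p => F p * log (F p) - F p * log (F₀ p) - F p + F₀ p :=
    h0.mono fun p h => (gibbs_pointwise h (hpos p)).1
  filter_upwards [h0, (integral_eq_zero_iff_of_nonneg_ae hnn iF).1
    (le_antisymm hle (integral_nonneg_of_ae hnn))] with p h1 h2
  exact (gibbs_pointwise h1 (hpos p)).2 h2

end

end Vale.Agent.P140
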