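import Mathlib

/-!
P140: smooth approximations of the positive part.
-/

namespace Vale.Agent.P140.Homog

open MeasureTheory Real Set Filter
open scoped Topology ContDiff

noncomputable section

/-- A smooth step. -/
def sS (n : ℕ) (y : ℝ) : ℝ := Real.smoothTransition (y * (n + 1))

/-- Its primitive, a smooth positive part. -/
def sP (n : ℕ) (y : ℝ) : ℝ := ∫ u in (0 : ℝ)..y, sS n u

variable (n : ℕ)

theorem contDiff_sS : ContDiff ℝ ∞ (sS n) :=
  Real.smoothTransition.contDiff.comp (contDiff_id.mul contDiff_const)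

theorem continuous_sS : Continuous (sS n) := (contDiff_sS n).continuous

theorem continuous_deriv_sS : Continuous (deriv (sS n)) :=
  (contDiff_sS n).continuous_deriv (by decide)

theorem sS_nonneg (y : ℝ) : 0 ≤ sS n y := Real.smoothTransition.nonneg _

theorem sS_le_one (y : ℝ) : sS n y ≤ 1 := Real.smoothTransition.le_one _

theorem abs_sS_le (y : ℝ) : |sS n y| ≤ 1 := by rw [abs_of_nonneg (sS_nonneg n y)]; exact sS_le_one n y

theorem sS_nonpos {y : ℝ} (hy : y ≤ 0) : sS n y = 0 :=
  Real.smoothTransition.zero_of_nonpos (mul_nonpos_of_nonpos_of_nonneg hy (by positivity))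

theorem deriv_sS_neg {y : ℝ} (hy : y < 0) : deriv (sS n) y = 0 := by
  refine ((hasDerivAt_const y (0 : ℝ)).congr_of_eventuallyEq ?_).deriv
  filter_upwards [Iio_mem_nhds hy] with u hu using sS_nonpos n (le_of_lt hu)

theorem deriv_sS_bound : ∃ L : ℝ, 0 ≤ L ∧ ∀ y, |deriv (sS n) y| ≤ L := by
  have hc : HasCompactSupport (deriv (sS n)) := by
    refine HasCompactSupport.intro (isCompact_Icc (a := (0 : ℝ)) (b := 1)) fun y hy => ?_
    rcases lt_or_ge y 0 with h | h
    · exact deriv_sS_neg n h
    · have h1 : 1 < y := not_le.1 fun h' => hy ⟨h, h'⟩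
      refine ((hasDerivAt_const y (1 : ℝ)).congr_of_eventuallyEq ?_).deriv
      filter_upwards [Ioi_mem_nhds h1] with u hu
      exact Real.smoothTransition.one_of_one_le
        (by nlinarith [mem_Ioi.1 hu, (Nat.cast_nonneg n : (0 : ℝ) ≤ n)])
  obtain ⟨L, hL⟩ := (continuous_deriv_sS n).bounded_above_of_compact_support hc
  exact ⟨L, (norm_nonneg _).trans (hL 0), hL⟩

theorem hasDerivAt_sP (y : ℝ) : HasDerivAt (sP n) (sS n y) y :=
  ((continuous_sS n).integral_hasStrictDerivAt 0 y).hasDerivAt

theorem deriv_sP : deriv (sP n) = sS n := funext fun y => (hasDerivAt_sP n y).deriv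

theorem contDiff_sP : ContDiff ℝ 1 (sP n) :=
  contDiff_one_iff_deriv.2 ⟨fun y => (hasDerivAt_sP n y).differentiableAt,
    deriv_sP n ▸ continuous_sS n⟩

theorem sP_nonpos {y : ℝ} (hy : y ≤ 0) : sP n y = 0 := by
  rw [sP]
  refine (intervalIntegral.integral_congr fun u hu => ?_).trans intervalIntegral.integral_zero
  rw [uIcc_of_ge hy] at hu
  exact sS_nonpos n hu.2

theorem abs_sP_le (y : ℝ) : |sP n y| ≤ max y 0 := by
  rcases le_total y 0 with hy | hy
  · simp [sP_nonpos n hy]
  · rw [max_eq_left hy, sP]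
    have := intervalIntegral.norm_integral_le_of_norm_le_const (a := (0 : ℝ)) (b := y)
      (f := sS n) (C := 1) (fun u _ => abs_sS_le n u)
    simpa [abs_of_nonneg hy] using this

theorem tendsto_sS (y : ℝ) :
    Tendsto (fun n => sS n y) atTop (𝓝 ((Ioi (0 : ℝ)).indicator 1 y)) := by
  by_cases hy : 0 < y
  · rw [indicator_of_mem (mem_Ioi.2 hy)]
    refine tendsto_const_nhds.congr' ?_
    obtain ⟨N, hN⟩ := exists_nat_ge (1 / y)
    filter_upwards [eventually_ge_atTop N] with n hn
    refine (Real.smoothTransition.one_of_one_le ?_).symm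
    rw [div_le_iff₀ hy] at hN
    nlinarith [(Nat.cast_le (α := ℝ)).2 hn]
  · rw [indicator_of_notMem (s := Ioi (0 : ℝ)) hy]
    simp [sS_nonpos _ (not_lt.1 hy)]

theorem tendsto_sP (y : ℝ) : Tendsto (fun n => sP n y) atTop (𝓝 (max y 0)) := by
  rcases le_total y 0 with hy | hy
  · simp [sP_nonpos _ hy, max_eq_right hy]
  · rw [max_eq_left hy]
    have h1 : (y : ℝ) = ∫ _u in (0 : ℝ)..y, (1 : ℝ) := by simp
    rw [h1]
    simp only [intervalIntegral.integral_const, smul_eq_mul, mul_one, sub_zero]
    have := intervalIntegral.tendsto_integral_filter_of_dominated_convergence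
      (F := fun n => sS n) (f := fun _ => (1 : ℝ)) (a := (0 : ℝ)) (b := y) (μ := volume)
      (l := atTop) (fun _ => 1)
      (Eventually.of_forall fun n => (continuous_sS n).aestronglyMeasurable)
      (Eventually.of_forall fun n => Eventually.of_forall fun u _ => abs_sS_le n u)
      intervalIntegrable_const
      (Eventually.of_forall fun u hu => by
        rw [uIoc_of_le hy] at hu
        simpa [indicator_of_mem (mem_Ioi.2 hu.1)] using tendsto_sS u)
    simpa [sP] using this

end

end Vale.Agent.P140.Homog
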