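import Vale.Agent.P140.Classical
import Vale.Agent.P140.Weak

/-!
P140: the renormalized equation, averaged in space, as an equation in time for almost every
velocity.
-/

namespace Vale.Agent.P140.Homog

open MeasureTheory Real Set
open scoped ENNReal NNReal ContDiff

noncomputable section

instance instPosProb : IsProbabilityMeasure (volume : Measure Pos) :=
  ⟨by rw [volume_pi, Measure.pi_univ]; simp⟩

theorem refMax_pos (v : Vel) : 0 < refMax v := by unfold refMax; positivity

theorem measurable_refMax : Measurable refMax := by unfold refMax; fun_prop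

/-- A renormalization with constant `C`. -/
structure IsRenorm (β : ℝ → ℝ) (C : ℝ) : Prop where
  smooth : ContDiff ℝ 1 β
  zero : β 0 = 0
  bound : ∀ z, 0 ≤ z → |deriv β z| ≤ C / (1 + z)

namespace IsRenorm

variable {β : ℝ → ℝ} {C : ℝ} (hβ : IsRenorm β C)
include hβ

theorem const_nonneg : 0 ≤ C := by simpa using (abs_nonneg _).trans (hβ.bound 0 le_rfl)

theorem abs_le {z : ℝ} (hz : 0 ≤ z) : |β z| ≤ C * z := by
  have h := (convex_Ici (0 : ℝ)).norm_image_sub_le_of_norm_deriv_le
    (fun x _ => hβ.smooth.differentiable (by decide) x)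
    (fun x hx => (hβ.bound x hx).trans (div_le_self hβ.const_nonneg (by linarith [mem_Ici.1 hx])))
    self_mem_Ici (mem_Ici.2 hz)
  simpa [hβ.zero, abs_of_nonneg hz] using h

theorem measurable : Measurable β := hβ.smooth.continuous.measurable

theorem measurable_deriv : Measurable (deriv β) := (hβ.smooth.continuous_deriv le_rfl).measurable

end IsRenorm

theorem integrable_assoc {α β γ : Type*} [MeasurableSpace α] [MeasurableSpace β] [MeasurableSpace γ]
    {μ : Measure α} {ν : Measure β} {τ : Measure γ} [SFinite μ] [SFinite ν] [SFinite τ]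
    {f : α × β × γ → ℝ} (hf : Integrable f (μ.prod (ν.prod τ))) :
    Integrable (fun q : (α × β) × γ => f (q.1.1, q.1.2, q.2)) ((μ.prod ν).prod τ) :=
  (measurePreserving_prodAssoc μ ν τ).integrable_comp_of_integrable hf

theorem integrable_reorder {α β γ : Type*} [MeasurableSpace α] [MeasurableSpace β]
    [MeasurableSpace γ] {μ : Measure α} {ν : Measure β} {τ : Measure γ} [SFinite μ] [SFinite ν]
    [SFinite τ] {f : α × β × γ → ℝ} (hf : Integrable f (μ.prod (ν.prod τ))) :
    Integrable (fun q : (α × γ) × β => f (q.1.1, q.2, q.1.2)) ((μ.prod τ).prod ν) :=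
  (((MeasurePreserving.id μ).prod (Measure.measurePreserving_swap (μ := τ) (ν := ν))).comp
    (measurePreserving_prodAssoc μ τ ν)).integrable_comp_of_integrable hf

/-- A function whose primitive vanishes at rational times vanishes almost everywhere. -/
theorem ae_zero_of_primitive_rat {f : ℝ → ℝ} (hf : ∀ T, IntegrableOn f (Ioc 0 T))
    (h : ∀ q : ℚ, ∫ s in Ioc (0 : ℝ) q, f s = 0) : ∀ᵐ t, t ∈ Ioi (0 : ℝ) → f t = 0 := by
  set g := (Ioi (0 : ℝ)).indicator f with hg
  have hloc : LocallyIntegrable g := by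
    refine locallyIntegrable_iff.2 fun k hk => ?_
    obtain ⟨R, hR⟩ := hk.bddAbove
    rw [IntegrableOn, hg, integrable_indicator_iff measurableSet_Ioi, IntegrableOn,
      Measure.restrict_restrict measurableSet_Ioi]
    exact (hf R).mono_set fun x hx => ⟨hx.1, hR hx.2⟩
  have hcont : Continuous fun t => ∫ s in (0 : ℝ)..t, g s :=
    intervalIntegral.continuous_primitive
      (fun a b => intervalIntegrable_iff.2
        ((hloc.integrableOn_isCompact isCompact_uIcc).mono_set uIoc_subset_uIcc)) 0
  have hzero : (fun t => ∫ s in (0 : ℝ)..t, g s) = fun _ => 0 := by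
    refine hcont.ext_on Rat.denseRange_cast continuous_const ?_
    rintro _ ⟨q, rfl⟩
    rcases le_total (0 : ℝ) q with hq | hq
    · show ∫ s in (0 : ℝ)..(q : ℝ), g s = 0
      rw [intervalIntegral.integral_of_le hq]
      refine Eq.trans ?_ (h q)
      exact setIntegral_congr_fun (measurableSet_Ioc (a := (0 : ℝ)) (b := (q : ℝ)))
        fun s hs => indicator_of_mem (s := Ioi (0 : ℝ)) hs.1 f
    · show ∫ s in (0 : ℝ)..(q : ℝ), g s = 0
      rw [intervalIntegral.integral_of_ge hq, neg_eq_zero]
      exact setIntegral_eq_zero_of_forall_eq_zero fun s hs =>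
        indicator_of_notMem (s := Ioi (0 : ℝ)) (fun hm => lt_irrefl (0 : ℝ) (lt_of_lt_of_le hm hs.2)) _
  filter_upwards [LocallyIntegrable.ae_hasDerivAt_integral hloc] with t ht ht'
  have h1 := ht 0
  rw [hzero] at h1
  rw [← indicator_of_mem ht' f]
  exact h1.unique (hasDerivAt_const t 0)

/-- `F / M`. -/
def rG (F : ℝ → Pos → Vel → ℝ) (p : ℝ × Pos × Vel) : ℝ := F p.1 p.2.1 p.2.2 / refMax p.2.2

/-- The collision operator at a point. -/
def qd (F : ℝ → Pos → Vel → ℝ) (p : ℝ × Pos × Vel) : ℝ :=
  (gain (F p.1 p.2.1) p.2.2).toReal - (loss (F p.1 p.2.1) p.2.2).toReal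

/-- The renormalized size of the collision operator. -/
def qw (F : ℝ → Pos → Vel → ℝ) (p : ℝ × Pos × Vel) : ℝ :=
  ((gain (F p.1 p.2.1) p.2.2).toReal + (loss (F p.1 p.2.1) p.2.2).toReal) / (1 + rG F p)

/-- Time in `(0, T]`. -/
abbrev timeM (T : ℝ) : Measure ℝ := volume.restrict (Ioc 0 T)

/-- Time in `(0, T]`, position and velocity. -/
abbrev stM (T : ℝ) : Measure (ℝ × Pos × Vel) := (timeM T).prod (volume.prod volume)

attribute [local irreducible] gain loss

namespace IsRenormSol

variable {d : Datum} {F : ℝ → Pos → Vel → ℝ} (h : IsRenormSol d.f₀ F)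
include h

theorem measurable_rG : Measurable (rG F) :=
  h.meas.div (measurable_refMax.comp measurable_snd.snd)

theorem rG_nonneg (p : ℝ × Pos × Vel) : 0 ≤ rG F p :=
  div_nonneg (h.nonneg _ _ _) (refMax_pos _).le

theorem measurable_gainF :
    Measurable fun p : ℝ × Pos × Vel => gain (F p.1 p.2.1) p.2.2 := by
  have hm : Measurable (fun r : (ℝ × Pos) × Vel => F r.1.1 r.1.2 r.2) :=
    h.meas.comp (measurable_fst.fst.prodMk (measurable_fst.snd.prodMk measurable_snd))
  have hg : Measurable (fun r : (ℝ × Pos) × Vel => gain (F r.1.1 r.1.2) r.2) :=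
    measurable_gain_uncurry (G := fun q : ℝ × Pos => F q.1 q.2) hm
  have he : Measurable (fun p : ℝ × Pos × Vel => ((p.1, p.2.1), p.2.2)) :=
    (measurable_fst.prodMk measurable_snd.fst).prodMk measurable_snd.snd
  exact Measurable.fun_comp hg he

theorem measurable_lossF :
    Measurable fun p : ℝ × Pos × Vel => loss (F p.1 p.2.1) p.2.2 := by
  have hm : Measurable (fun r : (ℝ × Pos) × Vel => F r.1.1 r.1.2 r.2) :=
    h.meas.comp (measurable_fst.fst.prodMk (measurable_fst.snd.prodMk measurable_snd))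
  have hg : Measurable (fun r : (ℝ × Pos) × Vel => loss (F r.1.1 r.1.2) r.2) :=
    measurable_loss_uncurry (G := fun q : ℝ × Pos => F q.1 q.2) hm
  have he : Measurable (fun p : ℝ × Pos × Vel => ((p.1, p.2.1), p.2.2)) :=
    (measurable_fst.prodMk measurable_snd.fst).prodMk measurable_snd.snd
  exact Measurable.fun_comp hg he

theorem measurable_slice (t : ℝ) : Measurable fun p : Pos × Vel => F t p.1 p.2 :=
  h.meas.comp measurable_prodMk_left

theorem integrable_slice {t : ℝ} (ht : 0 ≤ t) : Integrable fun p : Pos × Vel => F t p.1 p.2 :=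
  (h.integ t ht).mono' (h.measurable_slice t).aestronglyMeasurable
    (Filter.Eventually.of_forall fun p => by
      rw [Real.norm_eq_abs, abs_of_nonneg (h.nonneg _ _ _)]
      exact le_mul_of_one_le_right (h.nonneg _ _ _) (by nlinarith [sq_nonneg ‖p.2‖]))

omit h in
theorem integrable_f₀ : Integrable fun p : Pos × Vel => d.f₀ p.2 := by
  have := d.integ_pow (k := 0) (by omega)
  simp only [pow_zero, one_mul] at this
  exact this.comp_snd volume

/-- Mass is conserved for all times. -/
theorem mass_eq {t : ℝ} (ht : 0 ≤ t) : ∫ p : Pos × Vel, F t p.1 p.2 = d.m 0 := by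
  have hc := h.weak_cont (fun _ => 1) measurable_const ⟨1, fun _ => by simp⟩
  simp only [one_mul] at hc
  have h0 : ∫ p : Pos × Vel, d.f₀ p.2 = d.m 0 := by
    rw [Measure.volume_eq_prod, integral_fun_snd]
    simp [Datum.m]
  have ha : ∀ T, IntegrableOn (fun t => ∫ p : Pos × Vel, F t p.1 p.2) (Ioc (0 : ℝ) T) := fun T =>
    ((hc.mono Icc_subset_Ici_self).integrableOn_compact isCompact_Icc).mono_set Ioc_subset_Icc_self
  have hae := weak_ode (a0 := d.m 0) ha (b := fun _ => 0) (fun T => integrableOn_zero)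
    fun χ hχ hχc => by
      simpa [h0] using h.mass χ hχ hχc
  simp only [intervalIntegral.integral_zero, add_zero] at hae
  have heq : EqOn (fun t => ∫ p : Pos × Vel, F t p.1 p.2) (fun _ => d.m 0) (Ioi 0) :=
    Measure.eqOn_open_of_ae_eq ((ae_restrict_iff' measurableSet_Ioi).2 hae) isOpen_Ioi
      (hc.mono Ioi_subset_Ici_self) continuousOn_const
  exact heq.of_subset_closure hc continuousOn_const Ioi_subset_Ici_self
    (by rw [closure_Ioi]) ht

theorem integrable_F (T : ℝ) : Integrable (fun p => F p.1 p.2.1 p.2.2) (stM T) := by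
  rw [integrable_prod_iff h.meas.aestronglyMeasurable]
  refine ⟨(ae_restrict_iff' measurableSet_Ioc).2 (Filter.Eventually.of_forall fun t ht =>
    h.integrable_slice ht.1.le), ?_⟩
  refine (integrable_const (d.m 0)).congr ((ae_restrict_iff' measurableSet_Ioc).2
    (Filter.Eventually.of_forall fun t ht => ?_))
  simp only [Real.norm_eq_abs, abs_of_nonneg (h.nonneg _ _ _)]
  exact (h.mass_eq ht.1.le).symm

theorem qw_nonneg (p : ℝ × Pos × Vel) : 0 ≤ qw F p :=
  div_nonneg (add_nonneg ENNReal.toReal_nonneg ENNReal.toReal_nonneg)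
    (by linarith [h.rG_nonneg p])

theorem measurable_qw : Measurable (qw F) :=
  (h.measurable_gainF.ennreal_toReal.add h.measurable_lossF.ennreal_toReal).div
    (h.measurable_rG.const_add 1)

theorem integrable_qw (T : ℝ) : Integrable (qw F) (stM T) := by
  refine ⟨h.measurable_qw.aestronglyMeasurable,
    (hasFiniteIntegral_iff_ofReal (Filter.Eventually.of_forall h.qw_nonneg)).2 ?_⟩
  have hb : ∀ (a : ℝ≥0∞) (p : ℝ × Pos × Vel),
      ENNReal.ofReal (a.toReal / (1 + rG F p)) ≤ a / (1 + ENNReal.ofReal (rG F p)) := fun a p => by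
    rw [ENNReal.ofReal_div_of_pos (by linarith [h.rG_nonneg p]),
      ENNReal.ofReal_add zero_le_one (h.rG_nonneg p), ENNReal.ofReal_one]
    exact ENNReal.div_le_div_right ENNReal.ofReal_toReal_le _
  calc ∫⁻ p, ENNReal.ofReal (qw F p) ∂stM T
      ≤ ∫⁻ p, (gain (F p.1 p.2.1) p.2.2 / (1 + ENNReal.ofReal (rG F p))
          + loss (F p.1 p.2.1) p.2.2 / (1 + ENNReal.ofReal (rG F p))) ∂stM T :=
        lintegral_mono fun p => by
          rw [qw, add_div]
          exact ENNReal.ofReal_add_le.trans (add_le_add (hb _ p) (hb _ p))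
    _ < ⊤ := by
        have hg := h.measurable_gainF.fun_div ((h.measurable_rG.ennreal_ofReal).const_add 1)
        have hl := h.measurable_lossF.fun_div ((h.measurable_rG.ennreal_ofReal).const_add 1)
        rw [lintegral_add_left hg, lintegral_prod _ hg.aemeasurable, lintegral_prod _ hl.aemeasurable]
        exact ENNReal.add_lt_top.2 ⟨h.gain_fin T, h.loss_fin T⟩

theorem abs_mul_qd_le {a C : ℝ} {p : ℝ × Pos × Vel} (ha : |a| ≤ C / (1 + rG F p)) :
    |a * qd F p| ≤ C * qw F p := by
  rw [abs_mul, qw, mul_div_assoc', ← div_mul_eq_mul_div]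
  refine mul_le_mul ha ((abs_sub _ _).trans (le_of_eq ?_)) (abs_nonneg _) ((abs_nonneg a).trans ha)
  rw [ENNReal.abs_toReal, ENNReal.abs_toReal]

theorem measurable_qd : Measurable (qd F) :=
  h.measurable_gainF.ennreal_toReal.sub h.measurable_lossF.ennreal_toReal

/-- The renormalized equation holds in integrated form for almost every velocity. -/
theorem renorm_ae {β : ℝ → ℝ} {C : ℝ} (hβ : IsRenorm β C) :
    ∀ᵐ v, ∀ᵐ t, t ∈ Ioi (0 : ℝ) →
      ∫ x, refMax v * β (rG F (t, x, v)) = refMax v * β (d.f₀ v / refMax v)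
        + ∫ s in (0 : ℝ)..t, ∫ x, deriv β (rG F (s, x, v)) * qd F (s, x, v) := by
  set a : ℝ × Pos × Vel → ℝ := fun p => refMax p.2.2 * β (rG F p) with ha
  set k : ℝ × Pos × Vel → ℝ := fun p => deriv β (rG F p) * qd F p with hk
  set A : ℝ → Vel → ℝ := fun t v => ∫ x, a (t, x, v) with hA
  set D : ℝ → Vel → ℝ := fun t v => ∫ x, k (t, x, v) with hD
  set A0 : Vel → ℝ := fun v => refMax v * β (d.f₀ v / refMax v) with hA0
  set ζ : ℝ × Vel → ℝ := fun q => A q.1 q.2 - A0 q.2 - ∫ s in (0 : ℝ)..q.1, D s q.2 with hζ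
  have ham : Measurable a :=
    (measurable_refMax.comp measurable_snd.snd).mul (hβ.measurable.comp h.measurable_rG)
  have hkm : Measurable k := (hβ.measurable_deriv.comp h.measurable_rG).mul h.measurable_qd
  have hab : ∀ p, |a p| ≤ C * F p.1 p.2.1 p.2.2 := fun p => by
    rw [ha, abs_mul, abs_of_pos (refMax_pos _)]
    refine (mul_le_mul_of_nonneg_left (hβ.abs_le (h.rG_nonneg p)) (refMax_pos _).le).trans
      (le_of_eq ?_)
    rw [rG]
    field_simp [(refMax_pos p.2.2).ne']
  have hai : ∀ T, Integrable a (stM T) := fun T =>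
    ((h.integrable_F T).const_mul C).mono' ham.aestronglyMeasurable
      (Filter.Eventually.of_forall hab)
  have hki : ∀ T, Integrable k (stM T) := fun T =>
    ((h.integrable_qw T).const_mul C).mono' hkm.aestronglyMeasurable
      (Filter.Eventually.of_forall fun p => h.abs_mul_qd_le (hβ.bound _ (h.rG_nonneg p)))
  have hAi : ∀ T, Integrable (fun q : ℝ × Vel => A q.1 q.2) ((timeM T).prod volume) := fun T =>
    (integrable_reorder (hai T)).integral_prod_left
  have hDi : ∀ T, Integrable (fun q : ℝ × Vel => D q.1 q.2) ((timeM T).prod volume) := fun T =>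
    (integrable_reorder (hki T)).integral_prod_left
  have hA0i : Integrable A0 := by
    have h0 := d.integ_pow (k := 0) (by omega)
    simp only [pow_zero, one_mul] at h0
    refine (h0.const_mul C).mono' (measurable_refMax.mul
      (hβ.measurable.comp (d.meas.div measurable_refMax))).aestronglyMeasurable
      (Filter.Eventually.of_forall fun v => ?_)
    simp only [hA0, Real.norm_eq_abs, abs_mul, abs_of_pos (refMax_pos v)]
    refine (mul_le_mul_of_nonneg_left (hβ.abs_le (div_nonneg (d.nonneg v) (refMax_pos v).le))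
      (refMax_pos v).le).trans (le_of_eq ?_)
    field_simp [(refMax_pos v).ne']
  have hIeq : ∀ T : ℝ, ∀ q : ℝ × Vel, q.1 ∈ Ioc (0 : ℝ) T →
      ∫ s in (0 : ℝ)..q.1, D s q.2 = ∫ s, (Iic q.1).indicator (fun r => D r q.2) s ∂timeM T :=
    fun T q hq => by
      rw [intervalIntegral.integral_of_le hq.1.le, integral_indicator measurableSet_Iic,
        Measure.restrict_restrict measurableSet_Iic]
      congr 2
      ext s
      simp only [mem_inter_iff, mem_Iic, mem_Ioc]
      exact ⟨fun hs => ⟨hs.2, hs.1, hs.2.trans hq.2⟩, fun hs => ⟨hs.2.1, hs.1⟩⟩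
  have hIi : ∀ T, Integrable (fun q : ℝ × Vel => ∫ s in (0 : ℝ)..q.1, D s q.2)
      ((timeM T).prod volume) := fun T => by
    have h3 := integrable_reorder ((hDi T).comp_snd (timeM T))
    have hset : MeasurableSet {r : (ℝ × Vel) × ℝ | r.2 ≤ r.1.1} :=
      measurableSet_le measurable_snd measurable_fst.fst
    refine (h3.indicator hset).integral_prod_left.congr ?_
    have : ∀ᵐ q : ℝ × Vel ∂(timeM T).prod volume, q.1 ∈ Ioc (0 : ℝ) T :=
      Measure.quasiMeasurePreserving_fst.ae (ae_restrict_mem measurableSet_Ioc)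
    filter_upwards [this] with q hq
    rw [hIeq T q hq]
    refine integral_congr_ae (Filter.Eventually.of_forall fun s => ?_)
    simp [indicator_apply]
  have hζi : ∀ T, Integrable ζ ((timeM T).prod volume) := fun T =>
    ((hAi T).sub (hA0i.comp_snd (timeM T))).sub (hIi T)
  -- the equation tested in velocity
  have htest : ∀ ψ : Vel → ℝ, ContDiff ℝ ∞ ψ → HasCompactSupport ψ →
      ∀ᵐ t, t ∈ Ioi (0 : ℝ) → ∫ v, ψ v * ζ (t, v) = 0 := by
    intro ψ hψ hψc
    obtain ⟨B, hB⟩ := hψ.continuous.bounded_above_of_compact_support hψc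
    have hψm : AEStronglyMeasurable (fun p : ℝ × Vel => ψ p.2) :=
      (hψ.continuous.comp continuous_snd).aestronglyMeasurable
    have m3 : ∀ {g : ℝ × Pos × Vel → ℝ} T, Integrable g (stM T) →
        Integrable (fun p => g p * ψ p.2.2) (stM T) := fun T hg => by
      refine hg.mul_bdd (c := B) (hψ.continuous.comp continuous_snd.snd).aestronglyMeasurable
        (Filter.Eventually.of_forall fun p => hB _)
    have fub : ∀ {g : ℝ × Pos × Vel → ℝ} T, Integrable g (stM T) →
        ∀ᵐ t ∂timeM T, ∫ p : Pos × Vel, g (t, p) * ψ p.2 = ∫ v, ψ v * ∫ x, g (t, x, v) :=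
      fun T hg => by
        filter_upwards [(m3 T hg).prod_right_ae] with t ht
        rw [Measure.volume_eq_prod, integral_prod_symm _ ht]
        refine integral_congr_ae (Filter.Eventually.of_forall fun v => ?_)
        simp only
        rw [mul_comm (ψ v), ← integral_mul_const]
    have iA : ∀ T, IntegrableOn (fun t => ∫ p : Pos × Vel, a (t, p) * ψ p.2) (Ioc 0 T) := fun T =>
      (m3 T (hai T)).integral_prod_left
    have iD : ∀ T, IntegrableOn (fun t => ∫ p : Pos × Vel, k (t, p) * ψ p.2) (Ioc 0 T) := fun T =>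
      (m3 T (hki T)).integral_prod_left
    have hode := weak_ode (a0 := ∫ p : Pos × Vel, refMax p.2 * β (d.f₀ p.2 / refMax p.2) * ψ p.2)
      iA iD (fun χ hχ hχc =>
        h.renorm β hβ.smooth hβ.zero ⟨C, hβ.bound⟩ χ hχ hχc ψ hψ hψc)
    have hnat : ∀ᵐ t, ∀ n : ℕ, t ∈ Ioc (0 : ℝ) n →
        (∫ p : Pos × Vel, a (t, p) * ψ p.2 = ∫ v, ψ v * A t v) ∧
        Integrable (fun v => A t v) ∧ Integrable (fun v => ∫ s in (0 : ℝ)..t, D s v) :=
      ae_all_iff.2 fun n => (ae_restrict_iff' measurableSet_Ioc).1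
        ((fub (n : ℝ) (hai n)).and ((hAi n).prod_right_ae.and (hIi n).prod_right_ae))
    filter_upwards [hode, hnat] with t ht hn htpos
    obtain ⟨n, hnt⟩ := exists_nat_ge t
    obtain ⟨ea, iAt, iIt⟩ := hn n ⟨htpos, hnt⟩
    have e0 : ∫ p : Pos × Vel, refMax p.2 * β (d.f₀ p.2 / refMax p.2) * ψ p.2
        = ∫ v, ψ v * A0 v := by
      rw [Measure.volume_eq_prod, integral_fun_snd (fun v => refMax v * β (d.f₀ v / refMax v) * ψ v)]
      simp [hA0, mul_comm]
    have eD : ∫ s in (0 : ℝ)..t, ∫ p : Pos × Vel, k (s, p) * ψ p.2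
        = ∫ v, ψ v * ∫ s in (0 : ℝ)..t, D s v := by
      simp only [intervalIntegral.integral_of_le (le_of_lt htpos), ← integral_const_mul]
      rw [integral_congr_ae (fub t (hki t))]
      refine integral_integral_swap ?_
      exact (hDi t).bdd_mul (c := B) (hψ.continuous.comp continuous_snd).aestronglyMeasurable
        (Filter.Eventually.of_forall fun p => hB _)
    have hm : ∀ {g : Vel → ℝ}, Integrable g → Integrable fun v => ψ v * g v := fun hg =>
      hg.bdd_mul (c := B) hψ.continuous.aestronglyMeasurable (Filter.Eventually.of_forall hB)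
    simp only [hζ, mul_sub]
    rw [integral_sub, integral_sub (hm iAt) (hm hA0i), ← ea, ← e0, ← eD, ht htpos]
    · ring
    · exact (hm iAt).sub (hm hA0i)
    · exact hm iIt
  -- time primitives vanish
  have hZ : ∀ q : ℚ, ∀ᵐ v, ∫ t in Ioc (0 : ℝ) q, ζ (t, v) = 0 := by
    intro q
    refine ae_eq_zero_of_integral_contDiff_smul_eq_zero
      (hζi q).integral_prod_right.locallyIntegrable fun ψ hψ hψc => ?_
    obtain ⟨B, hB⟩ := hψ.continuous.bounded_above_of_compact_support hψc
    simp only [smul_eq_mul, ← integral_const_mul]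
    rw [← integral_integral_swap]
    · refine integral_eq_zero_of_ae ((ae_restrict_iff' measurableSet_Ioc).2 ?_)
      filter_upwards [htest ψ hψ hψc] with t ht ht' using ht ht'.1
    · exact (hζi q).bdd_mul (c := B) (hψ.continuous.comp continuous_snd).aestronglyMeasurable
        (Filter.Eventually.of_forall fun p => hB _)
  filter_upwards [ae_all_iff.2 hZ, ae_all_iff.2 fun n : ℕ => (hζi n).prod_left_ae] with v hv hi
  have hint : ∀ T, IntegrableOn (fun t => ζ (t, v)) (Ioc 0 T) := fun T => by
    obtain ⟨n, hn⟩ := exists_nat_ge T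
    exact IntegrableOn.mono_set (hi n) (Ioc_subset_Ioc le_rfl hn)
  filter_upwards [ae_zero_of_primitive_rat hint hv] with t ht ht'
  have := ht ht'
  simp only [hζ, hA, hA0, hD, ha, hk] at this ⊢
  linarith

end IsRenormSol

end

end Vale.Agent.P140.Homog
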