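import Vale.Agent.P140.Unique

/-!
P140: the homogeneous solution satisfies the definition.
-/

namespace Vale.Agent.P140.Homog

open MeasureTheory Real Set Filter
open scoped ENNReal Topology ContDiff

noncomputable section

attribute [local irreducible] gain loss

/-- A primitive satisfies its equation weakly. -/
theorem primitive_weak {b χ : ℝ → ℝ} {a0 R : ℝ} (hR : 0 ≤ R) (hb : ∀ T, IntegrableOn b (Ioc 0 T))
    (hχ : ContDiff ℝ ∞ χ) (hχR : χ R = 0) :
    (∫ t in Ioc 0 R, deriv χ t * (a0 + ∫ s in (0 : ℝ)..t, b s)) + χ 0 * a0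
      + ∫ t in Ioc 0 R, χ t * b t = 0 := by
  have hbi := intervalIntegrable_of_Ioc hb le_rfl hR
  have hA := ((LipschitzWith.const a0).lipschitzOnWith.absolutelyContinuousOnInterval (a := (0 : ℝ))
    (b := R)).add (hbi.absolutelyContinuousOnInterval_intervalIntegral left_mem_uIcc)
  have hχ1 : ContDiff ℝ 1 χ := hχ.of_le (by simp)
  have key := hχ1.contDiffOn.absolutelyContinuousOnInterval.integral_deriv_mul_eq_sub hA
  simp only [Pi.add_apply, hχR, intervalIntegral.integral_same, add_zero, zero_mul, zero_sub] at key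
  have i1 : IntervalIntegrable (fun t => deriv χ t * (a0 + ∫ s in (0 : ℝ)..t, b s)) volume 0 R :=
    ((hχ1.continuous_deriv le_rfl).continuousOn.mul hA.continuousOn).intervalIntegrable
  have i2 : IntervalIntegrable (fun t => χ t * b t) volume 0 R :=
    hbi.continuousOn_mul hχ.continuous.continuousOn
  rw [← intervalIntegral.integral_of_le hR, ← intervalIntegral.integral_of_le hR]
  have e : ∫ t in (0 : ℝ)..R, (deriv χ t * (a0 + ∫ s in (0 : ℝ)..t, b s) + χ t * b t)
      = -(χ 0 * a0) := by
    refine Eq.trans (intervalIntegral.integral_congr_ae ?_) key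
    filter_upwards [hbi.ae_hasDerivAt_integral] with t ht ht'
    have hd := ((ht (uIoc_subset_uIcc ht') 0 left_mem_uIcc).const_add a0).deriv
    rw [← hd]
    rfl
  rw [intervalIntegral.integral_add i1 i2] at e
  linarith

theorem setIntegral_Ioi_eq_Ioc {f : ℝ → ℝ} {R : ℝ} (h : ∀ t, R < t → f t = 0) :
    ∫ t in Ioi (0 : ℝ), f t = ∫ t in Ioc 0 R, f t :=
  setIntegral_eq_of_subset_of_forall_sdiff_eq_zero measurableSet_Ioi Ioc_subset_Ioi_self
    fun t ht => h t (not_le.1 fun h' => ht.2 ⟨ht.1, h'⟩)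

namespace Datum

variable (d : Datum)

theorem measurable_gain_gR : Measurable fun p : ℝ × Vel => gain (d.gR p.1) p.2 :=
  measurable_gain_uncurry (G := d.gR) d.measurable_gR

theorem measurable_loss_gR : Measurable fun p : ℝ × Vel => loss (d.gR p.1) p.2 :=
  measurable_loss_uncurry (G := d.gR) d.measurable_gR

/-- Gain plus loss is integrable in time and velocity. -/
theorem collision_integrable (N : ℕ) :
    Integrable (fun p : ℝ × Vel => (gain (d.gR p.1) p.2).toReal) ((timeM N).prod volume) ∧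
      Integrable (fun p : ℝ × Vel => (loss (d.gR p.1) p.2).toReal) ((timeM N).prod volume) := by
  have key : ∀ {Q : ℝ × Vel → ℝ≥0∞}, Measurable Q →
      (∀ v, ∫⁻ s in Ioc 0 (N : ℝ), Q (s, v) ≤ d.dom N v + (d.dom N v + d.dom N v)) →
      Integrable (fun p => (Q p).toReal) ((timeM N).prod volume) := fun {Q} hQ hle => by
    refine integrable_toReal_of_lintegral_ne_top hQ.aemeasurable ?_
    rw [lintegral_prod_symm' _ hQ]
    refine ne_top_of_le_ne_top ?_ (lintegral_mono hle)
    rw [lintegral_add_left (d.measurable_dom N), lintegral_add_left (d.measurable_dom N)]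
    exact ENNReal.add_ne_top.2 ⟨d.lintegral_dom_ne_top N,
      ENNReal.add_ne_top.2 ⟨d.lintegral_dom_ne_top N, d.lintegral_dom_ne_top N⟩⟩
  exact ⟨key d.measurable_gain_gR fun v => le_trans le_self_add (d.gain_loss_le_dom N v),
    key d.measurable_loss_gR fun v => le_trans le_add_self (d.gain_loss_le_dom N v)⟩

theorem integral_pow_f₀ (k : ℕ) :
    ∫ p : Pos × Vel, ‖p.2‖ ^ k * d.f₀ p.2 = d.m k := by
  rw [Measure.volume_eq_prod, integral_fun_snd (fun v => ‖v‖ ^ k * d.f₀ v)]
  simp [m]

/-- The homogeneous solution, as a function of time, position and velocity. -/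
def solX : ℝ → Pos → Vel → ℝ := fun t _ v => d.gR t v

theorem collision_fin {Q : ℝ × Vel → ℝ≥0∞} (hQ : Measurable Q) (T : ℝ)
    (hle : ∀ (N : ℕ) v, ∫⁻ s in Ioc 0 (N : ℝ), Q (s, v) ≤ d.dom N v + (d.dom N v + d.dom N v)) :
    ∫⁻ t in Ioc 0 T, ∫⁻ p : Pos × Vel,
      Q (t, p.2) / (1 + ENNReal.ofReal (d.gR t p.2 / refMax p.2)) < ⊤ := by
  obtain ⟨N, hN⟩ := exists_nat_ge T
  calc ∫⁻ t in Ioc 0 T, ∫⁻ p : Pos × Vel, Q (t, p.2) / (1 + ENNReal.ofReal (d.gR t p.2 / refMax p.2))
      ≤ ∫⁻ t in Ioc 0 (N : ℝ), ∫⁻ v, Q (t, v) := by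
        refine (lintegral_mono_set (Ioc_subset_Ioc le_rfl hN)).trans (lintegral_mono fun t => ?_)
        rw [Measure.volume_eq_prod, lintegral_prod _ ?_]
        · simp only [lintegral_const, measure_univ, mul_one]
          exact lintegral_mono fun v => ENNReal.div_le_of_le_mul
            (le_mul_of_one_le_right bot_le le_self_add)
        · exact ((hQ.comp (measurable_const.prodMk measurable_snd)).fun_div
            ((((d.measurable_gR.comp (measurable_const.prodMk measurable_snd)).div
              (measurable_refMax.comp measurable_snd)).ennreal_ofReal).const_add 1)).aemeasurable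
    _ = ∫⁻ v, ∫⁻ t in Ioc 0 (N : ℝ), Q (t, v) := lintegral_lintegral_swap hQ.aemeasurable
    _ < ⊤ := by
        refine lt_of_le_of_lt (lintegral_mono (hle N)) ?_
        rw [lintegral_add_left (d.measurable_dom N), lintegral_add_left (d.measurable_dom N)]
        exact ENNReal.add_lt_top.2 ⟨(d.lintegral_dom_ne_top N).lt_top,
          ENNReal.add_lt_top.2 ⟨(d.lintegral_dom_ne_top N).lt_top,
            (d.lintegral_dom_ne_top N).lt_top⟩⟩

theorem renorm_solX {β : ℝ → ℝ} {C : ℝ} (hβ : IsRenorm β C) {χ : ℝ → ℝ} (hχ : ContDiff ℝ ∞ χ)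
    (hχc : HasCompactSupport χ) {ψ : Vel → ℝ} (hψ : ContDiff ℝ ∞ ψ) (hψc : HasCompactSupport ψ) :
    (∫ t in Ioi (0 : ℝ), deriv χ t *
        ∫ p : Pos × Vel, refMax p.2 * β (d.gR t p.2 / refMax p.2) * ψ p.2)
      + χ 0 * (∫ p : Pos × Vel, refMax p.2 * β (d.f₀ p.2 / refMax p.2) * ψ p.2)
      + (∫ t in Ioi (0 : ℝ), χ t * ∫ p : Pos × Vel, deriv β (d.gR t p.2 / refMax p.2) *
          ((gain (d.gR t) p.2).toReal - (loss (d.gR t) p.2).toReal) * ψ p.2) = 0 := by
  obtain ⟨R₀, hR₀⟩ := hχc.isCompact.bddAbove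
  obtain ⟨N, hN⟩ := exists_nat_gt R₀
  have hχ0 : ∀ t, (N : ℝ) ≤ t → χ t = 0 := fun t ht =>
    image_eq_zero_of_notMem_tsupport fun h => absurd (hR₀ h) (not_le.2 (hN.trans_le ht))
  have hχd0 : ∀ t, (N : ℝ) < t → deriv χ t = 0 := fun t ht => by
    refine ((hasDerivAt_const t (0 : ℝ)).congr_of_eventuallyEq ?_).deriv
    filter_upwards [Ioi_mem_nhds ht] with s hs using hχ0 s (le_of_lt hs)
  have pull : ∀ f : Vel → ℝ, ∫ p : Pos × Vel, f p.2 = ∫ v, f v := fun f => by
    rw [Measure.volume_eq_prod, integral_fun_snd f]; simp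
  rw [setIntegral_Ioi_eq_Ioc (R := (N : ℝ)) fun t ht => by rw [hχd0 t ht, zero_mul],
    setIntegral_Ioi_eq_Ioc (R := (N : ℝ)) fun t ht => by rw [hχ0 t ht.le, zero_mul]]
  set a : ℝ → Vel → ℝ := fun t v => refMax v * β (d.gR t v / refMax v) * ψ v with ha
  set a0 : Vel → ℝ := fun v => refMax v * β (d.f₀ v / refMax v) * ψ v with ha0
  set b : ℝ → Vel → ℝ := fun t v => deriv β (d.gR t v / refMax v) *
    ((gain (d.gR t) v).toReal - (loss (d.gR t) v).toReal) * ψ v with hb
  have e1 : ∀ t, ∫ p : Pos × Vel, refMax p.2 * β (d.gR t p.2 / refMax p.2) * ψ p.2 = ∫ v, a t v :=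
    fun t => pull (a t)
  have e2 : ∫ p : Pos × Vel, refMax p.2 * β (d.f₀ p.2 / refMax p.2) * ψ p.2 = ∫ v, a0 v := pull a0
  have e3 : ∀ t, ∫ p : Pos × Vel, deriv β (d.gR t p.2 / refMax p.2) *
      ((gain (d.gR t) p.2).toReal - (loss (d.gR t) p.2).toReal) * ψ p.2 = ∫ v, b t v :=
    fun t => pull (b t)
  simp only [e1, e2, e3, ← integral_const_mul]
  obtain ⟨B, hB⟩ := hψ.continuous.bounded_above_of_compact_support hψc
  obtain ⟨X, hX⟩ := hχ.continuous.bounded_above_of_compact_support hχc
  obtain ⟨X', hX'⟩ := (hχ.continuous_deriv (by simp)).bounded_above_of_compact_support hχc.deriv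
  have hgm := d.measurable_gR
  have hgi : Integrable (fun p : ℝ × Vel => d.gR p.1 p.2) ((timeM N).prod volume) := by
    refine (((d.integrable_dom N).comp_snd (timeM N))).mono' hgm.aestronglyMeasurable ?_
    filter_upwards [Measure.quasiMeasurePreserving_fst.ae (ae_restrict_mem measurableSet_Ioc),
      Measure.quasiMeasurePreserving_snd.ae (d.dom_ae_ne_top.mono fun v hv => hv N)] with p hp hp'
    rw [Real.norm_eq_abs, abs_of_nonneg (d.gR_nonneg _ _)]
    exact ENNReal.toReal_mono hp' (d.sol_le_dom hp.1.le hp.2 _)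
  have hC := hβ.const_nonneg
  have hψm : Measurable ψ := hψ.continuous.measurable
  have habs : ∀ (g : ℝ) (v : Vel), 0 ≤ g → |refMax v * β (g / refMax v) * ψ v| ≤ C * g * B := by
    intro g v hg
    have hM := refMax_pos v
    rw [abs_mul, abs_mul, abs_of_pos hM]
    refine mul_le_mul ?_ (hB v) (abs_nonneg _) (mul_nonneg hC hg)
    refine (mul_le_mul_of_nonneg_left (hβ.abs_le (div_nonneg hg hM.le)) hM.le).trans (le_of_eq ?_)
    field_simp
  have hcm : Measurable fun p : ℝ × Vel => d.gR p.1 p.2 / refMax p.2 :=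
    hgm.div (measurable_refMax.comp measurable_snd)
  have hIa : Integrable (fun p : ℝ × Vel => a p.1 p.2) ((timeM N).prod volume) :=
    ((hgi.const_mul C).mul_const B).mono'
      (((measurable_refMax.comp measurable_snd).mul (hβ.measurable.comp hcm)).mul
        (hψm.comp measurable_snd)).aestronglyMeasurable
      (Eventually.of_forall fun p => habs _ _ (d.gR_nonneg _ _))
  have hIb : Integrable (fun p : ℝ × Vel => b p.1 p.2) ((timeM N).prod volume) := by
    have hi := (d.collision_integrable N).1.add (d.collision_integrable N).2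
    refine ((hi.const_mul C).mul_const B).mono' (((hβ.measurable_deriv.comp hcm).mul
      (d.measurable_gain_gR.ennreal_toReal.sub d.measurable_loss_gR.ennreal_toReal)).mul
        (hψm.comp measurable_snd)).aestronglyMeasurable (Eventually.of_forall fun p => ?_)
    simp only [hb, Real.norm_eq_abs, abs_mul, Pi.add_apply]
    have hz : 0 ≤ d.gR p.1 p.2 / refMax p.2 := div_nonneg (d.gR_nonneg _ _) (refMax_pos _).le
    refine mul_le_mul (mul_le_mul ((hβ.bound _ hz).trans (div_le_self hC (by linarith)))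
      ((abs_sub _ _).trans (le_of_eq (by rw [ENNReal.abs_toReal, ENNReal.abs_toReal])))
      (abs_nonneg _) hC) (hB _) (abs_nonneg _) ?_
    exact mul_nonneg hC (add_nonneg ENNReal.toReal_nonneg ENNReal.toReal_nonneg)
  have hI1 : Integrable (fun p : ℝ × Vel => deriv χ p.1 * a p.1 p.2) ((timeM N).prod volume) :=
    hIa.bdd_mul (c := X') ((hχ.continuous_deriv (by simp)).comp continuous_fst).aestronglyMeasurable
      (Eventually.of_forall fun p => hX' _)
  have hI3 : Integrable (fun p : ℝ × Vel => χ p.1 * b p.1 p.2) ((timeM N).prod volume) :=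
    hIb.bdd_mul (c := X) (hχ.continuous.comp continuous_fst).aestronglyMeasurable
      (Eventually.of_forall fun p => hX _)
  have hI2 : Integrable fun v => χ 0 * a0 v := by
    have h0 := d.integ_pow (k := 0) (by omega)
    simp only [pow_zero, one_mul] at h0
    exact (((h0.const_mul C).mul_const B).mono' ((measurable_refMax.mul (hβ.measurable.comp
      (d.meas.div measurable_refMax))).mul hψm).aestronglyMeasurable
        (Eventually.of_forall fun v => habs _ _ (d.nonneg v))).const_mul _
  have J1 : Integrable fun v => ∫ t, deriv χ t * a t v ∂timeM N := hI1.integral_prod_right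
  have J3 : Integrable fun v => ∫ t, χ t * b t v ∂timeM N := hI3.integral_prod_right
  rw [integral_integral_swap (f := fun t v => deriv χ t * a t v) hI1,
    integral_integral_swap (f := fun t v => χ t * b t v) hI3, ← integral_add J1 hI2,
    ← integral_add (J1.fun_add hI2) J3]
  refine integral_eq_zero_of_ae ?_
  filter_upwards [d.gR_equation] with v hv
  have hM := refMax_pos v
  have hgi' : ∀ T, IntegrableOn (fun s => (gain (d.gR s) v).toReal) (Ioc 0 T) ∧
      IntegrableOn (fun s => (loss (d.gR s) v).toReal) (Ioc 0 T) := fun T => by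
    rcases le_total 0 T with hT | hT
    · exact ⟨integrable_toReal_of_lintegral_ne_top
          (d.measurable_gain_gR.comp measurable_prodMk_right).aemeasurable (hv T hT).1.ne,
        integrable_toReal_of_lintegral_ne_top
          (d.measurable_loss_gR.comp measurable_prodMk_right).aemeasurable (hv T hT).2.1.ne⟩
    · simp [Ioc_eq_empty (not_lt.2 hT)]
  set q : ℝ → ℝ := fun s =>
    ((gain (d.gR s) v).toReal - (loss (d.gR s) v).toReal) / refMax v with hq
  have hqI : ∀ T, IntegrableOn q (Ioc 0 T) := fun T => ((hgi' T).1.sub (hgi' T).2).div_const _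
  have hγ : ∀ t, 0 ≤ t → d.gR t v / refMax v = d.f₀ v / refMax v + ∫ s in (0 : ℝ)..t, q s := by
    intro t ht
    rw [hq, intervalIntegral.integral_div, intervalIntegral.integral_sub
      (intervalIntegrable_of_Ioc (fun T => (hgi' T).1) le_rfl ht)
      (intervalIntegrable_of_Ioc (fun T => (hgi' T).2) le_rfl ht), ← add_div]
    congr 1
    linarith [(hv t ht).2.2]
  set c : ℝ → ℝ := fun t =>
    deriv β (d.gR t v / refMax v) * ((gain (d.gR t) v).toReal - (loss (d.gR t) v).toReal) * ψ v
    with hc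
  have hcI : ∀ T, IntegrableOn c (Ioc 0 T) := fun T => by
    refine (((hgi' T).1.sub (hgi' T).2).bdd_mul (c := C)
      ((hβ.measurable_deriv.comp ((d.measurable_gR.comp measurable_prodMk_right).div_const
        (refMax v))).aestronglyMeasurable) (Eventually.of_forall fun t => ?_)).mul_const (ψ v)
    have hz : 0 ≤ d.gR t v / refMax v := div_nonneg (d.gR_nonneg _ _) hM.le
    exact (hβ.bound _ hz).trans (div_le_self hC (by linarith))
  have hprim : ∀ t, 0 ≤ t → a t v = a0 v + ∫ s in (0 : ℝ)..t, c s := by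
    intro t ht
    have h := chain_primitive (c := d.f₀ v / refMax v) hβ.smooth hqI le_rfl ht
    rw [intervalIntegral.integral_same, add_zero, ← hγ t ht] at h
    have hcc : ∫ s in (0 : ℝ)..t, c s = refMax v * ψ v *
        ∫ τ in (0 : ℝ)..t, deriv β (d.f₀ v / refMax v + ∫ s in (0 : ℝ)..τ, q s) * q τ := by
      rw [← intervalIntegral.integral_const_mul]
      refine intervalIntegral.integral_congr_ae (Eventually.of_forall fun s hs => ?_)
      rw [uIoc_of_le ht] at hs
      rw [← hγ s hs.1.le]
      simp only [hc, hq]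
      field_simp
    rw [hcc, ← h, ha, ha0]
    ring
  have key := primitive_weak (a0 := a0 v) N.cast_nonneg hcI hχ (hχ0 _ le_rfl)
  have e : ∫ t in Ioc 0 (N : ℝ), deriv χ t * a t v
      = ∫ t in Ioc 0 (N : ℝ), deriv χ t * (a0 v + ∫ s in (0 : ℝ)..t, c s) :=
    setIntegral_congr_fun measurableSet_Ioc fun t ht => by rw [hprim t ht.1.le]
  show (∫ t in Ioc 0 (N : ℝ), deriv χ t * a t v) + χ 0 * a0 v
    + (∫ t in Ioc 0 (N : ℝ), χ t * b t v) = 0
  rw [e]
  exact key

theorem isRenormSol_solX : IsRenormSol d.f₀ d.solX where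
  meas := d.measurable_gR.comp (measurable_fst.prodMk measurable_snd.snd)
  nonneg t _ v := d.gR_nonneg t v
  integ t ht := by
    refine ((d.integrable_gR ht).add (d.integral_pow_gR ht (k := 2) (Or.inr rfl)).1).congr
      (Eventually.of_forall fun p => ?_)
    simp only [solX, Pi.add_apply]
    ring
  weak_cont φ hφ := fun ⟨_, hC⟩ => d.continuousOn_weak hφ hC
  init := d.gR_zero
  mass χ hχ hχc := by
    have e : ∀ t ∈ Ioi (0 : ℝ), deriv χ t * (∫ p : Pos × Vel, d.solX t p.1 p.2) = deriv χ t * d.m 0 :=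
      fun t ht => by
        have := (d.integral_pow_gR (le_of_lt ht) (k := 0) (Or.inl rfl)).2
        simp only [pow_zero, one_mul] at this
        simp only [solX, this]
    have h0 := d.integral_pow_f₀ 0
    simp only [pow_zero, one_mul] at h0
    rw [setIntegral_congr_fun measurableSet_Ioi e, integral_mul_const,
      HasCompactSupport.integral_Ioi_deriv_eq (hχ.of_le (by simp)) hχc, h0]
    ring
  energy t ht := le_of_eq (by
    rw [d.integral_pow_f₀ 2]; exact (d.integral_pow_gR ht (Or.inr rfl)).2)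
  gain_fin T := d.collision_fin d.measurable_gain_gR T fun N v =>
    le_trans le_self_add (d.gain_loss_le_dom N v)
  loss_fin T := d.collision_fin d.measurable_loss_gR T fun N v =>
    le_trans le_add_self (d.gain_loss_le_dom N v)
  renorm β hβ h0 := fun ⟨_, hC⟩ χ hχ hχc ψ hψ hψc =>
    d.renorm_solX ⟨hβ, h0, hC⟩ hχ hχc hψ hψc

end Datum

end

end Vale.Agent.P140.Homog
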