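import Vale.Agent.P140.Gronwall

/-!
P140: continuity in time, uniqueness at all times, and the homogeneous solution as a solution.
-/

namespace Vale.Agent.P140.Homog

open MeasureTheory Real Set Filter
open scoped ENNReal Topology ContDiff

noncomputable section

attribute [local irreducible] gain loss

namespace Datum

variable (d : Datum)

/-- A bound for the solution and the collision terms up to time `N`. -/
def dom (N : ℕ) (v : Vel) : ℝ≥0∞ :=
  d.sol N v + ∫⁻ s in Ioc 0 (N : ℝ), ENNReal.ofReal (d.rate v) * d.sol s v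

theorem measurable_dom (N : ℕ) : Measurable (d.dom N) := by
  have hP : Measurable fun p : ℝ × Vel => ENNReal.ofReal (d.rate p.2) * d.sol p.1 p.2 :=
    (d.measurable_rate.comp measurable_snd).ennreal_ofReal.mul d.measurable_sol
  exact (d.measurable_sol_slice N).fun_add (Measurable.lintegral_prod_left' hP)

theorem lintegral_dom_ne_top (N : ℕ) : ∫⁻ v, d.dom N v ≠ ⊤ := by
  have hP : Measurable fun p : ℝ × Vel => ENNReal.ofReal (d.rate p.2) * d.sol p.1 p.2 :=
    (d.measurable_rate.comp measurable_snd).ennreal_ofReal.mul d.measurable_sol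
  simp only [dom]
  rw [lintegral_add_left (d.measurable_sol_slice N)]
  refine ENNReal.add_ne_top.2 ⟨?_, ?_⟩
  · refine ne_top_of_le_ne_top (ENNReal.ofReal_ne_top (r := d.m 0)) ?_
    simpa [mom, pk] using (d.sol_bounds (t := (N : ℝ)) N.cast_nonneg).1
  · have e := mom_pull (pk 0) (measurable_pk 0)
      (fun s v => ENNReal.ofReal (d.rate v) * d.sol s v) hP N
    simp only [mom, pk_zero, one_mul] at e
    rw [e]
    refine (lt_of_le_of_lt (le_of_eq ?_) (d.rmom_lint_lt_top (k := 0) (by omega)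
      d.measurable_sol_slice (t := (N : ℝ)) (fun s hs => (d.sol_bounds hs.1.le).1)
      fun s hs => (d.sol_bounds hs.1.le).2.2.trans
        (ENNReal.ofReal_le_ofReal (d.cap_mono hs.2)))).ne
    exact lintegral_congr fun s => by simp [rmom, mom, pk_zero]

theorem dom_ae_ne_top : ∀ᵐ v, ∀ N : ℕ, d.dom N v ≠ ⊤ :=
  ae_all_iff.2 fun N => (ae_lt_top (d.measurable_dom N) (d.lintegral_dom_ne_top N)).mono
    fun _ hv => hv.ne

theorem sol_le_dom {N : ℕ} {t : ℝ} (ht : 0 ≤ t) (htN : t ≤ N) (v : Vel) :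
    d.sol t v ≤ d.dom N v :=
  calc d.sol t v ≤ d.F₀ v + ∫⁻ s in Ioc 0 t, modGain (d.sol s) v :=
        le_trans le_self_add (d.sol_integral ht v).le
    _ ≤ d.F₀ v + ∫⁻ s in Ioc 0 (N : ℝ), modGain (d.sol s) v :=
        add_le_add le_rfl (lintegral_mono_set (Ioc_subset_Ioc le_rfl htN))
    _ = d.dom N v := (d.sol_integral N.cast_nonneg v).symm

theorem integrable_dom (N : ℕ) : Integrable fun v => (d.dom N v).toReal :=
  integrable_toReal_of_lintegral_ne_top (d.measurable_dom N).aemeasurable (d.lintegral_dom_ne_top N)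

theorem continuousOn_gR : ∀ᵐ v, ∀ N : ℕ, ContinuousOn (fun t => d.gR t v) (Icc 0 (N : ℝ)) := by
  filter_upwards [d.gR_equation] with v hv N
  have hsl : ∀ {G : ℝ × Vel → ℝ≥0∞}, Measurable G → Measurable fun s => G (s, v) := fun hG =>
    hG.comp measurable_prodMk_right
  have hgi : ∀ T, IntegrableOn (fun s => (gain (d.gR s) v).toReal) (Ioc 0 T) ∧
      IntegrableOn (fun s => (loss (d.gR s) v).toReal) (Ioc 0 T) := fun T => by
    rcases le_total 0 T with hT | hT
    · exact ⟨integrable_toReal_of_lintegral_ne_top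
          (hsl (measurable_gain_uncurry (G := d.gR) d.measurable_gR)).aemeasurable (hv T hT).1.ne,
        integrable_toReal_of_lintegral_ne_top
          (hsl (measurable_loss_uncurry (G := d.gR) d.measurable_gR)).aemeasurable (hv T hT).2.1.ne⟩
    · simp [Ioc_eq_empty (not_lt.2 hT)]
  refine ((continuousOn_const (c := d.f₀ v)).add
    ((continuousOn_primitive_Icc (fun T => (hgi T).1) N.cast_nonneg).sub
      (continuousOn_primitive_Icc (fun T => (hgi T).2) N.cast_nonneg))).congr fun t ht => ?_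
  have := (hv t ht.1).2.2
  simp only [Pi.add_apply, Pi.sub_apply]
  linarith

theorem gR_zero : (fun p : Pos × Vel => d.gR 0 p.2) =ᵐ[volume] fun p => d.f₀ p.2 := by
  rw [Measure.volume_eq_prod]
  have e : ∀ᵐ v, d.gR 0 v = d.f₀ v := by
    filter_upwards [d.gR_equation] with v hv
    simpa using (hv 0 le_rfl).2.2
  exact Measure.quasiMeasurePreserving_snd.ae e

theorem continuousOn_weak {φ : Pos × Vel → ℝ} (hφ : Measurable φ) {C : ℝ} (hC : ∀ p, |φ p| ≤ C) :
    ContinuousOn (fun t => ∫ p : Pos × Vel, φ p * d.gR t p.2) (Ici 0) := by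
  intro t₀ ht₀
  obtain ⟨N, hN⟩ := exists_nat_gt t₀
  have key : ContinuousOn (fun t => ∫ p : Pos × Vel, φ p * d.gR t p.2) (Icc 0 (N : ℝ)) := by
    refine continuousOn_of_dominated (bound := fun p => C * (d.dom N p.2).toReal) ?_ ?_ ?_ ?_
    · exact fun t _ => (hφ.mul ((d.measurable_gR.comp measurable_prodMk_left).comp
        measurable_snd)).aestronglyMeasurable
    · intro t ht
      have h1 : ∀ᵐ v, d.dom N v ≠ ⊤ := d.dom_ae_ne_top.mono fun v hv => hv N
      rw [Measure.volume_eq_prod]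
      filter_upwards [Measure.quasiMeasurePreserving_snd.ae h1] with p hp
      rw [Real.norm_eq_abs, abs_mul, abs_of_nonneg (d.gR_nonneg _ _)]
      refine mul_le_mul (hC p) ?_ (d.gR_nonneg _ _) ((abs_nonneg _).trans (hC p))
      exact ENNReal.toReal_mono hp (d.sol_le_dom ht.1 ht.2 _)
    · exact ((d.integrable_dom N).comp_snd volume).const_mul C
    · have h1 : ∀ᵐ v, ContinuousOn (fun t => d.gR t v) (Icc 0 (N : ℝ)) :=
        d.continuousOn_gR.mono fun v hv => hv N
      rw [Measure.volume_eq_prod]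
      filter_upwards [Measure.quasiMeasurePreserving_snd.ae h1] with p hp
      exact continuousOn_const.mul hp
  exact (key t₀ ⟨ht₀, hN.le⟩).mono_of_mem_nhdsWithin
    (by
      rw [← Ici_inter_Iic]
      exact inter_mem_nhdsWithin _ (Iic_mem_nhds hN))

theorem integral_pow_gR {t : ℝ} (ht : 0 ≤ t) {k : ℕ} (hk : k = 0 ∨ k = 2) :
    Integrable (fun p : Pos × Vel => ‖p.2‖ ^ k * d.gR t p.2) ∧
      ∫ p : Pos × Vel, ‖p.2‖ ^ k * d.gR t p.2 = d.m k := by
  have hm : Measurable fun v => ‖v‖ ^ k * d.gR t v :=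
    (continuous_norm.pow k).measurable.mul (d.measurable_gR.comp measurable_prodMk_left)
  have h0 : ∀ v : Vel, 0 ≤ ‖v‖ ^ k * d.gR t v := fun v =>
    mul_nonneg (pow_nonneg (norm_nonneg v) k) (d.gR_nonneg t v)
  have e : ∫⁻ v, ENNReal.ofReal (‖v‖ ^ k * d.gR t v) = ENNReal.ofReal (d.m k) := by
    have hc : mom (pk k) (d.sol t) = ENNReal.ofReal (d.m k) := by
      rcases hk with rfl | rfl
      · exact (d.sol_conserve ht).1
      · exact (d.sol_conserve ht).2
    rw [← hc, ← d.mom_gR ht]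
    exact lintegral_congr fun v => ENNReal.ofReal_mul (by positivity)
  have hi : Integrable fun v => ‖v‖ ^ k * d.gR t v :=
    ⟨hm.aestronglyMeasurable, (hasFiniteIntegral_iff_ofReal (Eventually.of_forall h0)).2
      (by rw [e]; exact ENNReal.ofReal_lt_top)⟩
  refine ⟨hi.comp_snd volume, ?_⟩
  rw [Measure.volume_eq_prod, integral_fun_snd (fun v => ‖v‖ ^ k * d.gR t v)]
  simp only [probReal_univ, one_smul]
  rw [integral_eq_lintegral_of_nonneg_ae (Eventually.of_forall h0) hm.aestronglyMeasurable, e,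
    ENNReal.toReal_ofReal (d.m_nonneg k)]

theorem integrable_gR {t : ℝ} (ht : 0 ≤ t) : Integrable fun p : Pos × Vel => d.gR t p.2 := by
  simpa using (d.integral_pow_gR ht (k := 0) (Or.inl rfl)).1

theorem gain_loss_le_dom (N : ℕ) (v : Vel) :
    (∫⁻ s in Ioc 0 (N : ℝ), gain (d.gR s) v) + ∫⁻ s in Ioc 0 (N : ℝ), loss (d.gR s) v
      ≤ d.dom N v + (d.dom N v + d.dom N v) := by
  have hg : ∀ s, gain (d.gR s) v ≤ gainE (d.sol s) v := fun s => by
    unfold gain gainE
    refine lintegral_mono fun q => ?_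
    simp only [gR]
    rw [ENNReal.ofReal_mul (abs_nonneg _), ENNReal.ofReal_mul ENNReal.toReal_nonneg]
    exact mul_le_mul' le_rfl (mul_le_mul' ENNReal.ofReal_toReal_le ENNReal.ofReal_toReal_le)
  have hl : ∀ s, loss (d.gR s) v ≤ lossE (d.sol s) v := fun s => by
    unfold loss lossE
    refine lintegral_mono fun q => ?_
    simp only [gR]
    rw [ENNReal.ofReal_mul (abs_nonneg _), ENNReal.ofReal_mul ENNReal.toReal_nonneg]
    exact mul_le_mul' le_rfl (mul_le_mul' ENNReal.ofReal_toReal_le ENNReal.ofReal_toReal_le)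
  have hM : ∫⁻ s in Ioc 0 (N : ℝ), modGain (d.sol s) v ≤ d.dom N v :=
    le_trans le_add_self (d.sol_integral N.cast_nonneg v).ge
  have hrm : Measurable fun s => ENNReal.ofReal (d.rate v) * d.sol s v :=
    (d.measurable_sol.comp measurable_prodMk_right).const_mul _
  refine add_le_add ((lintegral_mono fun s => (hg s).trans (gainE_le_modGain _ _)).trans hM) ?_
  calc ∫⁻ s in Ioc 0 (N : ℝ), loss (d.gR s) v
      ≤ ∫⁻ s in Ioc 0 (N : ℝ), (modGain (d.sol s) v + ENNReal.ofReal (d.rate v) * d.sol s v) := by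
        refine setLIntegral_mono' measurableSet_Ioc fun s hs => ?_
        exact (hl s).trans ((le_trans le_add_self (d.collision_split hs.1.le v).le).trans
          (add_le_add (gainE_le_modGain _ _) le_rfl))
    _ ≤ d.dom N v + d.dom N v := by
        rw [lintegral_add_right _ hrm]
        exact add_le_add hM le_add_self

end Datum

namespace IsRenormSol

variable {d : Datum} {F : ℝ → Pos → Vel → ℝ} (h : IsRenormSol d.f₀ F)
include h

/-- The solution is the homogeneous one at every time. -/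
theorem eq_gR {t : ℝ} (ht : 0 ≤ t) :
    (fun p : Pos × Vel => F t p.1 p.2) =ᵐ[volume] fun p => d.gR t p.2 := by
  refine Integrable.ae_eq_of_forall_setIntegral_eq _ _ (h.integrable_slice ht) (d.integrable_gR ht)
    fun S hS _ => ?_
  have hm : Measurable (S.indicator (1 : Pos × Vel → ℝ)) := measurable_one.indicator hS
  have hb : ∀ p, |S.indicator (1 : Pos × Vel → ℝ) p| ≤ 1 := fun p => by
    by_cases hp : p ∈ S <;> simp [hp]
  have hae : ∀ᵐ u, u ∈ Ioi (0 : ℝ) → ∫ p : Pos × Vel, S.indicator 1 p * F u p.1 p.2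
      = ∫ p : Pos × Vel, S.indicator 1 p * d.gR u p.2 := by
    filter_upwards [h.eq_gR_ae] with u hu hu'
    exact integral_congr_ae ((hu hu').mono fun p hp => by simp only; rw [show F u p.1 p.2 = _ from hp])
  have hc1 := h.weak_cont _ hm ⟨1, hb⟩
  have hc2 := d.continuousOn_weak hm hb
  have h1 : EqOn (fun u => ∫ p : Pos × Vel, S.indicator 1 p * F u p.1 p.2)
      (fun u => ∫ p : Pos × Vel, S.indicator 1 p * d.gR u p.2) (Ioi 0) :=
    Measure.eqOn_open_of_ae_eq ((ae_restrict_iff' measurableSet_Ioi).2 hae) isOpen_Ioi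
      (hc1.mono Ioi_subset_Ici_self) (hc2.mono Ioi_subset_Ici_self)
  have h2 := h1.of_subset_closure hc1 hc2 Ioi_subset_Ici_self (by rw [closure_Ioi]) ht
  have e : ∀ f : Pos × Vel → ℝ, ∫ p in S, f p = ∫ p, S.indicator 1 p * f p := fun f => by
    rw [← integral_indicator hS]
    refine integral_congr_ae (Eventually.of_forall fun p => ?_)
    by_cases hp : p ∈ S <;> simp [hp]
  rw [e, e]
  exact h2

/-- Energy is conserved. -/
theorem energy_eq {t : ℝ} (ht : 0 ≤ t) :
    ∫ p : Pos × Vel, ‖p.2‖ ^ 2 * F t p.1 p.2 = ∫ p : Pos × Vel, ‖p.2‖ ^ 2 * d.f₀ p.2 := by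
  have e0 : ∫ p : Pos × Vel, ‖p.2‖ ^ 2 * d.f₀ p.2 = d.m 2 := by
    rw [Measure.volume_eq_prod, integral_fun_snd (fun v => ‖v‖ ^ 2 * d.f₀ v)]
    simp [Datum.m]
  rw [e0, ← (d.integral_pow_gR ht (Or.inr rfl)).2]
  exact integral_congr_ae ((h.eq_gR ht).mono fun p hp => by simp only; rw [show F t p.1 p.2 = _ from hp])

end IsRenormSol

end

end Vale.Agent.P140.Homog
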